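import Mathlib

/-!
# P262, scheme S1: partition cost and nested selection (block D4, abstract part)

`S k a b` : the interval `[a, b)` is `k`-slow.  `Cost S ρ a b` = infimum over partitions of `[a, b)`
into `k_i`-slow intervals of `∑ ρ ^ k_i`.
-/

namespace Vale.Agent.P262.H274

open Set

variable {S : ℕ → ℕ → ℕ → Prop} {ρ : ℝ}

/-- `[a, b)` has a partition into slow intervals of total price `c`. -/
inductive HasCost (S : ℕ → ℕ → ℕ → Prop) (ρ : ℝ) : ℕ → ℕ → ℝ → Prop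
  | nil (a : ℕ) : HasCost S ρ a a 0
  | cons (a b b' k : ℕ) (c : ℝ) : a < b → S k a b → HasCost S ρ b b' c →
      HasCost S ρ a b' (ρ ^ k + c)

lemma HasCost.le {a b : ℕ} {c : ℝ} (h : HasCost S ρ a b c) : a ≤ b := by
  induction h with
  | nil a => exact le_rfl
  | cons a b b' k c hab _ _ ih => exact hab.le.trans ih

lemma HasCost.nonneg (hρ : 0 ≤ ρ) {a b : ℕ} {c : ℝ} (h : HasCost S ρ a b c) : 0 ≤ c := by
  induction h with
  | nil a => exact le_rfl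
  | cons a b b' k c _ _ _ ih => positivity

lemma HasCost.append {a b b' : ℕ} {c c' : ℝ} (h : HasCost S ρ a b c) (h' : HasCost S ρ b b' c') :
    HasCost S ρ a b' (c + c') := by
  induction h with
  | nil a => simpa using h'
  | cons a b b₁ k c hab hS _ ih => rw [add_assoc]; exact .cons a b b' k _ hab hS (ih h')

lemma HasCost.single {a b k : ℕ} (hab : a < b) (h : S k a b) : HasCost S ρ a b (ρ ^ k) := by
  have := HasCost.cons (ρ := ρ) a b b k 0 hab h (.nil b)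
  simpa using this

lemma HasCost.lower (hρ0 : 0 < ρ) (hρ1 : ρ ≤ 1) {M : ℕ} (hb : ∀ k a b, S k a b → k ≤ M)
    {a b : ℕ} {c : ℝ} (h : HasCost S ρ a b c) (hab : a < b) : ρ ^ M ≤ c := by
  cases h with
  | nil => exact absurd hab (lt_irrefl _)
  | cons _ b₁ _ k c _ hS h' =>
    have h1 : ρ ^ M ≤ ρ ^ k := pow_le_pow_of_le_one hρ0.le hρ1 (hb _ _ _ hS)
    have h2 := h'.nonneg hρ0.le
    linarith

/-- the partition cost. -/
noncomputable def Cost (S : ℕ → ℕ → ℕ → Prop) (ρ : ℝ) (a b : ℕ) : ℝ := sInf {c | HasCost S ρ a b c}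

lemma bddBelow_cost (hρ : 0 ≤ ρ) (a b : ℕ) : BddBelow {c | HasCost S ρ a b c} :=
  ⟨0, fun _ h => HasCost.nonneg hρ h⟩

lemma cost_le (hρ : 0 ≤ ρ) {a b : ℕ} {c : ℝ} (h : HasCost S ρ a b c) : Cost S ρ a b ≤ c :=
  csInf_le (bddBelow_cost hρ a b) h

lemma cost_nonempty {k : ℕ} (hs : ∀ t, S k t (t + 1)) {a b : ℕ} (hab : a ≤ b) :
    {c | HasCost S ρ a b c}.Nonempty := by
  induction b, hab using Nat.le_induction with
  | base => exact ⟨0, .nil a⟩
  | succ b hab ih =>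
    obtain ⟨c, hc⟩ := ih
    exact ⟨c + ρ ^ k, hc.append (.single (Nat.lt_succ_self b) (hs b))⟩

lemma cost_nonneg (hρ : 0 ≤ ρ) (a b : ℕ) : 0 ≤ Cost S ρ a b :=
  Real.sInf_nonneg fun _ h => HasCost.nonneg hρ h

lemma cost_pos (hρ0 : 0 < ρ) (hρ1 : ρ ≤ 1) {M k : ℕ} (hb : ∀ k a b, S k a b → k ≤ M)
    (hs : ∀ t, S k t (t + 1)) {a b : ℕ} (hab : a < b) : 0 < Cost S ρ a b :=
  lt_of_lt_of_le (pow_pos hρ0 M)
    (le_csInf (cost_nonempty hs hab.le) fun _ h => HasCost.lower hρ0 hρ1 hb h hab)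

lemma cost_subadd (hρ : 0 ≤ ρ) {k : ℕ} (hs : ∀ t, S k t (t + 1)) {a b c : ℕ} (hab : a ≤ b)
    (hbc : b ≤ c) : Cost S ρ a c ≤ Cost S ρ a b + Cost S ρ b c := by
  refine le_of_forall_pos_le_add fun ε hε => ?_
  obtain ⟨x, hx, hx'⟩ := exists_lt_of_csInf_lt (cost_nonempty (ρ := ρ) hs hab)
    (lt_add_of_pos_right (Cost S ρ a b) (half_pos hε))
  obtain ⟨y, hy, hy'⟩ := exists_lt_of_csInf_lt (cost_nonempty (ρ := ρ) hs hbc)
    (lt_add_of_pos_right (Cost S ρ b c) (half_pos hε))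
  have := cost_le hρ (HasCost.append hx hy)
  linarith

lemma cost_le_pow (hρ : 0 ≤ ρ) {a b k : ℕ} (hab : a < b) (h : S k a b) : Cost S ρ a b ≤ ρ ^ k :=
  cost_le hρ (.single hab h)

/-! ### greedy maximal slow piece -/

lemma exists_max_slow {k a b : ℕ} (hs : S k a (a + 1)) (hab : a < b) :
    ∃ t, a < t ∧ t ≤ b ∧ S k a t ∧ (t = b ∨ ¬ S k a (t + 1)) := by
  classical
  by_contra hcon
  push Not at hcon
  have : ∀ n, a + 1 + n ≤ b → S k a (a + 1 + n) := by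
    intro n
    induction n with
    | zero => intro _; exact hs
    | succ n ih =>
      intro h
      have h1 := ih (by omega)
      have h2 := hcon (a + 1 + n) (by omega) (by omega) h1
      exact h2.2
  have h1 := this (b - (a + 1)) (by omega)
  have h2 : a + 1 + (b - (a + 1)) = b := by omega
  rw [h2] at h1
  exact (hcon b hab le_rfl h1).1 rfl

/-- sum over an interval. -/
def Gam (g : ℕ → ℝ) (a b : ℕ) : ℝ := ∑ t ∈ Finset.Ico a b, g t

lemma gam_add (g : ℕ → ℝ) {a b c : ℕ} (hab : a ≤ b) (hbc : b ≤ c) :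
    Gam g a c = Gam g a b + Gam g b c := (Finset.sum_Ico_consecutive g hab hbc).symm

lemma gam_nonneg {g : ℕ → ℝ} (hg : ∀ t, 0 ≤ g t) (a b : ℕ) : 0 ≤ Gam g a b :=
  Finset.sum_nonneg fun t _ => hg t

/-- **Selection.** -/
theorem select (hρ0 : 0 < ρ) (hρ1 : ρ ≤ 1) {M k : ℕ} (hb : ∀ k a b, S k a b → k ≤ M)
    (hmono : ∀ k a b a' b', S k a b → a ≤ a' → b' ≤ b → S k a' b')
    (hs : ∀ t, S k t (t + 1)) {g : ℕ → ℝ} (hg : ∀ t, 0 ≤ g t) :
    ∀ (n a b : ℕ), b - a = n → ¬ S k a b →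
      ∃ a' b', a ≤ a' ∧ a' < b' ∧ b' ≤ b ∧ ¬ S k a' b' ∧ Cost S ρ a' b' ≤ 3 * ρ ^ k ∧
        Gam g a' b' * Cost S ρ a b ≤ Gam g a b * Cost S ρ a' b' := by
  intro n
  induction n using Nat.strong_induction_on with
  | _ n ih =>
  intro a b hn hS
  have hρk : 0 ≤ ρ ^ k := by positivity
  have hab : a < b := by
    by_contra h
    exact hS (hmono k a (a + 1) a b (hs a) le_rfl (by omega))
  obtain ⟨t₁, h1a, h1b, hS1, h1⟩ := exists_max_slow (hs a) hab
  have h1b' : t₁ < b := lt_of_le_of_ne h1b fun h => hS (h ▸ hS1)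
  have hnS1 : ¬ S k a (t₁ + 1) := h1.resolve_left h1b'.ne
  obtain ⟨t₂, h2a, h2b, hS2, h2⟩ := exists_max_slow (hs t₁) h1b'
  have c1 : Cost S ρ a t₁ ≤ ρ ^ k := cost_le_pow hρ0.le h1a hS1
  have c2 : Cost S ρ t₁ t₂ ≤ ρ ^ k := cost_le_pow hρ0.le h2a hS2
  have c12 : Cost S ρ a t₂ ≤ 2 * ρ ^ k := by
    have := cost_subadd (ρ := ρ) hρ0.le hs h1a.le h2a.le
    linarith
  rcases h2b.eq_or_lt with h2e | h2l
  · subst h2e
    exact ⟨a, t₂, le_rfl, hab, le_rfl, hS, by linarith, le_rfl⟩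
  by_cases hS3 : S k t₂ b
  · refine ⟨a, b, le_rfl, hab, le_rfl, hS, ?_, le_rfl⟩
    have c3 : Cost S ρ t₂ b ≤ ρ ^ k := cost_le_pow hρ0.le h2l hS3
    have := cost_subadd (ρ := ρ) hρ0.le hs (h1a.le.trans h2a.le) h2l.le
    linarith
  · by_cases hr : Gam g a t₂ * Cost S ρ a b ≤ Gam g a b * Cost S ρ a t₂
    · refine ⟨a, t₂, le_rfl, h1a.trans h2a, h2b, ?_, by linarith, hr⟩
      intro h
      exact hnS1 (hmono k a t₂ a (t₁ + 1) h le_rfl h2a)
    · obtain ⟨a', b', ha', hab', hb', hS', hc', hr'⟩ := ih (b - t₂) (by omega) t₂ b rfl hS3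
      refine ⟨a', b', (h1a.trans h2a).le.trans ha', hab', hb', hS', hc', ?_⟩
      push Not at hr
      have hC : 0 < Cost S ρ t₂ b := cost_pos hρ0 hρ1 hb hs h2l
      have hsub := cost_subadd (ρ := ρ) hρ0.le hs (h1a.trans h2a).le h2b
      have hadd := gam_add g (h1a.trans h2a).le h2b
      have hG0 := gam_nonneg hg a b
      have key : Gam g t₂ b * Cost S ρ a b ≤ Gam g a b * Cost S ρ t₂ b := by
        have e1 : Gam g t₂ b * Cost S ρ a b
            = Gam g a b * Cost S ρ a b - Gam g a t₂ * Cost S ρ a b := by rw [hadd]; ring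
        nlinarith
      have hC' := cost_nonneg (S := S) hρ0.le a' b'
      have hCab := cost_nonneg (S := S) hρ0.le a b
      refine le_of_mul_le_mul_right ?_ hC
      calc Gam g a' b' * Cost S ρ a b * Cost S ρ t₂ b
          = (Gam g a' b' * Cost S ρ t₂ b) * Cost S ρ a b := by ring
        _ ≤ (Gam g t₂ b * Cost S ρ a' b') * Cost S ρ a b := mul_le_mul_of_nonneg_right hr' hCab
        _ = (Gam g t₂ b * Cost S ρ a b) * Cost S ρ a' b' := by ring
        _ ≤ (Gam g a b * Cost S ρ t₂ b) * Cost S ρ a' b' := mul_le_mul_of_nonneg_right key hC'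
        _ = Gam g a b * Cost S ρ a' b' * Cost S ρ t₂ b := by ring

/-- **Nested selection** (711 #10332 (4)).  `[a, b)` is not `1`-slow, single steps are `M`-slow,
`Γ[a, b) ≤ c * Cost`: there are nested `r_1 ⊇ .. ⊇ r_M`, `r_k` not `k`-slow with
`Γ(r_k) ≤ 3 ρ^k c`, with a common point. -/
theorem nested_selection (hρ0 : 0 < ρ) (hρ1 : ρ ≤ 1) {M M' : ℕ}
    (hb : ∀ k a b, S k a b → k ≤ M')
    (hmono : ∀ k a b a' b', S k a b → a ≤ a' → b' ≤ b → S k a' b')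
    (hdec : ∀ k a b, S (k + 1) a b → S k a b)
    (hs : ∀ t, S M t (t + 1)) {g : ℕ → ℝ} (hg : ∀ t, 0 ≤ g t) {a b : ℕ} (hab : a < b)
    (hS : ¬ S 1 a b) {c : ℝ} (hc : Gam g a b ≤ c * Cost S ρ a b) :
    ∃ l u : ℕ → ℕ, (∀ k, a ≤ l k ∧ u k ≤ b ∧ l k ≤ l (k + 1) ∧ u (k + 1) ≤ u k) ∧
      (∀ k, 1 ≤ k → k ≤ M → l k < u k ∧ ¬ S k (l k) (u k) ∧ Gam g (l k) (u k) ≤ 3 * ρ ^ k * c) ∧
      ∃ t, ∀ k, k ≤ M → l k ≤ t ∧ t < u k := by
  classical
  have hdec' : ∀ j k, j ≤ k → ∀ a b, S k a b → S j a b := by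
    intro j k hjk
    induction k, hjk using Nat.le_induction with
    | base => exact fun _ _ h => h
    | succ k _ ih => exact fun a b h => ih a b (hdec k a b h)
  have hsk : ∀ k ≤ M, ∀ t, S k t (t + 1) := fun k hk t => hdec' k M hk _ _ (hs t)
  -- state: interval `(l, u)` together with its invariants
  let P : ℕ → ℕ × ℕ → Prop := fun k p => a ≤ p.1 ∧ p.1 < p.2 ∧ p.2 ≤ b ∧
    ¬ S (max k 1) p.1 p.2 ∧ (1 ≤ k → Cost S ρ p.1 p.2 ≤ 3 * ρ ^ k) ∧
    Gam g p.1 p.2 * Cost S ρ a b ≤ Gam g a b * Cost S ρ p.1 p.2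
  have hcab : 0 < Cost S ρ a b := cost_pos hρ0 hρ1 hb hs hab
  have step : ∀ k, k + 1 ≤ M → ∀ p : ℕ × ℕ, P k p →
      ∃ p' : ℕ × ℕ, P (k + 1) p' ∧ p.1 ≤ p'.1 ∧ p'.2 ≤ p.2 := by
    rintro k hk ⟨p1, p2⟩ ⟨ha, hlt, hb', hnS, -, hr⟩
    have hnS' : ¬ S (k + 1) p1 p2 := by
      intro h
      apply hnS
      exact hdec' _ _ (by omega) _ _ h
    obtain ⟨a', b', h1, h2, h3, h4, h5, h6⟩ :=
      select hρ0 hρ1 hb hmono (hsk (k + 1) hk) hg (p2 - p1) p1 p2 rfl hnS'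
    refine ⟨(a', b'), ⟨ha.trans h1, h2, h3.trans hb', ?_, fun _ => h5, ?_⟩, h1, h3⟩
    · have : max (k + 1) 1 = k + 1 := by omega
      rw [this]; exact h4
    · simp only at hr h6 ⊢
      have hC : 0 < Cost S ρ p1 p2 := cost_pos hρ0 hρ1 hb hs hlt
      have hC' := cost_nonneg (S := S) hρ0.le a' b'
      refine le_of_mul_le_mul_right ?_ hC
      calc Gam g a' b' * Cost S ρ a b * Cost S ρ p1 p2
          = (Gam g a' b' * Cost S ρ p1 p2) * Cost S ρ a b := by ring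
        _ ≤ (Gam g p1 p2 * Cost S ρ a' b') * Cost S ρ a b :=
            mul_le_mul_of_nonneg_right h6 hcab.le
        _ = (Gam g p1 p2 * Cost S ρ a b) * Cost S ρ a' b' := by ring
        _ ≤ (Gam g a b * Cost S ρ p1 p2) * Cost S ρ a' b' := mul_le_mul_of_nonneg_right hr hC'
        _ = Gam g a b * Cost S ρ a' b' * Cost S ρ p1 p2 := by ring
  let nxt : ℕ → ℕ × ℕ → ℕ × ℕ := fun k p =>
    if h : k + 1 ≤ M ∧ P k p then (step k h.1 p h.2).choose else p
  let R : ℕ → ℕ × ℕ := fun k => Nat.rec (a, b) (fun k p => nxt k p) k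
  have hR0 : R 0 = (a, b) := rfl
  have hRs : ∀ k, R (k + 1) = nxt k (R k) := fun k => rfl
  have hnest : ∀ k, (R k).1 ≤ (R (k + 1)).1 ∧ (R (k + 1)).2 ≤ (R k).2 := by
    intro k
    rw [hRs]
    simp only [nxt]
    split_ifs with h
    · exact (step k h.1 (R k) h.2).choose_spec.2
    · exact ⟨le_rfl, le_rfl⟩
  have hP : ∀ k, k ≤ M → P k (R k) := by
    intro k
    induction k with
    | zero =>
      intro _
      rw [hR0]
      refine ⟨le_rfl, hab, le_rfl, ?_, fun h => absurd h (by omega), le_rfl⟩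
      simpa using hS
    | succ k ih =>
      intro hk
      have h := ih (by omega)
      rw [hRs]
      simp only [nxt]
      rw [dif_pos ⟨hk, h⟩]
      exact (step k hk (R k) h).choose_spec.1
  have hbd : ∀ k, a ≤ (R k).1 ∧ (R k).2 ≤ b := by
    intro k
    induction k with
    | zero => rw [hR0]; exact ⟨le_rfl, le_rfl⟩
    | succ k ih => exact ⟨ih.1.trans (hnest k).1, (hnest k).2.trans ih.2⟩
  have hmonoR : ∀ j k, j ≤ k → (R j).1 ≤ (R k).1 ∧ (R k).2 ≤ (R j).2 := by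
    intro j k hjk
    induction k, hjk using Nat.le_induction with
    | base => exact ⟨le_rfl, le_rfl⟩
    | succ k _ ih => exact ⟨ih.1.trans (hnest k).1, (hnest k).2.trans ih.2⟩
  refine ⟨fun k => (R k).1, fun k => (R k).2, fun k => ⟨(hbd k).1, (hbd k).2, (hnest k).1,
    (hnest k).2⟩, ?_, (R M).1, ?_⟩
  · intro k h1 hk
    obtain ⟨-, hlt, -, hnS, hc3, hr⟩ := hP k hk
    have hmx : max k 1 = k := by omega
    rw [hmx] at hnS
    refine ⟨hlt, hnS, ?_⟩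
    have hc3' := hc3 h1
    have hG := gam_nonneg hg a b
    have hc0 : 0 ≤ c := by
      by_contra h
      push Not at h
      have : c * Cost S ρ a b < 0 := mul_neg_of_neg_of_pos h hcab
      linarith
    refine le_of_mul_le_mul_right ?_ hcab
    have hCk := cost_nonneg (S := S) hρ0.le (R k).1 (R k).2
    calc Gam g (R k).1 (R k).2 * Cost S ρ a b ≤ Gam g a b * Cost S ρ (R k).1 (R k).2 := hr
      _ ≤ (c * Cost S ρ a b) * Cost S ρ (R k).1 (R k).2 := mul_le_mul_of_nonneg_right hc hCk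
      _ ≤ (c * Cost S ρ a b) * (3 * ρ ^ k) :=
          mul_le_mul_of_nonneg_left hc3' (mul_nonneg hc0 hcab.le)
      _ = 3 * ρ ^ k * c * Cost S ρ a b := by ring
  · intro k hk
    exact ⟨(hmonoR k M hk).1, lt_of_lt_of_le (hP M le_rfl).2.1 (hmonoR k M hk).2⟩

end Vale.Agent.P262.H274
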