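import Vale.Agent.P262.H274.D3b
import Vale.Agent.P262.H274.D4

/-!
# P262, scheme S1: deterministic half of the gain-cost lemma (711 #10332 (2)-(4))
-/

namespace Vale.Agent.P262.H274

open Set Metric RealInnerProductSpace Module

variable {E : Type*} [NormedAddCommGroup E] [InnerProductSpace ℝ E] [FiniteDimensional ℝ E]

lemma SlowEx.mono {v : ℕ → E} {N : ℝ} {k a b a' b' : ℕ} (h : SlowEx v N k a b) (ha : a ≤ a')
    (hb : b' ≤ b) : SlowEx v N k a' b' := by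
  obtain ⟨V, hV, hs⟩ := h
  refine ⟨V, hV, le_trans ?_ hs⟩
  exact Finset.sum_le_sum_of_subset_of_nonneg (Finset.Ico_subset_Ico ha hb)
    fun _ _ _ => by positivity

lemma Slow.mono {v : ℕ → E} {N : ℝ} {k a b a' b' : ℕ} (h : Slow v N k a b) (ha : a ≤ a')
    (hb : b' ≤ b) : Slow v N k a' b' := by
  obtain ⟨j, hj, h⟩ := h
  exact ⟨j, hj, h.mono ha hb⟩

lemma Slow.dec {v : ℕ → E} {N : ℝ} {k a b : ℕ} (h : Slow v N (k + 1) a b) : Slow v N k a b := by
  obtain ⟨j, hj, h⟩ := h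
  exact ⟨j, by omega, h⟩

lemma Slow.le_finrank {v : ℕ → E} {N : ℝ} {k a b : ℕ} (h : Slow v N k a b) :
    k ≤ finrank ℝ E := by
  obtain ⟨j, hj, V, hV, -⟩ := h
  exact hj.trans ((hV 0) ▸ Submodule.finrank_le (V 0))

lemma SlowEx.mono_right {v : ℕ → E} {N N' : ℝ} {k a b : ℕ} (h : SlowEx v N k a b) (hN : N ≤ N') :
    SlowEx v N' k a b := by
  obtain ⟨V, hV, hs⟩ := h
  exact ⟨V, hV, hs.trans hN⟩

/-- one step is `(m-1)`-slow. -/
lemma slow_step (v : ℕ → E) {N : ℝ} (hN : 0 ≤ N) (t : ℕ) :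
    Slow v N (finrank ℝ E - 1) t (t + 1) := by
  set V : Submodule ℝ E := (Submodule.span ℝ {v t})ᗮ with hV
  refine ⟨finrank ℝ V, ?_, fun _ => V, fun _ => rfl, ?_⟩
  · have h1 := (Submodule.span ℝ {v t}).finrank_add_finrank_orthogonal
    have h2 : finrank ℝ (Submodule.span ℝ {v t}) ≤ 1 := by
      have := finrank_span_le_card (R := ℝ) ({v t} : Set E)
      simpa using this
    rw [← hV] at h1
    omega
  · rw [Nat.Ico_succ_singleton, Finset.sum_singleton, sub_self, norm_zero, add_zero]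
    have h1 : V.starProjection (v t) = 0 := by
      rw [Submodule.starProjection_apply_eq_zero_iff, hV]
      exact Submodule.le_orthogonal_orthogonal _ (Submodule.mem_span_singleton_self _)
    rw [h1, norm_zero]; exact hN

/-- **Deterministic half of the gain-cost lemma**. -/
theorem deterministic_half (v : ℕ → E) {N ρ : ℝ} (hN0 : 0 < N) (hN1 : N ≤ 1) (hρ0 : 0 < ρ)
    (hρ1 : ρ ≤ 1) {g : ℕ → ℝ} (hg : ∀ t, 0 ≤ g t) {a b : ℕ} (hab : a < b)
    (hS : ¬ Slow v N 1 a b) {c : ℝ} (hc : Gam g a b ≤ c * Cost (Slow v N) ρ a b) :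
    ∃ l u : ℕ → ℕ, (∀ k, a ≤ l k ∧ u k ≤ b ∧ l k ≤ l (k + 1) ∧ u (k + 1) ≤ u k) ∧
      (∀ k, 1 ≤ k → k + 1 ≤ finrank ℝ E → l k < u k ∧ Gam g (l k) (u k) ≤ 3 * ρ ^ k * c ∧
        ∀ ε > 0, ∃ V : Submodule ℝ E, finrank ℝ V < k ∧ ∀ x,
          N / 9 ^ k * ‖x - V.starProjection x‖
            ≤ supp (WSet (fun t => v (l k + t)) (u k - l k) N) x + ε * ‖x‖) ∧
      ∃ t, ∀ k, k + 1 ≤ finrank ℝ E → l k ≤ t ∧ t < u k := by
  obtain ⟨l, u, h1, h2, t, h3⟩ := nested_selection (S := Slow v N) (M := finrank ℝ E - 1)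
    (M' := finrank ℝ E) hρ0 hρ1 (fun _ _ _ h => h.le_finrank)
    (fun _ _ _ _ _ h ha hb => h.mono ha hb) (fun _ _ _ h => h.dec)
    (slow_step v hN0.le) hg hab hS hc
  refine ⟨l, u, h1, ?_, t, fun k hk => h3 k (by omega)⟩
  intro k hk1 hk2
  obtain ⟨hlt, hnS, hG⟩ := h2 k hk1 (by omega)
  refine ⟨hlt, hG, ?_⟩
  have hlu : l k + (u k - l k) = u k := by omega
  rcases pivot_slow v hN0 hN1 hk1 (l k) (u k - l k) with h | h
  · rw [hlu] at h
    exact absurd ⟨k, le_rfl, h⟩ hnS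
  · exact h

/-- a not `1`-slow interval: the reachable set is everything of norm `≤ N`-ish (used when
`finrank E = 1`, and for the scale `k = 1`). -/
theorem not_slow_one (v : ℕ → E) {N : ℝ} (hN0 : 0 < N) (hN1 : N ≤ 1) {a b : ℕ} (hab : a ≤ b)
    (hS : ¬ Slow v N 1 a b) :
    ∀ x, N / 9 * ‖x‖ ≤ supp (WSet (fun t => v (a + t)) (b - a) N) x := by
  intro x
  have hlu : a + (b - a) = b := by omega
  rcases pivot_slow v hN0 hN1 le_rfl a (b - a) with h | h
  · rw [hlu] at h; exact absurd ⟨1, le_rfl, h⟩ hS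
  · refine le_of_forall_pos_le_add fun ε hε => ?_
    obtain ⟨V, hV, hx⟩ := h (ε / (‖x‖ + 1)) (by positivity)
    have hV0 : V = ⊥ := Submodule.finrank_eq_zero.1 (by omega)
    have h1 := hx x
    rw [hV0] at h1
    have h2 : (⊥ : Submodule ℝ E).starProjection x = 0 := by
      rw [Submodule.starProjection_apply_eq_zero_iff]; simp
    rw [h2, sub_zero, pow_one] at h1
    have h3 : ε / (‖x‖ + 1) * ‖x‖ ≤ ε := by
      rw [div_mul_eq_mul_div, div_le_iff₀ (by positivity)]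
      nlinarith [norm_nonneg x]
    linarith

end Vale.Agent.P262.H274
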