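import Vale.Agent.P262.H274.D8

/-!
# P262, scheme S1: gain-cost lemma, step (5), numerical form
-/

namespace Vale.Agent.P262.H274

open Set Metric RealInnerProductSpace Module Filter Topology MeasureTheory ProbabilityTheory
open Vale.Agent.P262.H941 (Adm FluxLe mom)
open Vale.Agent.P262.H847 (UI)

/-- the constant of the level estimate. -/
noncomputable def sig (κ δ : ℝ) (M : ℕ) : ℝ :=
  2 * κ / δ + 60 * δ ^ 2 + 3 * (M + 1) * κ + 15 / 2 ^ M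

lemma sqrt_e_le : Real.exp (1 / 2) ≤ 1.65 := by
  have h1 : Real.exp (1 / 2) ^ 2 = Real.exp 1 := by
    rw [← Real.exp_nat_mul]; norm_num
  have h2 := Real.exp_one_lt_d9
  have h3 := Real.exp_pos (1 / 2)
  nlinarith

lemma sqrt_two_le : √2 ≤ (1.415 : ℝ) := by
  rw [Real.sqrt_le_left (by norm_num)]; norm_num

/-- first term -/
lemma arith1 {N κ δ D r : ℝ} {k : ℕ} (hN0 : 0 < N) (hκ0 : 0 < κ) (hδ0 : 0 < δ) (hD0 : 0 < D)
    (hr0 : 0 < r) :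
    9 ^ k / (N * (δ * (1 / 6) ^ k)) * (Real.exp (1 / 2) * (κ * (1 / 216) ^ k * (N * r) * D))
      ≤ 2 * κ / δ * (1 / 4) ^ k * (r * D) := by
  have e1 : 9 ^ k / (N * (δ * (1 / 6) ^ k))
        * (Real.exp (1 / 2) * (κ * (1 / 216) ^ k * (N * r) * D))
      = Real.exp (1 / 2) * (κ / δ) * ((9 : ℝ) ^ k * (1 / 216) ^ k / (1 / 6) ^ k) * (r * D) := by
    field_simp
  have e2 : (9 : ℝ) ^ k * (1 / 216) ^ k / (1 / 6) ^ k = (1 / 4) ^ k := by
    rw [← mul_pow, ← div_pow]; norm_num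
  rw [e1, e2]
  have h : Real.exp (1 / 2) * (κ / δ) ≤ 2 * κ / δ := by
    rw [mul_div_assoc]
    exact mul_le_mul_of_nonneg_right (by linarith [sqrt_e_le]) (by positivity)
  exact mul_le_mul_of_nonneg_right (mul_le_mul_of_nonneg_right h (by positivity))
    (by positivity)

/-- second term -/
lemma arith2 {N δ D r η : ℝ} {k : ℕ} (hN0 : 0 < N) (hδ0 : 0 < δ) (hD0 : 0 < D)
    (hr : 0.832 ≤ r) (hrL : 0.693 ≤ r ^ 2) (hη : η ≤ D) (hNL : N ^ 2 * r ^ 2 ≤ 1) :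
    9 ^ k / (N * (δ * (1 / 6) ^ k)) * (Real.exp (1 / 2) * ((δ * (1 / 6) ^ k) ^ 3 / 6 * (N ^ 3 *
          (8 * (√2 * r) ^ 3 * (D + η) + 96 * D)))) ≤ 60 * δ ^ 2 * (1 / 4) ^ k * (r * D) := by
  have hr0 : 0 < r := by linarith
  have hs2sq : √2 ^ 2 = (2 : ℝ) := Real.sq_sqrt (by norm_num)
  have hs20 : 0 < √(2 : ℝ) := by positivity
  have e1 : 9 ^ k / (N * (δ * (1 / 6) ^ k)) * (Real.exp (1 / 2) * ((δ * (1 / 6) ^ k) ^ 3 / 6
        * (N ^ 3 * (8 * (√2 * r) ^ 3 * (D + η) + 96 * D))))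
      = Real.exp (1 / 2) / 6 * (9 ^ k * (δ * (1 / 6) ^ k) ^ 2)
        * (N ^ 2 * (8 * (√2 * r) ^ 3 * (D + η) + 96 * D)) := by
    field_simp
  have e2 : (9 : ℝ) ^ k * (δ * (1 / 6) ^ k) ^ 2 = δ ^ 2 * (1 / 4) ^ k := by
    rw [mul_pow, ← pow_mul, mul_comm k 2, pow_mul, mul_left_comm, ← mul_pow]; norm_num
  have h4 : 8 * (√2 * r) ^ 3 * (D + η) ≤ 8 * (√2 * r) ^ 3 * (2 * D) :=
    mul_le_mul_of_nonneg_left (by linarith) (by positivity)
  have e3 : 8 * (√2 * r) ^ 3 * (2 * D) = (32 * √2) * (r ^ 2 * (r * D)) := by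
    rw [mul_pow, show √(2 : ℝ) ^ 3 = √2 ^ 2 * √2 by ring, hs2sq]; ring
  have h5 : (32 * √2) * (r ^ 2 * (r * D)) ≤ 46 * (r ^ 2 * (r * D)) :=
    mul_le_mul_of_nonneg_right (by linarith [sqrt_two_le]) (by positivity)
  have h7 : 0.57 ≤ r ^ 2 * r := by
    calc (0.57 : ℝ) ≤ 0.693 * 0.832 := by norm_num
      _ ≤ r ^ 2 * r := mul_le_mul hrL hr (by norm_num) (by positivity)
  have h6 : 96 * D ≤ 170 * (r ^ 2 * (r * D)) := by
    have h8 : 170 * (r ^ 2 * (r * D)) = 170 * (r ^ 2 * r) * D := by ring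
    rw [h8]
    exact mul_le_mul_of_nonneg_right (by linarith) hD0.le
  have h3 : 8 * (√2 * r) ^ 3 * (D + η) + 96 * D ≤ 216 * (r ^ 2 * (r * D)) := by
    rw [e3] at h4; linarith
  have h9 : N ^ 2 * (8 * (√2 * r) ^ 3 * (D + η) + 96 * D) ≤ 216 * (r * D) := by
    calc N ^ 2 * (8 * (√2 * r) ^ 3 * (D + η) + 96 * D) ≤ N ^ 2 * (216 * (r ^ 2 * (r * D))) :=
          mul_le_mul_of_nonneg_left h3 (by positivity)
      _ = (N ^ 2 * r ^ 2) * (216 * (r * D)) := by ring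
      _ ≤ 1 * (216 * (r * D)) := mul_le_mul_of_nonneg_right hNL (by positivity)
      _ = _ := one_mul _
  rw [e1, e2]
  calc Real.exp (1 / 2) / 6 * (δ ^ 2 * (1 / 4) ^ k)
        * (N ^ 2 * (8 * (√2 * r) ^ 3 * (D + η) + 96 * D))
      ≤ Real.exp (1 / 2) / 6 * (δ ^ 2 * (1 / 4) ^ k) * (216 * (r * D)) :=
        mul_le_mul_of_nonneg_left h9 (by positivity)
    _ = (36 * Real.exp (1 / 2)) * (δ ^ 2 * (1 / 4) ^ k * (r * D)) := by ring
    _ ≤ 60 * (δ ^ 2 * (1 / 4) ^ k * (r * D)) :=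
        mul_le_mul_of_nonneg_right (by linarith [sqrt_e_le]) (by positivity)
    _ = _ := by ring

/-- third term -/
lemma arith3 {N κ D r : ℝ} {k M : ℕ} (hN0 : 0 < N) (hκ0 : 0 < κ) (hD0 : 0 < D)
    (hr0 : 0 < r) (hNr : N * r ≤ 1) :
    2 * (√2 * r * (M + k)) * (κ * (1 / 216) ^ k * (N * r) * D)
      ≤ 3 * (M + 1) * κ * (1 / 4) ^ k * (r * D) := by
  have h1 : ((M : ℝ) + k) * (1 / 216) ^ k ≤ (M + 1) * (1 / 4) ^ k := by
    have h2 : (M : ℝ) + k ≤ (M + 1) * 2 ^ k := by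
      have h3 : (k : ℝ) ≤ 2 ^ k := by exact_mod_cast Nat.lt_two_pow_self.le
      have h4 : (1 : ℝ) ≤ 2 ^ k := one_le_pow₀ (by norm_num)
      have h5 : (0 : ℝ) ≤ M := Nat.cast_nonneg M
      nlinarith
    calc ((M : ℝ) + k) * (1 / 216) ^ k ≤ ((M + 1) * 2 ^ k) * (1 / 216) ^ k :=
          mul_le_mul_of_nonneg_right h2 (by positivity)
      _ = (M + 1) * (1 / 108) ^ k := by rw [mul_assoc, ← mul_pow]; norm_num
      _ ≤ (M + 1) * (1 / 4) ^ k := by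
          apply mul_le_mul_of_nonneg_left _ (by positivity)
          exact pow_le_pow_left₀ (by norm_num) (by norm_num) k
  have e1 : 2 * (√2 * r * (M + k)) * (κ * (1 / 216) ^ k * (N * r) * D)
      = (2 * √2) * κ * (((M : ℝ) + k) * (1 / 216) ^ k) * (N * r) * (r * D) := by ring
  rw [e1]
  have h6 : (2 * √2) * κ * (((M : ℝ) + k) * (1 / 216) ^ k) * (N * r)
      ≤ (2 * √2) * κ * ((M + 1) * (1 / 4) ^ k) * 1 := by gcongr
  have h7 : (2 * √2) * κ * (((M : ℝ) + 1) * (1 / 4) ^ k) * 1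
      = (2 * √2) * (κ * ((M + 1) * (1 / 4) ^ k)) := by ring
  have h8 : (2 * √2) * (κ * (((M : ℝ) + 1) * (1 / 4) ^ k))
      ≤ 3 * (κ * ((M + 1) * (1 / 4) ^ k)) :=
    mul_le_mul_of_nonneg_right (by linarith [sqrt_two_le]) (by positivity)
  have h9 : 3 * ((M : ℝ) + 1) * κ * (1 / 4) ^ k = 3 * (κ * ((M + 1) * (1 / 4) ^ k)) := by ring
  rw [h9]
  exact mul_le_mul_of_nonneg_right (by linarith) (by positivity)

/-- fourth term -/
lemma arith4 {D L r : ℝ} {k M : ℕ} (hk : 1 ≤ k) (hM : 1 ≤ M) (hD0 : 0 < D)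
    (hL : Real.exp (-L) = D) (hL2 : Real.log 2 ≤ L) (hr : 0.832 ≤ r) :
    12 * Real.exp (-(L * ((M : ℝ) + k) ^ 2)) ≤ 15 / 2 ^ M * (1 / 4) ^ k * (r * D) := by
  have hlog2 : 0 < Real.log 2 := Real.log_pos (by norm_num)
  have h1 : L + Real.log 2 * (M + 2 * k) ≤ L * ((M : ℝ) + k) ^ 2 := by
    have hM' : (1 : ℝ) ≤ M := by exact_mod_cast hM
    have hk' : (1 : ℝ) ≤ k := by exact_mod_cast hk
    have h2 : (M : ℝ) + 2 * k ≤ ((M : ℝ) + k) ^ 2 - 1 := by nlinarith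
    have h3 : Real.log 2 * (M + 2 * k) ≤ L * (((M : ℝ) + k) ^ 2 - 1) :=
      mul_le_mul hL2 h2 (by positivity) (by linarith)
    linarith
  have h2 : Real.exp (-(L * ((M : ℝ) + k) ^ 2)) ≤ D * (1 / 2 ^ M * (1 / 4) ^ k) := by
    calc Real.exp (-(L * ((M : ℝ) + k) ^ 2)) ≤ Real.exp (-(L + Real.log 2 * (M + 2 * k))) :=
          Real.exp_le_exp.2 (by linarith)
      _ = D * (1 / 2 ^ M * (1 / 4) ^ k) := by
          rw [neg_add, Real.exp_add, hL]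
          congr 1
          have e3 : -(Real.log 2 * ((M : ℝ) + 2 * k)) = (M : ℕ) * (-Real.log 2)
            + ((2 * k : ℕ) : ℝ) * (-Real.log 2) := by push_cast; ring
          rw [e3, Real.exp_add, Real.exp_nat_mul, Real.exp_nat_mul, Real.exp_neg,
            Real.exp_log (by norm_num), pow_mul]
          norm_num
          rw [one_div, inv_pow]
  have h0 : 0 < D * (1 / 2 ^ M * (1 / 4) ^ k) := by positivity
  calc 12 * Real.exp (-(L * ((M : ℝ) + k) ^ 2)) ≤ 12 * (D * (1 / 2 ^ M * (1 / 4) ^ k)) := by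
        linarith
    _ ≤ (15 * r) * (D * (1 / 2 ^ M * (1 / 4) ^ k)) :=
        mul_le_mul_of_nonneg_right (by linarith) h0.le
    _ = _ := by ring

/-- the four terms. -/
lemma level_arith {N κ δ D L : ℝ} {k M : ℕ} (hN0 : 0 < N) (hκ0 : 0 < κ)
    (hκ1 : κ ≤ 1) (hδ0 : 0 < δ) (hk : 1 ≤ k) (hM : 1 ≤ M) (hD0 : 0 < D)
    (hL : Real.exp (-L) = D) (hL2 : Real.log 2 ≤ L) (hNL : N ^ 2 * L ≤ 1)
    {η T T' ε : ℝ} (hη : η = κ * (1 / 216) ^ k * (N * √L) * D) (hT : T = √(2 * L))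
    (hT' : T' = √(2 * L) * (M + k)) (hε : ε = δ * (1 / 6) ^ k) :
    9 ^ k / (N * ε) * (Real.exp (1 / 2) * η + Real.exp (1 / 2) * (ε ^ 3 / 6 * (N ^ 3 *
          (8 * T ^ 3 * (D + η) + 96 * Real.exp (-(T ^ 2 / 2))))))
        + (2 * T' * η + 12 * Real.exp (-(T' ^ 2 / 2)))
      ≤ sig κ δ M * (1 / 4) ^ k * (√L * D) := by
  have hlog2 := Real.log_two_gt_d9
  have hL0 : 0 < L := by linarith
  set r := √L with hr
  have hr2 : r ^ 2 = L := Real.sq_sqrt hL0.le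
  have hr0 : 0 < r := Real.sqrt_pos.2 hL0
  have hr83 : 0.832 ≤ r := by
    rw [hr]; apply Real.le_sqrt_of_sq_le; norm_num; linarith
  have hNr : N * r ≤ 1 := by
    have h1 : (N * r) ^ 2 ≤ 1 := by rw [mul_pow, hr2]; exact hNL
    have h2 : 0 < N * r := by positivity
    by_contra h
    rw [not_le] at h
    have := one_lt_pow₀ h (n := 2) (by norm_num)
    linarith
  have hTr : T = √2 * r := by rw [hT, hr, Real.sqrt_mul (by norm_num)]
  have hT'r : T' = √2 * r * (M + k) := by rw [hT', hr, Real.sqrt_mul (by norm_num)]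
  have hs2sq : √2 ^ 2 = (2 : ℝ) := Real.sq_sqrt (by norm_num)
  have hexpT : Real.exp (-(T ^ 2 / 2)) = D := by
    rw [hTr, mul_pow, hs2sq, hr2, ← hL]; congr 1; ring
  have hexpT' : Real.exp (-(T' ^ 2 / 2)) = Real.exp (-(L * ((M : ℝ) + k) ^ 2)) := by
    rw [hT'r, mul_pow, mul_pow, hs2sq, hr2]; congr 1; ring
  have hηD : η ≤ D := by
    rw [hη]
    have h1 : κ * (1 / 216) ^ k * (N * r) ≤ 1 := by
      have : ((1 : ℝ) / 216) ^ k ≤ 1 := pow_le_one₀ (by norm_num) (by norm_num)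
      have h2 : κ * (1 / 216) ^ k ≤ 1 := mul_le_one₀ hκ1 (by positivity) this
      exact mul_le_one₀ h2 (by positivity) hNr
    calc κ * (1 / 216) ^ k * (N * r) * D ≤ 1 * D := mul_le_mul_of_nonneg_right h1 hD0.le
      _ = D := one_mul D
  have t1 := arith1 (k := k) hN0 hκ0 hδ0 hD0 hr0
  have t2 := arith2 (k := k) hN0 hδ0 hD0 hr83 (by rw [hr2]; linarith) hηD (by rw [hr2]; exact hNL)
  have t3 := arith3 (k := k) (M := M) hN0 hκ0 hD0 hr0 hNr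
  have t4 := arith4 (k := k) (M := M) hk hM hD0 hL hL2 hr83
  have : sig κ δ M * (1 / 4) ^ k * (r * D) = 2 * κ / δ * (1 / 4) ^ k * (r * D)
      + 60 * δ ^ 2 * (1 / 4) ^ k * (r * D)
      + 3 * (M + 1) * κ * (1 / 4) ^ k * (r * D) + 15 / 2 ^ M * (1 / 4) ^ k * (r * D) := by
    unfold sig; ring
  rw [this, mul_add, hexpT, hexpT', hTr, hT'r, hε]
  rw [← hη] at t1 t3
  linarith

variable {E : Type*} [NormedAddCommGroup E] [InnerProductSpace ℝ E] [FiniteDimensional ℝ E]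
  [MeasurableSpace E] [BorelSpace E]

/-- **Level `k` estimate**. -/
theorem level_bound {v : ℕ → E} {N : ℝ} {k l u : ℕ} {V : Submodule ℝ E} (hN0 : 0 < N)
    (hk : 1 ≤ k) (hP : PivotAt v N k l u V) {e : ℕ → E → ℝ} (he : ∀ t, UI (e t))
    {F : ℕ → ℝ} (hF0 : ∀ t, 0 ≤ F t) (hF : ∀ t, l ≤ t → t < u → FluxLe (e t) (v t) (F t))
    {ts : ℕ} (hlt : l ≤ ts) (htu : ts ≤ u) {D L : ℝ} (hD : ∫ x, e ts x ∂(stdGaussian E) = D)
    (hD0 : 0 < D) (hD1 : D ≤ 1 / 2) (hL : L = Real.log (1 / D)) (hNL : N ^ 2 * L ≤ 1)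
    {κ δ : ℝ} {M : ℕ} (hκ0 : 0 < κ) (hκ1 : κ ≤ 1) (hδ0 : 0 < δ) (hδ1 : δ ≤ 1) (hM : 1 ≤ M)
    (hη : Gam (gn e F) l u ≤ κ * (1 / 216) ^ k * (N * √L) * D)
    {c s : ℝ} (hcs : c ^ 2 + s ^ 2 = 1) (hs : 0 < s) (hs1 : s ≤ 1) :
    ∫ y, ‖(ContinuousLinearMap.id ℝ E - V.starProjection) (mom (e ts) s (c • y))‖ ∂(stdGaussian E)
      ≤ sig κ δ M * (1 / 4) ^ k * (√L * D) := by
  have hL2 : Real.log 2 ≤ L := by
    rw [hL]
    apply Real.log_le_log (by norm_num)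
    rw [le_div_iff₀ hD0]; linarith
  have hLD : Real.exp (-L) = D := by
    rw [hL, one_div, Real.log_inv, neg_neg, Real.exp_log hD0]
  have hlog2 := Real.log_two_gt_d9
  have hT1 : 1 ≤ √(2 * L) := by
    apply Real.le_sqrt_of_sq_le; linarith
  refine (level_raw hN0 hP he hF0 hF hlt htu hη hD hcs hs hs1 (ε := δ * (1 / 6) ^ k)
    (T := √(2 * L)) (T' := √(2 * L) * (M + k)) (by positivity) ?_ hT1 ?_).trans
    (level_arith hN0 hκ0 hκ1 hδ0 hk hM hD0 hLD hL2 hNL rfl rfl rfl rfl)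
  · exact mul_le_one₀ hδ1 (by positivity) (pow_le_one₀ (by norm_num) (by norm_num))
  · have hM' : (1 : ℝ) ≤ M := by exact_mod_cast hM
    have hk' : (0 : ℝ) ≤ k := Nat.cast_nonneg k
    nlinarith

end Vale.Agent.P262.H274
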