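import Mathlib

/-!
# P262, scheme S1, gain-cost lemma: LP duality for reachable sets (block D1)

`Reach v n` = set of `w_n = Σ_{t<n} c_t v_t`, `|c_t| ≤ 1`, all partial sums in the unit ball.
Support functions are computed by *dual paths* `θ_0, …, θ_n`.
-/

namespace Vale.Agent.P262.H274

open Set Metric RealInnerProductSpace

variable {E : Type*} [NormedAddCommGroup E] [InnerProductSpace ℝ E]

/-- inf-convolution lemma: support function of `A ∩ closedBall 0 r`. -/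
theorem exists_theta [CompleteSpace E] {A : Set E} (hA : Convex ℝ A) (h0 : (0:E) ∈ A) {r : ℝ} (hr : 0 < r)
    (g : E) {h : ℝ} (hh : ∀ w ∈ A, ‖w‖ ≤ r → ⟪g, w⟫ ≤ h) :
    ∃ θ : E, ∀ w ∈ A, ⟪θ, w⟫ + r * ‖g - θ‖ ≤ h := by
  classical
  -- open convex set
  set s : Set (E × ℝ) := {p | ∃ w ∈ A, ‖p.1 + w‖ < r ∧ p.2 < ⟪g, w⟫} with hs
  set t : Set (E × ℝ) := {p | p.1 = 0 ∧ h ≤ p.2} with ht
  have hso : IsOpen s := by
    have : s = ⋃ w ∈ A, {p : E × ℝ | ‖p.1 + w‖ < r ∧ p.2 < ⟪g, w⟫} := by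
      ext p
      simp only [hs, mem_ofPred_eq, mem_iUnion, exists_prop]
    rw [this]
    refine isOpen_biUnion fun w _ => ?_
    have e1 : Continuous fun p : E × ℝ => ‖p.1 + w‖ := by fun_prop
    have e2 : Continuous fun p : E × ℝ => p.2 := by fun_prop
    exact (isOpen_lt e1 continuous_const).inter (isOpen_lt e2 continuous_const)
  have hsc : Convex ℝ s := by
    rintro ⟨x, a⟩ ⟨w, hw, h1, h2⟩ ⟨y, b⟩ ⟨w', hw', h1', h2'⟩ p q hp hq hpq
    refine ⟨p • w + q • w', hA hw hw' hp hq hpq, ?_, ?_⟩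
    · simp only [Prod.smul_mk, Prod.mk_add_mk] at *
      have e : p • x + q • y + (p • w + q • w') = p • (x + w) + q • (y + w') := by
        simp only [smul_add]; abel
      rw [e]
      calc ‖p • (x + w) + q • (y + w')‖ ≤ ‖p • (x + w)‖ + ‖q • (y + w')‖ := norm_add_le _ _
        _ = p * ‖x + w‖ + q * ‖y + w'‖ := by
          rw [norm_smul, norm_smul, Real.norm_of_nonneg hp, Real.norm_of_nonneg hq]
        _ < r := by
          rcases hp.eq_or_lt with rfl | hp'
          · have : q = 1 := by linarith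
            subst this; simpa using h1'
          · have e1 : p * ‖x + w‖ < p * r := by nlinarith
            have e2 : q * ‖y + w'‖ ≤ q * r := by nlinarith
            calc _ < p * r + q * r := by linarith
              _ = r := by rw [← add_mul, hpq, one_mul]
    · simp only [Prod.smul_mk, Prod.mk_add_mk, smul_eq_mul] at *
      rw [inner_add_right, inner_smul_right, inner_smul_right]
      rcases hp.eq_or_lt with rfl | hp'
      · have : q = 1 := by linarith
        subst this; simpa using h2'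
      · have e1 : p * a < p * ⟪g, w⟫ := by nlinarith
        have e2 : q * b ≤ q * ⟪g, w'⟫ := by nlinarith
        linarith
  have htc : Convex ℝ t := by
    rintro ⟨x, a⟩ ⟨h1, h2⟩ ⟨y, b⟩ ⟨h1', h2'⟩ p q hp hq hpq
    simp only at h1 h2 h1' h2'
    refine ⟨by simp [h1, h1'], ?_⟩
    simp only [Prod.smul_mk, Prod.mk_add_mk, smul_eq_mul]
    have : h = p * h + q * h := by rw [← add_mul, hpq, one_mul]
    nlinarith
  have hd : Disjoint s t := by
    rw [Set.disjoint_left]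
    rintro ⟨x, a⟩ ⟨w, hw, h1, h2⟩ ⟨h3, h4⟩
    simp only at h1 h2 h3 h4
    rw [h3, zero_add] at h1
    have := hh w hw h1.le
    linarith
  obtain ⟨f, u, hfs, hft⟩ := geometric_hahn_banach_open hsc hso htc hd
  -- decompose `f`
  set fE : E →L[ℝ] ℝ := f.comp (ContinuousLinearMap.inl ℝ E ℝ) with hfE
  set μ : ℝ := f (0, 1) with hμ
  have hf : ∀ x a, f (x, a) = fE x + μ * a := by
    intro x a
    have : (x, a) = (x, (0:ℝ)) + a • ((0:E), (1:ℝ)) := by simp
    rw [this, map_add, map_smul]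
    simp [hfE, hμ, mul_comm]
  set l : E := (InnerProductSpace.toDual ℝ E).symm fE with hl
  have hfl : ∀ x, fE x = ⟪l, x⟫ := by
    intro x; rw [hl, InnerProductSpace.toDual_symm_apply]
  have ht1 : ∀ σ, h ≤ σ → u ≤ μ * σ := by
    intro σ hσ
    have := hft (0, σ) ⟨rfl, hσ⟩
    rw [hf] at this; simpa using this
  have hh0 : 0 ≤ h := by simpa using hh 0 h0 (by simpa using hr.le)
  have hu0 : 0 < u ∨ 0 < μ := by
    -- (0, -1) ∈ s
    have := hfs (0, -1) ⟨0, h0, by simpa using hr, by simp⟩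
    rw [hf] at this
    simp only [map_zero, zero_add, mul_neg, mul_one] at this
    by_contra hcon
    push Not at hcon
    linarith [hcon.1, hcon.2]
  have hμ0 : 0 ≤ μ := by
    by_contra hneg
    push Not at hneg
    -- take σ large
    have h1 := ht1 (max h ((u - 1) / μ)) (le_max_left _ _)
    have h2 : μ * max h ((u - 1) / μ) ≤ μ * ((u - 1) / μ) :=
      mul_le_mul_of_nonpos_left (le_max_right _ _) hneg.le
    rw [mul_div_cancel₀ _ hneg.ne] at h2
    linarith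
  have hμpos : 0 < μ := by
    rcases hμ0.eq_or_lt with he | hlt
    · exfalso
      have h1 := ht1 h le_rfl
      rw [← he, zero_mul] at h1
      rcases hu0 with h2 | h2 <;> linarith
    · exact hlt
  -- key inequality on `A × ball`
  have key : ∀ w ∈ A, ∀ b : E, ‖b‖ < r → ⟪l, b - w⟫ + μ * ⟪g, w⟫ ≤ μ * h := by
    intro w hw b hb
    have h1 : ∀ σ < ⟪g, w⟫, ⟪l, b - w⟫ + μ * σ ≤ μ * h := by
      intro σ hσ
      have := hfs (b - w, σ) ⟨w, hw, by simpa using hb, hσ⟩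
      rw [hf, hfl] at this
      exact this.le.trans (ht1 h le_rfl)
    by_contra hcon
    push Not at hcon
    set ε := (⟪l, b - w⟫ + μ * ⟪g, w⟫ - μ * h) / (2 * μ) with hε
    have hεpos : 0 < ε := div_pos (by linarith) (by positivity)
    have h2 := h1 (⟪g, w⟫ - ε) (by linarith)
    have h3 : μ * ε = (⟪l, b - w⟫ + μ * ⟪g, w⟫ - μ * h) / 2 := by
      rw [hε]; field_simp
    nlinarith
  refine ⟨g - μ⁻¹ • l, fun w hw => ?_⟩
  have e1 : g - (g - μ⁻¹ • l) = μ⁻¹ • l := by abel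
  rw [e1, norm_smul, Real.norm_of_nonneg (inv_nonneg.2 hμpos.le), inner_sub_left,
    inner_smul_left]
  simp only [conj_trivial]
  -- suffices: `r ‖l‖ ≤ μ h - μ ⟪g,w⟫ + ⟪l,w⟫`
  have h2 : r * ‖l‖ ≤ μ * h - μ * ⟪g, w⟫ + ⟪l, w⟫ := by
    rcases eq_or_ne l 0 with hl0 | hl0
    · have := key w hw 0 (by simpa using hr)
      rw [hl0] at this ⊢
      simp at this ⊢
      linarith
    · have hln : 0 < ‖l‖ := norm_pos_iff.2 hl0
      have h3 : ∀ ρ, 0 ≤ ρ → ρ < r → ρ * ‖l‖ ≤ μ * h - μ * ⟪g, w⟫ + ⟪l, w⟫ := by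
        intro ρ hρ0 hρ
        have := key w hw ((ρ / ‖l‖) • l) (by
          rw [norm_smul, norm_div, norm_norm, Real.norm_of_nonneg hρ0, div_mul_cancel₀ _ hln.ne']
          exact hρ)
        rw [inner_sub_right, inner_smul_right, real_inner_self_eq_norm_sq] at this
        have h4 : ρ / ‖l‖ * ‖l‖ ^ 2 = ρ * ‖l‖ := by field_simp
        rw [h4] at this
        linarith
      by_contra hcon
      push Not at hcon
      set B := μ * h - μ * ⟪g, w⟫ + ⟪l, w⟫ with hB
      have hB0 : 0 ≤ B := by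
        have := h3 0 le_rfl hr
        simpa using this
      have h5 : B / ‖l‖ < r := by rw [div_lt_iff₀ hln]; exact hcon
      have h6 := h3 ((B / ‖l‖ + r) / 2) (by positivity) (by linarith)
      have h7 : B / ‖l‖ * ‖l‖ = B := div_mul_cancel₀ _ hln.ne'
      have : B < (B / ‖l‖ + r) / 2 * ‖l‖ := by nlinarith
      linarith
  have h8 : μ * (⟪g, w⟫ - μ⁻¹ * ⟪l, w⟫ + r * (μ⁻¹ * ‖l‖)) ≤ μ * h := by
    have : μ * (⟪g, w⟫ - μ⁻¹ * ⟪l, w⟫ + r * (μ⁻¹ * ‖l‖)) = μ * ⟪g, w⟫ - ⟪l, w⟫ + r * ‖l‖ := by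
      field_simp
    rw [this]; linarith
  exact le_of_mul_le_mul_left h8 hμpos

/-- reachable points: `w_n = Σ_{t<n} c_t v_t`, `|c_t| ≤ 1`, all partial sums in the unit ball. -/
def Reach (v : ℕ → E) : ℕ → Set E
  | 0 => {0}
  | n + 1 => {w | ∃ w' ∈ Reach v n, ∃ c ∈ Icc (-1 : ℝ) 1, w = w' + c • v n ∧ ‖w‖ ≤ 1}

theorem zero_mem_reach (v : ℕ → E) : ∀ n, (0 : E) ∈ Reach v n
  | 0 => rfl
  | n + 1 => ⟨0, zero_mem_reach v n, 0, by norm_num, by simp, by simp⟩

theorem norm_le_of_mem_reach (v : ℕ → E) : ∀ n, ∀ w ∈ Reach v n, ‖w‖ ≤ 1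
  | 0, w, hw => by rw [Reach, mem_singleton_iff] at hw; simp [hw]
  | _ + 1, _, hw => by obtain ⟨_, _, _, _, _, h⟩ := hw; exact h

theorem convex_reach (v : ℕ → E) : ∀ n, Convex ℝ (Reach v n)
  | 0 => convex_singleton _
  | n + 1 => by
    rintro x ⟨x', hx', a, ha, rfl, hx⟩ y ⟨y', hy', b, hb, rfl, hy⟩ p q hp hq hpq
    refine ⟨p • x' + q • y', convex_reach v n hx' hy' hp hq hpq, p * a + q * b, ?_, ?_, ?_⟩
    · exact (convex_Icc (-1 : ℝ) 1) ha hb hp hq hpq
    · simp only [smul_add, add_smul, smul_smul]; abel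
    · have := (convex_closedBall (0:E) 1) (x := x' + a • v n) (y := y' + b • v n)
        (by simpa using hx) (by simpa using hy) hp hq hpq
      simpa using this

theorem neg_mem_reach (v : ℕ → E) : ∀ n, ∀ w ∈ Reach v n, -w ∈ Reach v n
  | 0, w, hw => by rw [Reach, mem_singleton_iff] at hw ⊢; simp [hw]
  | n + 1, w, hw => by
    obtain ⟨w', hw', c, hc, rfl, h⟩ := hw
    refine ⟨-w', neg_mem_reach v n w' hw', -c, ⟨by linarith [hc.2], by linarith [hc.1]⟩, ?_, ?_⟩
    · rw [neg_add, neg_smul]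
    · rwa [norm_neg]

/-- the set `A = Reach n + [-1,1] v_n` before cutting. -/
theorem convex_pre (v : ℕ → E) (n : ℕ) :
    Convex ℝ {w | ∃ w' ∈ Reach v n, ∃ c ∈ Icc (-1 : ℝ) 1, w = w' + c • v n} := by
  rintro x ⟨x', hx', a, ha, rfl⟩ y ⟨y', hy', b, hb, rfl⟩ p q hp hq hpq
  refine ⟨p • x' + q • y', convex_reach v n hx' hy' hp hq hpq, p * a + q * b, ?_, ?_⟩
  · exact (convex_Icc (-1 : ℝ) 1) ha hb hp hq hpq
  · simp only [smul_add, add_smul, smul_smul]; abel

/-- **D1, dual path for the reachable set.** -/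
theorem dual_path [CompleteSpace E] (v : ℕ → E) (n : ℕ) :
    ∀ (g : E) (h : ℝ), (∀ w ∈ Reach v n, ⟪g, w⟫ ≤ h) →
      ∃ θ : ℕ → E, θ n = g ∧
        ∑ t ∈ Finset.range n, (|⟪v t, θ t⟫| + ‖θ (t + 1) - θ t‖) ≤ h := by
  induction n with
  | zero =>
    intro g h hh
    refine ⟨fun _ => g, rfl, ?_⟩
    simpa using hh 0 (zero_mem_reach v 0)
  | succ n ih =>
    intro g h hh
    obtain ⟨τ, hτ⟩ := exists_theta (convex_pre v n)
      ⟨0, zero_mem_reach v n, 0, by norm_num, by simp⟩ one_pos g (h := h) (by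
        rintro w ⟨w', hw', c, hc, rfl⟩ hw
        exact hh _ ⟨w', hw', c, hc, rfl, hw⟩)
    have h1 : ∀ w ∈ Reach v n, ⟪τ, w⟫ ≤ h - ‖g - τ‖ - |⟪v n, τ⟫| := by
      intro w hw
      rcases abs_choice ⟪v n, τ⟫ with hs | hs
      · have := hτ (w + (1:ℝ) • v n) ⟨w, hw, 1, by norm_num, rfl⟩
        rw [inner_add_right, inner_smul_right, real_inner_comm (v n) τ] at this
        rw [hs]; linarith
      · have := hτ (w + (-1:ℝ) • v n) ⟨w, hw, -1, by norm_num, rfl⟩
        rw [inner_add_right, inner_smul_right, real_inner_comm (v n) τ] at this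
        rw [hs]; linarith
    obtain ⟨θ, hθn, hθ⟩ := ih τ _ h1
    refine ⟨fun t => if t = n + 1 then g else θ t, by simp, ?_⟩
    rw [Finset.sum_range_succ]
    have h2 : ∑ t ∈ Finset.range n, (|⟪v t, (if t = n + 1 then g else θ t)⟫| +
        ‖(if t + 1 = n + 1 then g else θ (t + 1)) - (if t = n + 1 then g else θ t)‖)
        = ∑ t ∈ Finset.range n, (|⟪v t, θ t⟫| + ‖θ (t + 1) - θ t‖) := by
      refine Finset.sum_congr rfl fun t ht => ?_
      rw [Finset.mem_range] at ht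
      rw [if_neg (by omega), if_neg (by omega)]
    rw [h2]
    simp only [if_true, if_neg (Nat.ne_of_lt (Nat.lt_succ_self n))]
    rw [hθn]
    linarith

/-- **D1, with final bound `N`.** -/
theorem dual_path_final [CompleteSpace E] (v : ℕ → E) (n : ℕ) {N : ℝ} (hN : 0 < N)
    (g : E) (h : ℝ) (hh : ∀ w ∈ Reach v n, ‖w‖ ≤ N → ⟪g, w⟫ ≤ h) :
      ∃ θ : ℕ → E,
        ∑ t ∈ Finset.range n, (|⟪v t, θ t⟫| + ‖θ (t + 1) - θ t‖) + N * ‖g - θ n‖ ≤ h := by
  obtain ⟨τ, hτ⟩ := exists_theta (convex_reach v n) (zero_mem_reach v n) hN g hh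
  obtain ⟨θ, hθn, hθ⟩ := dual_path v n τ (h - N * ‖g - τ‖) (fun w hw => by
    have := hτ w hw; linarith)
  exact ⟨θ, by rw [hθn]; linarith⟩

/-- weak duality (the easy direction). -/
theorem weak_duality (v : ℕ → E) (n : ℕ) (θ : ℕ → E) :
    ∀ w ∈ Reach v n, ⟪θ n, w⟫ ≤ ∑ t ∈ Finset.range n, (|⟪v t, θ t⟫| + ‖θ (t + 1) - θ t‖) := by
  induction n with
  | zero => intro w hw; rw [Reach, mem_singleton_iff] at hw; simp [hw]
  | succ n ih =>
    rintro w ⟨w', hw', c, hc, rfl, hw⟩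
    rw [Finset.sum_range_succ]
    have h1 : ⟪θ (n + 1), w' + c • v n⟫ =
        ⟪θ (n + 1) - θ n, w' + c • v n⟫ + ⟪θ n, w'⟫ + c * ⟪v n, θ n⟫ := by
      rw [inner_sub_left, inner_add_right (θ n), inner_smul_right (θ n), real_inner_comm (θ n)]
      ring
    rw [h1]
    have h2 : ⟪θ (n + 1) - θ n, w' + c • v n⟫ ≤ ‖θ (n + 1) - θ n‖ := by
      refine (real_inner_le_norm _ _).trans ?_
      exact mul_le_of_le_one_right (norm_nonneg _) hw
    have h3 : c * ⟪v n, θ n⟫ ≤ |⟪v n, θ n⟫| := by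
      refine (le_abs_self _).trans ?_
      rw [abs_mul]
      exact mul_le_of_le_one_left (abs_nonneg _) (abs_le.2 hc)
    linarith [ih w' hw']

end Vale.Agent.P262.H274
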