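import Mathlib

/-!
# P262, scheme S1, gain-cost lemma: pivoting for a seminorm (block D2, abstract part)

`q` a seminorm bounded below by `ε‖·‖` on a finite dimensional inner product space.
Either there are `k` orthonormal vectors with `q (e i) ≤ 2·3^i·ρ`, or there is a subspace `V''` of
dimension `< k` with `ρ ‖g - P_{V''} g‖ ≤ q g` for all `g`.
-/

namespace Vale.Agent.P262.H274

open Set Metric RealInnerProductSpace Module

variable {E : Type*} [NormedAddCommGroup E] [InnerProductSpace ℝ E]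

/-- residual after removing the components along `e 0, …, e (k-1)`. -/
def resid (e : ℕ → E) (k : ℕ) (g : E) : E := g - ∑ i ∈ Finset.range k, ⟪e i, g⟫ • e i

/-- data of the greedy algorithm. -/
structure Greedy (q : Seminorm ℝ E) (ρ : ℝ) (k : ℕ) (e : ℕ → E) (s : ℕ → ℝ) : Prop where
  norm_one : ∀ i < k, ‖e i‖ = 1
  ortho : ∀ i < k, ∀ j < k, i ≠ j → ⟪e i, e j⟫ = 0
  s_gt : ∀ j < k, ρ⁻¹ < s j
  bound : ∀ j < k, ∀ g, ‖resid e j g‖ ≤ s j * q g
  q_le : ∀ j < k, s j * q (e j) ≤ 2 * 3 ^ j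

lemma inner_resid {e : ℕ → E} {k : ℕ} (h1 : ∀ i < k, ‖e i‖ = 1)
    (h2 : ∀ i < k, ∀ j < k, i ≠ j → ⟪e i, e j⟫ = 0) {i : ℕ} (hi : i < k) (g : E) :
    ⟪e i, resid e k g⟫ = 0 := by
  unfold resid
  rw [inner_sub_right, inner_sum]
  have : ∑ j ∈ Finset.range k, ⟪e i, ⟪e j, g⟫ • e j⟫ = ⟪e i, g⟫ := by
    rw [Finset.sum_eq_single i]
    · rw [inner_smul_right, real_inner_self_eq_norm_sq, h1 i hi]; ring
    · intro j hj hji
      rw [inner_smul_right, h2 i hi j (Finset.mem_range.1 hj) hji.symm, mul_zero]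
    · intro h; exact absurd (Finset.mem_range.2 hi) h
  rw [this, sub_self]

lemma inner_resid_same {e : ℕ → E} {k : ℕ}
    (h2 : ∀ i < k + 1, ∀ j < k + 1, i ≠ j → ⟪e i, e j⟫ = 0) (g : E) :
    ⟪e k, resid e k g⟫ = ⟪e k, g⟫ := by
  unfold resid
  rw [inner_sub_right, inner_sum]
  have : ∑ j ∈ Finset.range k, ⟪e k, ⟪e j, g⟫ • e j⟫ = 0 := by
    refine Finset.sum_eq_zero fun j hj => ?_
    rw [Finset.mem_range] at hj
    rw [inner_smul_right, h2 k (by omega) j (by omega) (by omega), mul_zero]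
  rw [this, sub_zero]

lemma norm_resid_le {e : ℕ → E} {k : ℕ} (h1 : ∀ i < k, ‖e i‖ = 1)
    (h2 : ∀ i < k, ∀ j < k, i ≠ j → ⟪e i, e j⟫ = 0) (g : E) :
    ‖resid e k g‖ ≤ ‖g‖ := by
  have h : ⟪resid e k g, resid e k g⟫ = ⟪resid e k g, g⟫ := by
    conv_lhs => rw [show resid e k g = g - ∑ i ∈ Finset.range k, ⟪e i, g⟫ • e i from rfl]
    rw [inner_sub_left]
    change ⟪g, resid e k g⟫ - ⟪∑ i ∈ Finset.range k, ⟪e i, g⟫ • e i, resid e k g⟫ = _
    have : ⟪∑ i ∈ Finset.range k, ⟪e i, g⟫ • e i, resid e k g⟫ = 0 := by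
      rw [sum_inner]
      refine Finset.sum_eq_zero fun i hi => ?_
      rw [inner_smul_left, inner_resid h1 h2 (Finset.mem_range.1 hi), mul_zero]
    rw [this, sub_zero, real_inner_comm]
  rw [real_inner_self_eq_norm_sq] at h
  have h3 := real_inner_le_norm (resid e k g) g
  rcases (norm_nonneg (resid e k g)).eq_or_lt with h0 | h0
  · rw [← h0]; exact norm_nonneg _
  · nlinarith

lemma resid_congr {e e' : ℕ → E} {k : ℕ} (h : ∀ i < k, e i = e' i) (g : E) :
    resid e k g = resid e' k g := by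
  unfold resid
  congr 1
  refine Finset.sum_congr rfl fun i hi => ?_
  rw [h i (Finset.mem_range.1 hi)]

lemma resid_smul (e : ℕ → E) (k : ℕ) (c : ℝ) (g : E) : resid e k (c • g) = c • resid e k g := by
  unfold resid
  rw [smul_sub, Finset.smul_sum]
  congr 1
  refine Finset.sum_congr rfl fun i _ => ?_
  rw [inner_smul_right, smul_smul]

lemma seminorm_sum_le (q : Seminorm ℝ E) {ι : Type*} (t : Finset ι) (f : ι → E) :
    q (∑ i ∈ t, f i) ≤ ∑ i ∈ t, q (f i) := by
  classical
  induction t using Finset.induction_on with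
  | empty => simp
  | insert a t ha ih =>
    rw [Finset.sum_insert ha, Finset.sum_insert ha]
    exact (map_add_le_add q _ _).trans (by linarith)

theorem greedy_step {q : Seminorm ℝ E} {ε : ℝ} (hε : 0 < ε) (hq : ∀ g, ε * ‖g‖ ≤ q g)
    {ρ : ℝ} (hρ : 0 < ρ) {k : ℕ} {e : ℕ → E} {s : ℕ → ℝ} (G : Greedy q ρ k e s)
    {g₀ : E} (hg₀ : q g₀ < ρ * ‖resid e k g₀‖) :
    ∃ e' s', Greedy q ρ (k + 1) e' s' := by
  classical
  have hg0n : 0 < ‖resid e k g₀‖ := by
    by_contra h
    push Not at h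
    have : ρ * ‖resid e k g₀‖ ≤ 0 := mul_nonpos_of_nonneg_of_nonpos hρ.le h
    linarith [apply_nonneg q g₀]
  have hg0' : 0 < ‖g₀‖ := hg0n.trans_le (norm_resid_le G.norm_one G.ortho g₀)
  have hqpos : 0 < q g₀ := lt_of_lt_of_le (by positivity) (hq g₀)
  set S : Set ℝ := {x | ∃ g, q g ≤ 1 ∧ x = ‖resid e k g‖} with hS
  have hbdd : BddAbove S := by
    refine ⟨ε⁻¹, ?_⟩
    rintro x ⟨g, hg, rfl⟩
    refine (norm_resid_le G.norm_one G.ortho g).trans ?_
    have h1 := hq g
    rw [← one_div, le_div_iff₀ hε]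
    linarith
  have hmemS : ∀ g, 0 < q g → ‖resid e k g‖ / q g ∈ S := by
    intro g hg
    refine ⟨(q g)⁻¹ • g, ?_, ?_⟩
    · rw [map_smul_eq_mul, norm_inv, Real.norm_of_nonneg hg.le, inv_mul_cancel₀ hg.ne']
    · rw [resid_smul, norm_smul, norm_inv, Real.norm_of_nonneg hg.le, div_eq_inv_mul]
  set σ := sSup S with hσ
  have hσ1 : ρ⁻¹ < σ := by
    refine lt_of_lt_of_le ?_ (le_csSup hbdd (hmemS g₀ hqpos))
    rw [lt_div_iff₀ hqpos, inv_mul_lt_iff₀ hρ]
    exact hg₀
  have hσ0 : 0 < σ := (inv_pos.2 hρ).trans hσ1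
  obtain ⟨x, ⟨g, hg, rfl⟩, hgx⟩ := exists_lt_of_lt_csSup (⟨_, hmemS g₀ hqpos⟩ : S.Nonempty)
    (show σ / 2 < sSup S by rw [← hσ]; linarith)
  have hd : 0 < ‖resid e k g‖ := by linarith
  set d := ‖resid e k g‖ with hd'
  set f : E := d⁻¹ • resid e k g with hf
  have hfn : ‖f‖ = 1 := by
    rw [hf, norm_smul, norm_inv, Real.norm_of_nonneg hd.le, ← hd', inv_mul_cancel₀ hd.ne']
  have hfo : ∀ i < k, ⟪e i, f⟫ = 0 := by
    intro i hi
    rw [hf, inner_smul_right, inner_resid G.norm_one G.ortho hi, mul_zero]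
  have hcoef : ∀ i < k, |⟪e i, g⟫| ≤ s i := by
    intro i hi
    have h1 : ⟪e i, g⟫ = ⟪e i, resid e i g⟫ := by
      rw [inner_resid_same]
      intro a ha b hb hab
      exact G.ortho a (by omega) b (by omega) hab
    rw [h1]
    refine (abs_real_inner_le_norm _ _).trans ?_
    rw [G.norm_one i hi, one_mul]
    refine (G.bound i hi g).trans ?_
    have : 0 < s i := (inv_pos.2 hρ).trans (G.s_gt i hi)
    nlinarith [apply_nonneg q g]
  have hqf : d * q f ≤ 1 + ∑ i ∈ Finset.range k, s i * q (e i) := by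
    have h1 : d • f = g - ∑ i ∈ Finset.range k, ⟪e i, g⟫ • e i := by
      rw [hf, smul_smul, mul_inv_cancel₀ hd.ne', one_smul]; rfl
    have h2 : d * q f = q (d • f) := by
      rw [map_smul_eq_mul q d f, Real.norm_of_nonneg hd.le]
    rw [h2, h1]
    refine (map_sub_le_add q _ _).trans ?_
    refine add_le_add hg ?_
    refine (seminorm_sum_le q _ _).trans ?_
    refine Finset.sum_le_sum fun i hi => ?_
    rw [map_smul_eq_mul, Real.norm_eq_abs]
    exact mul_le_mul_of_nonneg_right (hcoef i (Finset.mem_range.1 hi)) (apply_nonneg q _)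
  have hsum : ∑ i ∈ Finset.range k, s i * q (e i) ≤ 3 ^ k - 1 := by
    have h1 : ∀ m ≤ k, ∑ i ∈ Finset.range m, s i * q (e i) ≤ 3 ^ m - 1 := by
      intro m
      induction m with
      | zero => intro _; simp
      | succ m ih =>
        intro hm
        rw [Finset.sum_range_succ, pow_succ]
        have := G.q_le m (by omega)
        have := ih (by omega)
        linarith
    exact h1 k le_rfl
  refine ⟨fun i => if i = k then f else e i, fun i => if i = k then σ else s i, ?_, ?_, ?_, ?_, ?_⟩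
  · intro i hi
    by_cases h : i = k
    · simp only [h, if_true]; exact hfn
    · simp only [h, if_false]; exact G.norm_one i (by omega)
  · intro i hi j hj hij
    by_cases h : i = k
    · have hj' : j ≠ k := by omega
      simp only [h, hj', if_true, if_false]
      rw [real_inner_comm]; exact hfo j (by omega)
    · by_cases h' : j = k
      · simp only [h, h', if_true, if_false]; exact hfo i (by omega)
      · simp only [h, h', if_false]; exact G.ortho i (by omega) j (by omega) hij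
  · intro j hj
    by_cases h : j = k
    · simp only [h, if_true]; exact hσ1
    · simp only [h, if_false]; exact G.s_gt j (by omega)
  · intro j hj g'
    have hc : resid (fun i => if i = k then f else e i) j g' = resid e j g' :=
      resid_congr (fun i hi => by rw [if_neg (by omega)]) g'
    rw [hc]
    by_cases h : j = k
    · subst h
      simp only [if_true]
      rcases (apply_nonneg q g').eq_or_lt with h0 | h0
      · have : ‖g'‖ ≤ 0 := by
          have h1 := hq g'
          rw [← h0] at h1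
          by_contra hcon
          push Not at hcon
          have : 0 < ε * ‖g'‖ := mul_pos hε hcon
          linarith
        have h2 := norm_resid_le G.norm_one G.ortho g'
        rw [← h0]; linarith
      · have := le_csSup hbdd (hmemS g' h0)
        rwa [div_le_iff₀ h0] at this
    · simp only [h, if_false]; exact G.bound j (by omega) g'
  · intro j hj
    by_cases h : j = k
    · subst h
      simp only [if_true]
      have h1 : d * q f ≤ 3 ^ j := by linarith
      have h2 : σ * q f ≤ 2 * (d * q f) := by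
        have := apply_nonneg q f
        nlinarith
      linarith
    · simp only [h, if_false]; exact G.q_le j (by omega)

/-- greedy alternative. -/
theorem greedy_alt {q : Seminorm ℝ E} {ε : ℝ} (hε : 0 < ε) (hq : ∀ g, ε * ‖g‖ ≤ q g)
    {ρ : ℝ} (hρ : 0 < ρ) (k : ℕ) :
    (∃ e s, Greedy q ρ k e s) ∨
      ∃ j < k, ∃ e : ℕ → E, ∀ g, ρ * ‖resid e j g‖ ≤ q g := by
  induction k with
  | zero =>
    left
    exact ⟨fun _ => 0, fun _ => 0, ⟨by omega, by omega, by omega, by omega, by omega⟩⟩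
  | succ k ih =>
    rcases ih with ⟨e, s, G⟩ | ⟨j, hj, e, h⟩
    · by_cases h : ∀ g, ρ * ‖resid e k g‖ ≤ q g
      · right; exact ⟨k, by omega, e, h⟩
      · push Not at h
        obtain ⟨g₀, hg₀⟩ := h
        left; exact greedy_step hε hq hρ G hg₀
    · right; exact ⟨j, by omega, e, h⟩

/-- **D2, abstract pivoting.** -/
theorem pivot [FiniteDimensional ℝ E] {q : Seminorm ℝ E} {ε : ℝ} (hε : 0 < ε)
    (hq : ∀ g, ε * ‖g‖ ≤ q g) {ρ : ℝ} (hρ : 0 < ρ) (k : ℕ) :
    (∃ e : Fin k → E, Orthonormal ℝ e ∧ ∀ i, q (e i) ≤ 2 * 3 ^ (i : ℕ) * ρ) ∨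
      ∃ V : Submodule ℝ E, finrank ℝ V < k ∧ ∀ g, ρ * ‖g - V.starProjection g‖ ≤ q g := by
  rcases greedy_alt hε hq hρ k with ⟨e, s, G⟩ | ⟨j, hj, e, h⟩
  · left
    refine ⟨fun i => e i, ⟨fun i => G.norm_one i i.2, fun i j hij => G.ortho i i.2 j j.2
      (fun h => hij (Fin.ext h))⟩, fun i => ?_⟩
    have h1 := G.q_le i i.2
    have h2 := G.s_gt i i.2
    have h3 : 0 < s i := (inv_pos.2 hρ).trans h2
    have h4 : (s i)⁻¹ < ρ := by rw [inv_lt_comm₀ h3 hρ]; exact h2
    have h5 : q (e i) ≤ (2 * 3 ^ (i:ℕ)) * (s i)⁻¹ := by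
      rw [← div_eq_mul_inv, le_div_iff₀ h3]; linarith
    refine h5.trans ?_
    exact mul_le_mul_of_nonneg_left h4.le (by positivity)
  · right
    classical
    refine ⟨Submodule.span ℝ ((Finset.range j).image e : Finset E), ?_, fun g => ?_⟩
    · refine lt_of_le_of_lt ?_ hj
      refine (finrank_span_finset_le_card _).trans ?_
      exact (Finset.card_image_le).trans (by simp)
    · refine le_trans ?_ (h g)
      refine mul_le_mul_of_nonneg_left ?_ hρ.le
      set V := Submodule.span ℝ (((Finset.range j).image e : Finset E) : Set E)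
      have hx : (∑ i ∈ Finset.range j, ⟪e i, g⟫ • e i) ∈ V := by
        refine Submodule.sum_mem _ fun i hi => Submodule.smul_mem _ _ (Submodule.subset_span ?_)
        exact Finset.mem_coe.2 (Finset.mem_image_of_mem e hi)
      rw [Submodule.starProjection_minimal]
      exact ciInf_le ⟨0, by rintro _ ⟨y, rfl⟩; exact norm_nonneg _⟩
        (⟨_, hx⟩ : V)

end Vale.Agent.P262.H274
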