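import Vale.Agent.P262.H274.D1
import Vale.Agent.P262.H274.D2

/-!
# P262, scheme S1: slow intervals and pivoting (block D2)
-/

namespace Vale.Agent.P262.H274

open Set Metric RealInnerProductSpace Module

variable {E : Type*} [NormedAddCommGroup E] [InnerProductSpace ℝ E]

/-! ### the support seminorm -/

/-- `W = Reach v n ∩ closedBall 0 N`. -/
def WSet (v : ℕ → E) (n : ℕ) (N : ℝ) : Set E := {w | w ∈ Reach v n ∧ ‖w‖ ≤ N}

/-- support function of `W`. -/
noncomputable def supp (W : Set E) (g : E) : ℝ := sSup ((fun w => ⟪g, w⟫) '' W)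

lemma zero_mem_WSet (v : ℕ → E) (n : ℕ) {N : ℝ} (hN : 0 ≤ N) : (0 : E) ∈ WSet v n N :=
  ⟨zero_mem_reach v n, by simpa using hN⟩

lemma neg_mem_WSet {v : ℕ → E} {n : ℕ} {N : ℝ} {w : E} (hw : w ∈ WSet v n N) : -w ∈ WSet v n N :=
  ⟨neg_mem_reach v n w hw.1, by rw [norm_neg]; exact hw.2⟩

lemma bddAbove_WSet (v : ℕ → E) (n : ℕ) (N : ℝ) (g : E) :
    BddAbove ((fun w => ⟪g, w⟫) '' WSet v n N) := by
  refine ⟨‖g‖ * N, ?_⟩
  rintro _ ⟨w, hw, rfl⟩
  exact (real_inner_le_norm _ _).trans (mul_le_mul_of_nonneg_left hw.2 (norm_nonneg _))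

lemma inner_le_supp {v : ℕ → E} {n : ℕ} {N : ℝ} (g : E) {w : E} (hw : w ∈ WSet v n N) :
    ⟪g, w⟫ ≤ supp (WSet v n N) g :=
  le_csSup (bddAbove_WSet v n N g) ⟨w, hw, rfl⟩

lemma supp_le {v : ℕ → E} {n : ℕ} {N : ℝ} (hN : 0 ≤ N) (g : E) {h : ℝ}
    (hh : ∀ w ∈ WSet v n N, ⟪g, w⟫ ≤ h) : supp (WSet v n N) g ≤ h := by
  refine csSup_le ⟨_, 0, zero_mem_WSet v n hN, rfl⟩ ?_
  rintro _ ⟨w, hw, rfl⟩
  exact hh w hw

/-- the support function as a seminorm. -/
noncomputable def suppSeminorm (v : ℕ → E) (n : ℕ) {N : ℝ} (hN : 0 ≤ N) : Seminorm ℝ E :=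
  Seminorm.of (supp (WSet v n N))
    (by
      intro x y
      refine supp_le hN _ fun w hw => ?_
      rw [inner_add_left]
      exact add_le_add (inner_le_supp x hw) (inner_le_supp y hw))
    (by
      have key : ∀ (a : ℝ) (x : E), supp (WSet v n N) (a • x) ≤ |a| * supp (WSet v n N) x := by
        intro a x
        refine supp_le hN _ fun w hw => ?_
        rw [inner_smul_left]
        simp only [conj_trivial]
        rcases abs_choice a with h | h
        · rw [h]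
          exact mul_le_mul_of_nonneg_left (inner_le_supp x hw) (by rw [← h]; exact abs_nonneg a)
        · have h0 : 0 ≤ -a := by rw [← h]; exact abs_nonneg a
          have h1 := mul_le_mul_of_nonneg_left (inner_le_supp x (neg_mem_WSet hw)) h0
          rw [inner_neg_right] at h1
          rw [h]; linarith
      intro a x
      rw [Real.norm_eq_abs]
      refine le_antisymm (key a x) ?_
      rcases eq_or_ne a 0 with rfl | ha
      · rw [abs_zero, zero_mul]
        have := inner_le_supp ((0:ℝ) • x) (zero_mem_WSet v n hN)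
        simpa using this
      · have h1 := key a⁻¹ (a • x)
        rw [smul_smul, inv_mul_cancel₀ ha, one_smul, abs_inv] at h1
        have h2 : 0 < |a| := abs_pos.2 ha
        rw [inv_mul_eq_div, le_div_iff₀ h2] at h1
        linarith)

lemma suppSeminorm_apply (v : ℕ → E) (n : ℕ) {N : ℝ} (hN : 0 ≤ N) (g : E) :
    suppSeminorm v n hN g = supp (WSet v n N) g := rfl

/-! ### slow intervals -/

/-- `[a, b)` is exactly `k`-slow: a moving `k`-dimensional space with content + rotation `≤ N`. -/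
def SlowEx [FiniteDimensional ℝ E] (v : ℕ → E) (N : ℝ) (k a b : ℕ) : Prop :=
  ∃ V : ℕ → Submodule ℝ E, (∀ t, finrank ℝ (V t) = k) ∧
    ∑ t ∈ Finset.Ico a b, (‖(V t).starProjection (v t)‖ +
      ‖(V (t + 1)).starProjection - (V t).starProjection‖) ≤ N

/-- `[a,b)` is `k`-slow: exactly `j`-slow for some `j ≥ k`. -/
def Slow [FiniteDimensional ℝ E] (v : ℕ → E) (N : ℝ) (k a b : ℕ) : Prop :=
  ∃ j, k ≤ j ∧ SlowEx v N j a b

/-- projections onto ranges of two nearby maps. -/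
lemma norm_starProjection_comp_le [FiniteDimensional ℝ E] (V V' : Submodule ℝ E) {s : ℝ}
    (hs : 0 ≤ s) (h : ∀ y ∈ V, ∃ y' ∈ V', ‖y - y'‖ ≤ s * ‖y‖) (z : E) :
    ‖V.starProjection z - V'.starProjection (V.starProjection z)‖ ≤ s * ‖z‖ := by
  obtain ⟨y', hy', hyy⟩ := h (V.starProjection z) (V.starProjection_apply_mem z)
  have h1 : ‖V.starProjection z - V'.starProjection (V.starProjection z)‖
      ≤ ‖V.starProjection z - y'‖ := by
    rw [Submodule.starProjection_minimal]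
    exact ciInf_le ⟨0, by rintro _ ⟨y, rfl⟩; exact norm_nonneg _⟩ (⟨y', hy'⟩ : V')
  refine h1.trans (hyy.trans ?_)
  exact mul_le_mul_of_nonneg_left (V.norm_starProjection_apply_le z) hs

lemma norm_sub_starProjection_le [FiniteDimensional ℝ E] (V V' : Submodule ℝ E) {s : ℝ}
    (hs : 0 ≤ s) (h : ∀ y ∈ V, ∃ y' ∈ V', ‖y - y'‖ ≤ s * ‖y‖)
    (h' : ∀ y ∈ V', ∃ y' ∈ V, ‖y - y'‖ ≤ s * ‖y‖) :
    ‖V'.starProjection - V.starProjection‖ ≤ 2 * s := by
  refine ContinuousLinearMap.opNorm_le_bound _ (by positivity) fun z => ?_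
  -- `P' z - P z = P'(z - P z) - (P z - P' P z)`
  have e1 : (V'.starProjection - V.starProjection) z
      = V'.starProjection (z - V.starProjection z)
        - (V.starProjection z - V'.starProjection (V.starProjection z)) := by
    simp only [sub_apply, map_sub]; abel
  have h1 := norm_starProjection_comp_le V V' hs h z
  have h2 : ‖V'.starProjection (z - V.starProjection z)‖ ≤ s * ‖z‖ := by
    set x := z - V.starProjection z with hx
    set y := V'.starProjection x with hy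
    have hxn : ‖x‖ ≤ ‖z‖ := by
      have := Submodule.norm_sq_eq_add_norm_sq_starProjection z V
      have h3 : Vᗮ.starProjection z = x := by
        rw [hx, Submodule.starProjection_orthogonal']; simp
      rw [h3] at this
      have h4 : ‖x‖ ^ 2 ≤ ‖z‖ ^ 2 := by nlinarith [norm_nonneg (V.starProjection z)]
      exact le_of_sq_le_sq h4 (norm_nonneg z)
    have h5 : ‖y‖ ^ 2 = ⟪y - V.starProjection y, x⟫ := by
      have a1 : ⟪y, y⟫ = ⟪y, x⟫ := by
        conv_lhs => rw [hy]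
        rw [Submodule.inner_starProjection_left_eq_right,
          (Submodule.starProjection_eq_self_iff).2 (V'.starProjection_apply_mem x),
          ← hy, real_inner_comm]
      have a2 : ⟪V.starProjection y, x⟫ = 0 := by
        rw [real_inner_comm, hx]
        exact Submodule.starProjection_inner_eq_zero z _ (V.starProjection_apply_mem y)
      rw [← real_inner_self_eq_norm_sq, a1, inner_sub_left, a2, sub_zero]
    obtain ⟨y', hy', hyy⟩ := h' y (V'.starProjection_apply_mem x)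
    have h6 : ‖y - V.starProjection y‖ ≤ s * ‖y‖ := by
      refine le_trans ?_ hyy
      rw [Submodule.starProjection_minimal]
      exact ciInf_le ⟨0, by rintro _ ⟨y, rfl⟩; exact norm_nonneg _⟩ (⟨y', hy'⟩ : V)
    have h7 : ‖y‖ ^ 2 ≤ s * ‖y‖ * ‖x‖ := by
      rw [h5]
      exact (real_inner_le_norm _ _).trans (mul_le_mul_of_nonneg_right h6 (norm_nonneg _))
    rcases (norm_nonneg y).eq_or_lt with h0 | h0
    · rw [← h0]; positivity
    · have h8 : ‖y‖ ≤ s * ‖x‖ := by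
        have : ‖y‖ * ‖y‖ ≤ (s * ‖x‖) * ‖y‖ := by nlinarith
        exact le_of_mul_le_mul_right this h0
      exact h8.trans (mul_le_mul_of_nonneg_left hxn hs)
  rw [e1]
  refine (norm_sub_le _ _).trans ?_
  linarith

/-! ### almost orthonormal families -/

section family

variable {k : ℕ} {e θ : Fin k → E} {δ₀ : ℝ}

lemma abs_coord_le (he : Orthonormal ℝ e) (x : Fin k → ℝ) (i : Fin k) :
    |x i| ≤ ‖∑ j, x j • e j‖ := by
  have h1 : ⟪e i, ∑ j, x j • e j⟫ = x i := by
    rw [he.inner_right_fintype]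
  have h2 := abs_real_inner_le_norm (e i) (∑ j, x j • e j)
  rw [h1, he.1 i, one_mul] at h2
  exact h2

lemma abs_coord_le' (he : Orthonormal ℝ e) (hδ : (k : ℝ) * δ₀ ≤ 1 / 2)
    (hθ : ∀ i, ‖θ i - e i‖ ≤ δ₀) (x : Fin k → ℝ) (i : Fin k) :
    |x i| ≤ 2 * ‖∑ j, x j • θ j‖ := by
  set r := ‖∑ j, x j • e j‖ with hr
  have hr0 : 0 ≤ r := norm_nonneg _
  have h1 : ‖∑ j, x j • θ j - ∑ j, x j • e j‖ ≤ r / 2 := by
    rw [← Finset.sum_sub_distrib]
    calc ‖∑ j, (x j • θ j - x j • e j)‖ ≤ ∑ j, ‖x j • θ j - x j • e j‖ := norm_sum_le _ _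
      _ ≤ ∑ _j : Fin k, r * δ₀ := by
          refine Finset.sum_le_sum fun j _ => ?_
          rw [← smul_sub, norm_smul, Real.norm_eq_abs]
          exact mul_le_mul (abs_coord_le he x j) (hθ j) (norm_nonneg _) hr0
      _ = r * (k * δ₀) := by
          rw [Finset.sum_const, Finset.card_univ, Fintype.card_fin, nsmul_eq_mul]; ring
      _ ≤ r / 2 := by nlinarith
  have h2 : r ≤ ‖∑ j, x j • θ j‖ + r / 2 := by
    have : ∑ j, x j • e j = ∑ j, x j • θ j - (∑ j, x j • θ j - ∑ j, x j • e j) := by abel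
    calc r = ‖∑ j, x j • θ j - (∑ j, x j • θ j - ∑ j, x j • e j)‖ := by rw [hr, ← this]
      _ ≤ _ := (norm_sub_le _ _).trans (by linarith)
  have h3 := abs_coord_le he x i
  linarith

lemma linearIndependent_of_close (he : Orthonormal ℝ e) (hδ : (k : ℝ) * δ₀ ≤ 1 / 2)
    (hθ : ∀ i, ‖θ i - e i‖ ≤ δ₀) : LinearIndependent ℝ θ := by
  rw [Fintype.linearIndependent_iff]
  intro x hx i
  have := abs_coord_le' he hδ hθ x i
  rw [hx, norm_zero, mul_zero] at this
  exact abs_eq_zero.1 (le_antisymm this (abs_nonneg _))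

lemma norm_proj_span_le [FiniteDimensional ℝ E] (he : Orthonormal ℝ e)
    (hδ : (k : ℝ) * δ₀ ≤ 1 / 2) (hθ : ∀ i, ‖θ i - e i‖ ≤ δ₀) (w : E) :
    ‖(Submodule.span ℝ (range θ)).starProjection w‖ ≤ 2 * ∑ i, |⟪w, θ i⟫| := by
  set V := Submodule.span ℝ (range θ) with hV
  set y := V.starProjection w with hy
  have hyV : y ∈ V := V.starProjection_apply_mem w
  obtain ⟨x, hx⟩ := (Submodule.mem_span_range_iff_exists_fun ℝ).1 hyV
  have h1 : ‖y‖ ^ 2 = ⟪w, y⟫ := by
    rw [← real_inner_self_eq_norm_sq]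
    conv_lhs => rw [hy]
    rw [Submodule.inner_starProjection_left_eq_right,
      (Submodule.starProjection_eq_self_iff).2 (V.starProjection_apply_mem w)]
  have h2 : ⟪w, y⟫ ≤ ‖y‖ * (2 * ∑ i, |⟪w, θ i⟫|) := by
    have : ⟪w, y⟫ = ∑ i, x i * ⟪w, θ i⟫ := by
      conv_lhs => rw [← hx]
      rw [inner_sum]
      exact Finset.sum_congr rfl fun i _ => inner_smul_right _ _ _
    rw [this]
    calc ∑ i, x i * ⟪w, θ i⟫ ≤ ∑ i, (2 * ‖y‖) * |⟪w, θ i⟫| := by
          refine Finset.sum_le_sum fun i _ => ?_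
          refine (le_abs_self _).trans ?_
          rw [abs_mul]
          refine mul_le_mul_of_nonneg_right ?_ (abs_nonneg _)
          have := abs_coord_le' he hδ hθ x i
          rwa [hx] at this
      _ = ‖y‖ * (2 * ∑ i, |⟪w, θ i⟫|) := by rw [← Finset.mul_sum]; ring
  rcases (norm_nonneg y).eq_or_lt with h0 | h0
  · rw [← h0]; positivity
  · have h3 : ‖y‖ * ‖y‖ ≤ ‖y‖ * (2 * ∑ i, |⟪w, θ i⟫|) := by
      rw [← sq, h1]; exact h2
    exact le_of_mul_le_mul_left h3 h0

lemma gap_span [FiniteDimensional ℝ E] {θ' : Fin k → E} (he : Orthonormal ℝ e)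
    (hδ : (k : ℝ) * δ₀ ≤ 1 / 2) (hθ : ∀ i, ‖θ i - e i‖ ≤ δ₀) :
    ∀ y ∈ Submodule.span ℝ (range θ), ∃ y' ∈ Submodule.span ℝ (range θ'),
      ‖y - y'‖ ≤ (2 * ∑ i, ‖θ' i - θ i‖) * ‖y‖ := by
  intro y hy
  obtain ⟨x, hx⟩ := (Submodule.mem_span_range_iff_exists_fun ℝ).1 hy
  refine ⟨∑ i, x i • θ' i, (Submodule.mem_span_range_iff_exists_fun ℝ).2 ⟨x, rfl⟩, ?_⟩
  rw [← hx, ← Finset.sum_sub_distrib]
  calc ‖∑ i, (x i • θ i - x i • θ' i)‖ ≤ ∑ i, ‖x i • θ i - x i • θ' i‖ := norm_sum_le _ _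
    _ ≤ ∑ i, (2 * ‖∑ j, x j • θ j‖) * ‖θ' i - θ i‖ := by
        refine Finset.sum_le_sum fun i _ => ?_
        rw [← smul_sub, norm_smul, Real.norm_eq_abs, norm_sub_rev]
        exact mul_le_mul_of_nonneg_right (abs_coord_le' he hδ hθ x i) (norm_nonneg _)
    _ = (2 * ∑ i, ‖θ' i - θ i‖) * ‖∑ j, x j • θ j‖ := by
        rw [← Finset.mul_sum]; ring

lemma norm_sub_span_le [FiniteDimensional ℝ E] {θ' : Fin k → E} (he : Orthonormal ℝ e)
    (hδ : (k : ℝ) * δ₀ ≤ 1 / 2) (hθ : ∀ i, ‖θ i - e i‖ ≤ δ₀) (hθ' : ∀ i, ‖θ' i - e i‖ ≤ δ₀) :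
    ‖(Submodule.span ℝ (range θ')).starProjection - (Submodule.span ℝ (range θ)).starProjection‖
      ≤ 4 * ∑ i, ‖θ' i - θ i‖ := by
  have h1 := gap_span (θ' := θ') he hδ hθ
  have h2 := gap_span (θ' := θ) he hδ hθ'
  have h3 : ∑ i, ‖θ i - θ' i‖ = ∑ i, ‖θ' i - θ i‖ :=
    Finset.sum_congr rfl fun i _ => norm_sub_rev _ _
  rw [h3] at h2
  have := norm_sub_starProjection_le (Submodule.span ℝ (range θ)) (Submodule.span ℝ (range θ'))
    (s := 2 * ∑ i, ‖θ' i - θ i‖) (by positivity) h1 h2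
  linarith

/-- a family of paths close to an orthonormal system, with small total cost, gives slowness. -/
theorem slowEx_of_paths [FiniteDimensional ℝ E] (v : ℕ → E) {N : ℝ} (a n : ℕ)
    (Θ : Fin k → ℕ → E) (he : Orthonormal ℝ e) (hδ : (k : ℝ) * δ₀ ≤ 1 / 2)
    (hΘ : ∀ i, ∀ t ≤ n, ‖Θ i t - e i‖ ≤ δ₀)
    (hsum : 4 * ∑ i, ∑ t ∈ Finset.range n,
      (|⟪v (a + t), Θ i t⟫| + ‖Θ i (t + 1) - Θ i t‖) ≤ N) :
    SlowEx v N k a (a + n) := by
  refine ⟨fun t => Submodule.span ℝ (range fun i => Θ i (min (t - a) n)), fun t => ?_, ?_⟩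
  · have := linearIndependent_of_close (θ := fun i => Θ i (min (t - a) n)) he hδ
      (fun i => hΘ i _ (min_le_right _ _))
    rw [finrank_span_eq_card this, Fintype.card_fin]
  · refine le_trans ?_ hsum
    rw [Finset.sum_Ico_eq_sum_range, Nat.add_sub_cancel_left, Finset.sum_comm, Finset.mul_sum]
    refine Finset.sum_le_sum fun t ht => ?_
    rw [Finset.mem_range] at ht
    have e1 : min (a + t - a) n = t := by omega
    have e2 : min (a + t + 1 - a) n = t + 1 := by omega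
    simp only [e1, e2]
    have h1 := norm_proj_span_le (θ := fun i => Θ i t) he hδ (fun i => hΘ i _ ht.le) (v (a + t))
    have h2 := norm_sub_span_le (θ := fun i => Θ i t) (θ' := fun i => Θ i (t + 1)) he hδ
      (fun i => hΘ i _ ht.le) (fun i => hΘ i _ ht)
    rw [Finset.sum_add_distrib]
    have h3 : 0 ≤ ∑ i, |⟪v (a + t), Θ i t⟫| := by positivity
    linarith

end family

end Vale.Agent.P262.H274
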