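import Vale.Agent.P262.H274.D3

/-!
# P262, scheme S1: pivoting theorem (block D3)

Either the interval `[a, a+n)` is `k`-slow, or the support function of the reachable set controls
`‖g - P g‖` for a projection of rank `< k`.
-/

namespace Vale.Agent.P262.H274

open Set Metric RealInnerProductSpace Module

variable {E : Type*} [NormedAddCommGroup E] [InnerProductSpace ℝ E]

lemma eight_mul_le (k : ℕ) (hk : 1 ≤ k) : (8 : ℝ) * k ≤ 3 ^ (k + 1) := by
  induction k, hk using Nat.le_induction with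
  | base => norm_num
  | succ k hk ih =>
    have h1 : (1 : ℝ) ≤ k := by exact_mod_cast hk
    have : (3 : ℝ) ^ (k + 1 + 1) = 3 * 3 ^ (k + 1) := by ring
    push_cast
    rw [this]; linarith

omit [InnerProductSpace ℝ E] in
lemma norm_sub_le_sum_path {θ : ℕ → E} {t n : ℕ} (h : t ≤ n) :
    ‖θ n - θ t‖ ≤ ∑ s ∈ Finset.range n, ‖θ (s + 1) - θ s‖ := by
  have h1 : θ n - θ t = ∑ s ∈ Finset.Ico t n, (θ (s + 1) - θ s) := by
    rw [Finset.sum_Ico_sub θ h]
  rw [h1]
  refine (norm_sum_le _ _).trans ?_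
  rw [Finset.range_eq_Ico]
  exact Finset.sum_le_sum_of_subset_of_nonneg
    (Finset.Ico_subset_Ico_left (Nat.zero_le t)) fun _ _ _ => norm_nonneg _

/-- **Pivoting theorem** (711 #10332 (3)). -/
theorem pivot_slow [FiniteDimensional ℝ E] (v : ℕ → E) {N : ℝ} (hN0 : 0 < N) (hN1 : N ≤ 1)
    {k : ℕ} (hk : 1 ≤ k) (a n : ℕ) :
    SlowEx v N k a (a + n) ∨ ∀ ε > 0, ∃ V : Submodule ℝ E, finrank ℝ V < k ∧
      ∀ g, N / 9 ^ k * ‖g - V.starProjection g‖
        ≤ supp (WSet (fun t => v (a + t)) n N) g + ε * ‖g‖ := by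
  by_cases hS : SlowEx v N k a (a + n)
  · exact Or.inl hS
  refine Or.inr fun ε hε => ?_
  set v' : ℕ → E := fun t => v (a + t) with hv'
  set εn : NNReal := ⟨ε, hε.le⟩ with hεn
  set q : Seminorm ℝ E := suppSeminorm v' n hN0.le + εn • normSeminorm ℝ E with hq
  have hqa : ∀ g, q g = supp (WSet v' n N) g + ε * ‖g‖ := fun g => rfl
  have hs0 : ∀ g, 0 ≤ supp (WSet v' n N) g := fun g => by
    have := inner_le_supp g (zero_mem_WSet v' n hN0.le)
    rwa [inner_zero_right] at this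
  have hqε : ∀ g, ε * ‖g‖ ≤ q g := fun g => by rw [hqa]; linarith [hs0 g]
  have hρ : 0 < N / 9 ^ k := by positivity
  rcases pivot hε hqε hρ k with ⟨e, he, hqe⟩ | ⟨V, hV, h⟩
  swap
  · exact ⟨V, hV, fun g => by rw [← hqa]; exact h g⟩
  exfalso
  apply hS
  set η : ℝ := 2 / 3 * (N / 3 ^ k) with hη
  have hη0 : 0 < η := by positivity
  have hHe : ∀ i, supp (WSet v' n N) (e i) ≤ η := by
    intro i
    have h1 := hqe i
    rw [hqa] at h1
    have h2 : (3 : ℝ) ^ (i : ℕ) ≤ 3 ^ (k - 1) :=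
      pow_le_pow_right₀ (by norm_num) (by omega)
    have h3 : (3 : ℝ) ^ k = 3 * 3 ^ (k - 1) := by
      rw [← pow_succ']; congr 1; omega
    have h4 : (9 : ℝ) ^ k = 3 ^ k * 3 ^ k := by
      rw [← mul_pow]; norm_num
    have h5 : 2 * 3 ^ (k - 1) * (N / 9 ^ k) = η := by
      rw [hη, h4, h3]
      have : (3 : ℝ) ^ (k - 1) ≠ 0 := by positivity
      field_simp
    have h6 : 2 * 3 ^ (i : ℕ) * (N / 9 ^ k) ≤ η := by
      rw [← h5]
      exact mul_le_mul_of_nonneg_right (by linarith) hρ.le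
    have h7 : 0 ≤ ε * ‖e i‖ := by positivity
    linarith
  have hex : ∀ i, ∃ θ : ℕ → E,
      ∑ t ∈ Finset.range n, (|⟪v' t, θ t⟫| + ‖θ (t + 1) - θ t‖) + N * ‖e i - θ n‖ ≤ η := by
    intro i
    refine dual_path_final v' n hN0 (e i) η fun w hw hwn => ?_
    exact (inner_le_supp (e i) ⟨hw, hwn⟩).trans (hHe i)
  choose θ hθ using hex
  have hsum1 : ∀ i, ∑ t ∈ Finset.range n, (|⟪v' t, θ i t⟫| + ‖θ i (t + 1) - θ i t‖) ≤ η := by
    intro i
    have := hθ i
    have h0 : 0 ≤ N * ‖e i - θ i n‖ := by positivity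
    linarith
  have hrot : ∀ i, ∑ t ∈ Finset.range n, ‖θ i (t + 1) - θ i t‖ ≤ η := by
    intro i
    have h1 := hsum1 i
    rw [Finset.sum_add_distrib] at h1
    have h0 : 0 ≤ ∑ t ∈ Finset.range n, |⟪v' t, θ i t⟫| := by positivity
    linarith
  have hend : ∀ i, ‖e i - θ i n‖ ≤ η / N := by
    intro i
    rw [le_div_iff₀ hN0]
    have := hθ i
    have h0 : 0 ≤ ∑ t ∈ Finset.range n, (|⟪v' t, θ i t⟫| + ‖θ i (t + 1) - θ i t‖) := by positivity
    linarith [mul_comm N ‖e i - θ i n‖]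
  have h3k : (0 : ℝ) < 3 ^ k := by positivity
  have hηN : η / N = 2 / 3 / 3 ^ k := by rw [hη]; field_simp
  have hη1 : η ≤ 2 / 3 / 3 ^ k := by
    rw [hη]
    have : N / 3 ^ k ≤ 1 / 3 ^ k := div_le_div_of_nonneg_right hN1 h3k.le
    calc 2 / 3 * (N / 3 ^ k) ≤ 2 / 3 * (1 / 3 ^ k) := by linarith
      _ = 2 / 3 / 3 ^ k := by ring
  refine slowEx_of_paths (e := e) (δ₀ := 4 / 3 / 3 ^ k) v a n θ he ?_ ?_ ?_
  · have h8 := eight_mul_le k hk
    rw [mul_div_assoc', div_le_iff₀ h3k]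
    have : (3 : ℝ) ^ (k + 1) = 3 * 3 ^ k := by ring
    rw [this] at h8
    linarith
  · intro i t ht
    have h1 : ‖θ i n - θ i t‖ ≤ η := (norm_sub_le_sum_path ht).trans (hrot i)
    have h2 : ‖θ i t - e i‖ ≤ ‖θ i n - θ i t‖ + ‖e i - θ i n‖ := by
      have : θ i t - e i = -(θ i n - θ i t) - (e i - θ i n) := by abel
      rw [this]
      refine (norm_sub_le _ _).trans ?_
      rw [norm_neg]
    have h3 := hend i
    rw [hηN] at h3
    have : (4 : ℝ) / 3 / 3 ^ k = 2 / 3 / 3 ^ k + 2 / 3 / 3 ^ k := by ring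
    rw [this]; linarith
  · have h8 := eight_mul_le k hk
    calc 4 * ∑ i, ∑ t ∈ Finset.range n, (|⟪v (a + t), θ i t⟫| + ‖θ i (t + 1) - θ i t‖)
        ≤ 4 * ∑ _i : Fin k, η := by
          refine mul_le_mul_of_nonneg_left (Finset.sum_le_sum fun i _ => hsum1 i) (by norm_num)
      _ = 4 * (k * η) := by
          rw [Finset.sum_const, Finset.card_univ, Fintype.card_fin, nsmul_eq_mul]
      _ ≤ N := by
          rw [hη]
          have h9 : (3 : ℝ) ^ (k + 1) = 3 * 3 ^ k := by ring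
          rw [h9] at h8
          have h10 : 4 * (k * (2 / 3 * (N / 3 ^ k))) = (8 * k) / (3 * 3 ^ k) * N := by
            field_simp; ring
          rw [h10]
          have h11 : (8 * k) / (3 * 3 ^ k) ≤ (1 : ℝ) := by
            rw [div_le_one (by positivity)]; exact h8
          calc (8 * k) / (3 * 3 ^ k) * N ≤ 1 * N := mul_le_mul_of_nonneg_right h11 hN0.le
            _ = N := one_mul N

end Vale.Agent.P262.H274
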