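import Vale.Agent.P262.H274.D5
import Mathlib.Analysis.Normed.Module.FiniteDimension

/-!
# P262, scheme S1: the deterministic half without `ε`, with explicit coefficients
-/

namespace Vale.Agent.P262.H274

open Set Metric RealInnerProductSpace Module Filter Topology

variable {E : Type*} [NormedAddCommGroup E] [InnerProductSpace ℝ E]

/-- end points of admissible paths come from coefficients. -/
theorem exists_coeff (v : ℕ → E) : ∀ n, ∀ w ∈ Reach v n, ∃ κ : ℕ → ℝ, (∀ t, |κ t| ≤ 1) ∧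
    (∀ t ≤ n, ‖∑ r ∈ Finset.range t, κ r • v r‖ ≤ 1) ∧ w = ∑ r ∈ Finset.range n, κ r • v r := by
  intro n
  induction n with
  | zero =>
    intro w hw
    rw [Reach, mem_singleton_iff] at hw
    exact ⟨fun _ => 0, fun _ => by simp, fun t _ => by simp, by simp [hw]⟩
  | succ n ih =>
    rintro w ⟨w', hw', c, hc, rfl, hw⟩
    obtain ⟨κ, h1, h2, h3⟩ := ih w' hw'
    refine ⟨fun t => if t < n then κ t else if t = n then c else 0, fun t => ?_, fun t ht => ?_, ?_⟩
    · dsimp only
      split_ifs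
      · exact h1 t
      · exact abs_le.2 hc
      · simp
    · rcases Nat.lt_or_ge t (n + 1) with h | h
      · have e : ∑ r ∈ Finset.range t, (if r < n then κ r else if r = n then c else 0) • v r
            = ∑ r ∈ Finset.range t, κ r • v r := by
          refine Finset.sum_congr rfl fun r hr => ?_
          rw [Finset.mem_range] at hr
          rw [if_pos (by omega)]
        rw [e]; exact h2 t (by omega)
      · obtain rfl : t = n + 1 := by omega
        rw [Finset.sum_range_succ]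
        have e : ∑ r ∈ Finset.range n, (if r < n then κ r else if r = n then c else 0) • v r
            = ∑ r ∈ Finset.range n, κ r • v r := by
          refine Finset.sum_congr rfl fun r hr => ?_
          rw [Finset.mem_range] at hr
          rw [if_pos hr]
        rw [e, ← h3]
        simpa using hw
    · rw [Finset.sum_range_succ]
      have e : ∑ r ∈ Finset.range n, (if r < n then κ r else if r = n then c else 0) • v r
          = ∑ r ∈ Finset.range n, κ r • v r := by
        refine Finset.sum_congr rfl fun r hr => ?_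
        rw [Finset.mem_range] at hr
        rw [if_pos hr]
      rw [e, ← h3]
      simp

/-- almost maximisers of the support function, with coefficients. -/
theorem exists_coeff_supp (v : ℕ → E) (n : ℕ) {N : ℝ} (hN : 0 ≤ N) (g : E) {δ : ℝ} (hδ : 0 < δ) :
    ∃ κ : ℕ → ℝ, (∀ t, |κ t| ≤ 1) ∧ (∀ t ≤ n, ‖∑ r ∈ Finset.range t, κ r • v r‖ ≤ 1) ∧
      ‖∑ r ∈ Finset.range n, κ r • v r‖ ≤ N ∧
      supp (WSet v n N) g ≤ ⟪∑ r ∈ Finset.range n, κ r • v r, g⟫ + δ := by
  obtain ⟨_, ⟨w, hw, rfl⟩, hlt⟩ := exists_lt_of_lt_csSup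
    (s := (fun w => ⟪g, w⟫) '' WSet v n N) ⟨_, 0, zero_mem_WSet v n hN, rfl⟩
    (show supp (WSet v n N) g - δ < supp (WSet v n N) g by linarith)
  obtain ⟨κ, h1, h2, h3⟩ := exists_coeff v n w hw.1
  refine ⟨κ, h1, h2, h3 ▸ hw.2, ?_⟩
  rw [← h3, real_inner_comm]
  dsimp only at hlt
  linarith

/-- Compactness of the Grassmannian: the `ε` can be dropped. -/
theorem compact_grass [FiniteDimensional ℝ E] {c : ℝ} (hc : 0 ≤ c) {s : E → ℝ} {k : ℕ}
    (h : ∀ ε > 0, ∃ V : Submodule ℝ E, finrank ℝ V < k ∧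
      ∀ g, c * ‖g - V.starProjection g‖ ≤ s g + ε * ‖g‖) :
    ∃ V : Submodule ℝ E, finrank ℝ V < k ∧ ∀ g, c * ‖g - V.starProjection g‖ ≤ s g := by
  have hε : ∀ n : ℕ, (0 : ℝ) < 1 / (n + 1) := fun n => by positivity
  choose V hV hg using fun n : ℕ => h (1 / ((n : ℝ) + 1)) (hε n)
  set P : ℕ → (E →L[ℝ] E) := fun n => (V n).starProjection with hP
  have hPb : ∀ n, P n ∈ closedBall (0 : E →L[ℝ] E) 1 := fun n => by
    rw [mem_closedBall_zero_iff]
    exact ContinuousLinearMap.opNorm_le_bound _ zero_le_one fun x => by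
      rw [one_mul]; exact (V n).norm_starProjection_apply_le x
  have : ProperSpace (E →L[ℝ] E) := FiniteDimensional.proper_real _
  obtain ⟨Q, -, φ, hφ, hlim⟩ := (isCompact_closedBall (0 : E →L[ℝ] E) 1).tendsto_subseq hPb
  have hrank : Q ∈ {f : E →L[ℝ] E | (k : Cardinal) ≤ (f : E →ₗ[ℝ] E).rank}ᶜ := by
    have hcl : IsClosed {f : E →L[ℝ] E | (k : Cardinal) ≤ (f : E →ₗ[ℝ] E).rank}ᶜ :=
      (isOpen_setOfPred_nat_le_rank k).isClosed_compl
    refine hcl.mem_of_tendsto hlim (Eventually.of_forall fun n => ?_)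
    rw [mem_compl_iff, mem_ofPred_eq, not_le]
    have h1 : LinearMap.range (((P ∘ φ) n : E →L[ℝ] E) : E →ₗ[ℝ] E) = V (φ n) :=
      (V (φ n)).range_starProjection
    rw [LinearMap.rank, h1, ← finrank_eq_rank]
    exact_mod_cast hV (φ n)
  rw [mem_compl_iff, mem_ofPred_eq, not_le, LinearMap.rank, ← finrank_eq_rank] at hrank
  refine ⟨LinearMap.range (Q : E →ₗ[ℝ] E), by exact_mod_cast hrank, fun g => ?_⟩
  have h1 : ‖g - (LinearMap.range (Q : E →ₗ[ℝ] E)).starProjection g‖ ≤ ‖g - Q g‖ := by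
    rw [Submodule.starProjection_minimal]
    exact ciInf_le ⟨0, by rintro _ ⟨y, rfl⟩; exact norm_nonneg _⟩
      (⟨Q g, ⟨g, rfl⟩⟩ : LinearMap.range (Q : E →ₗ[ℝ] E))
  refine (mul_le_mul_of_nonneg_left h1 hc).trans ?_
  have ht1 : Tendsto (fun n => c * ‖g - P (φ n) g‖) atTop (𝓝 (c * ‖g - Q g‖)) := by
    have : Tendsto (fun n => P (φ n) g) atTop (𝓝 (Q g)) :=
      ((ContinuousLinearMap.apply ℝ E g).continuous.tendsto Q).comp hlim
    exact ((tendsto_const_nhds.sub this).norm).const_mul c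
  have ht2 : Tendsto (fun n : ℕ => s g + 1 / ((φ n : ℝ) + 1) * ‖g‖) atTop (𝓝 (s g + 0 * ‖g‖)) := by
    have : Tendsto (fun n : ℕ => (1 : ℝ) / ((φ n : ℝ) + 1)) atTop (𝓝 0) :=
      (tendsto_one_div_add_atTop_nhds_zero_nat (𝕜 := ℝ)).comp hφ.tendsto_atTop
    exact tendsto_const_nhds.add (this.mul_const _)
  rw [zero_mul, add_zero] at ht2
  exact le_of_tendsto_of_tendsto ht1 ht2 (Eventually.of_forall fun n => hg (φ n) g)

end Vale.Agent.P262.H274
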