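import Vale.Agent.P262.H274.D6
import Vale.Agent.P262.H941.Supp

/-!
# P262, scheme S1: deterministic half in the form consumed by `H941.supp_bound`
-/

namespace Vale.Agent.P262.H274

open Set Metric RealInnerProductSpace Module Filter Topology
open Vale.Agent.P262.H941 (Adm)

variable {E : Type*} [NormedAddCommGroup E] [InnerProductSpace ℝ E] [FiniteDimensional ℝ E]

/-- the form of the pivot conclusion consumed by `H941.supp_bound` (`P = 1 - P_V`). -/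
def PivotAt (v : ℕ → E) (N : ℝ) (k a b : ℕ) (V : Submodule ℝ E) : Prop :=
  finrank ℝ V < k ∧ ∀ m : E, ∀ δ : ℝ, 0 < δ → ∃ κ, Adm (fun t => v (a + t)) (b - a) N κ ∧
    N / 9 ^ k * ‖(ContinuousLinearMap.id ℝ E - V.starProjection) m‖
      ≤ ⟪∑ r ∈ Finset.range (b - a), κ r • v (a + r), m⟫ + δ

theorem pivotAt_of_supp {v : ℕ → E} {N : ℝ} (hN0 : 0 < N) {k a b : ℕ}
    (h : ∀ ε > 0, ∃ V : Submodule ℝ E, finrank ℝ V < k ∧ ∀ x,
      N / 9 ^ k * ‖x - V.starProjection x‖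
        ≤ supp (WSet (fun t => v (a + t)) (b - a) N) x + ε * ‖x‖) :
    ∃ V, PivotAt v N k a b V := by
  obtain ⟨V, hV, hg⟩ := compact_grass (c := N / 9 ^ k) (by positivity) h
  refine ⟨V, hV, fun m δ hδ => ?_⟩
  obtain ⟨κ, h1, h2, h3, h4⟩ := exists_coeff_supp (fun t => v (a + t)) (b - a) hN0.le m hδ
  exact ⟨κ, ⟨h1, h2, h3⟩, (hg m).trans h4⟩

/-- **Pivoting theorem, final form**. -/
theorem pivot_adm (v : ℕ → E) {N : ℝ} (hN0 : 0 < N) (hN1 : N ≤ 1) {k : ℕ} (hk : 1 ≤ k)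
    {a b : ℕ} (hab : a ≤ b) (hS : ¬ SlowEx v N k a b) : ∃ V, PivotAt v N k a b V := by
  have hlu : a + (b - a) = b := by omega
  rcases pivot_slow v hN0 hN1 hk a (b - a) with h | h
  · rw [hlu] at h; exact absurd h hS
  · exact pivotAt_of_supp hN0 h

/-- **Deterministic half of the gain-cost lemma, final form**. -/
theorem deterministic_half_adm (v : ℕ → E) {N ρ : ℝ} (hN0 : 0 < N) (hN1 : N ≤ 1) (hρ0 : 0 < ρ)
    (hρ1 : ρ ≤ 1) {g : ℕ → ℝ} (hg : ∀ t, 0 ≤ g t) {a b : ℕ} (hab : a < b)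
    (hS : ¬ Slow v N 1 a b) {c : ℝ} (hc : Gam g a b ≤ c * Cost (Slow v N) ρ a b) :
    ∃ l u : ℕ → ℕ, (∀ k, a ≤ l k ∧ u k ≤ b ∧ l k ≤ l (k + 1) ∧ u (k + 1) ≤ u k) ∧
      (∀ k, 1 ≤ k → k + 1 ≤ finrank ℝ E → l k < u k ∧ Gam g (l k) (u k) ≤ 3 * ρ ^ k * c ∧
        ∃ V, PivotAt v N k (l k) (u k) V) ∧
      ∃ t, ∀ k, k + 1 ≤ finrank ℝ E → l k ≤ t ∧ t < u k := by
  obtain ⟨l, u, h1, h2, h3⟩ := deterministic_half v hN0 hN1 hρ0 hρ1 hg hab hS hc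
  exact ⟨l, u, h1, fun k hk1 hk2 => ⟨(h2 k hk1 hk2).1, (h2 k hk1 hk2).2.1,
    pivotAt_of_supp hN0 (h2 k hk1 hk2).2.2⟩, h3⟩

end Vale.Agent.P262.H274
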