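import Vale.Agent.P262.H274.D7
import Vale.Agent.P262.H941.Scale

/-!
# P262, scheme S1: gain-cost lemma, step (5): the estimate at level `k`
-/

namespace Vale.Agent.P262.H274

open Set Metric RealInnerProductSpace Module Filter Topology MeasureTheory ProbabilityTheory
open Vale.Agent.P262.H941 (Adm FluxLe mom supp_bound mom_change integrable_norm_mom)
open Vale.Agent.P262.H847 (UI)

variable {E : Type*} [NormedAddCommGroup E] [InnerProductSpace ℝ E] [FiniteDimensional ℝ E]
  [MeasurableSpace E] [BorelSpace E]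

/-- gain density: flux plus change of the field. -/
noncomputable def gn (e : ℕ → E → ℝ) (F : ℕ → ℝ) (t : ℕ) : ℝ :=
  F t + ∫ x, |e (t + 1) x - e t x| ∂(stdGaussian E)

omit [BorelSpace E] in
lemma gn_nonneg {e : ℕ → E → ℝ} {F : ℕ → ℝ} (hF : ∀ t, 0 ≤ F t) (t : ℕ) : 0 ≤ gn e F t :=
  add_nonneg (hF t) (integral_nonneg fun _ => abs_nonneg _)

lemma integrable_sub_abs {e : ℕ → E → ℝ} (he : ∀ t, UI (e t)) (i j : ℕ) :
    Integrable (fun x => |e j x - e i x|) (stdGaussian E) :=
  (((he j).integrable _).sub ((he i).integrable _)).abs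

lemma l1_path {e : ℕ → E → ℝ} (he : ∀ t, UI (e t)) {i j : ℕ} (hij : i ≤ j) :
    ∫ x, |e j x - e i x| ∂(stdGaussian E)
      ≤ ∑ t ∈ Finset.Ico i j, ∫ x, |e (t + 1) x - e t x| ∂(stdGaussian E) := by
  induction j, hij using Nat.le_induction with
  | base => simp
  | succ j hij ih =>
    rw [Finset.sum_Ico_succ_top hij]
    refine le_trans ?_ (add_le_add_left ih _)
    rw [← integral_add (integrable_sub_abs he i j) (integrable_sub_abs he j (j + 1))]
    refine integral_mono (integrable_sub_abs he i (j + 1))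
      ((integrable_sub_abs he i j).add (integrable_sub_abs he j (j + 1))) fun x => ?_
    show |e (j + 1) x - e i x| ≤ |e j x - e i x| + |e (j + 1) x - e j x|
    have := abs_add_le (e j x - e i x) (e (j + 1) x - e j x)
    have h2 : e j x - e i x + (e (j + 1) x - e j x) = e (j + 1) x - e i x := by ring
    rw [h2] at this
    exact this

lemma l1_le_gam {e : ℕ → E → ℝ} (he : ∀ t, UI (e t)) {F : ℕ → ℝ} (hF : ∀ t, 0 ≤ F t)
    {l u i j : ℕ} (hl : l ≤ i) (hij : i ≤ j) (hu : j ≤ u) :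
    ∫ x, |e j x - e i x| ∂(stdGaussian E) ≤ Gam (gn e F) l u := by
  refine (l1_path he hij).trans ?_
  unfold Gam
  refine (Finset.sum_le_sum fun t _ => ?_).trans
    (Finset.sum_le_sum_of_subset_of_nonneg (Finset.Ico_subset_Ico hl hu)
      fun t _ _ => gn_nonneg hF t)
  have := hF t
  unfold gn
  linarith

/-- **Level `k` estimate**, raw form. -/
theorem level_raw {v : ℕ → E} {N : ℝ} {k l u : ℕ} {V : Submodule ℝ E} (hN0 : 0 < N)
    (hP : PivotAt v N k l u V) {e : ℕ → E → ℝ} (he : ∀ t, UI (e t)) {F : ℕ → ℝ}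
    (hF0 : ∀ t, 0 ≤ F t) (hF : ∀ t, l ≤ t → t < u → FluxLe (e t) (v t) (F t))
    {ts : ℕ} (hlt : l ≤ ts) (htu : ts ≤ u) {η D : ℝ} (hη : Gam (gn e F) l u ≤ η)
    (hD : ∫ x, e ts x ∂(stdGaussian E) = D)
    {c s : ℝ} (hcs : c ^ 2 + s ^ 2 = 1) (hs : 0 < s) (hs1 : s ≤ 1)
    {ε T T' : ℝ} (hε : 0 < ε) (hε1 : ε ≤ 1) (hT : 1 ≤ T) (hT' : 1 ≤ T') :
    ∫ y, ‖(ContinuousLinearMap.id ℝ E - V.starProjection) (mom (e ts) s (c • y))‖ ∂(stdGaussian E)
      ≤ 9 ^ k / (N * ε) * (Real.exp (1 / 2) * η + Real.exp (1 / 2) * (ε ^ 3 / 6 * (N ^ 3 *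
          (8 * T ^ 3 * (D + η) + 96 * Real.exp (-(T ^ 2 / 2))))))
        + (2 * T' * η + 12 * Real.exp (-(T' ^ 2 / 2))) := by
  obtain ⟨-, hP⟩ := hP
  set P : E →L[ℝ] E := ContinuousLinearMap.id ℝ E - V.starProjection with hPdef
  have hlu : l ≤ u := hlt.trans htu
  have hPn : ∀ x, ‖P x‖ ≤ ‖x‖ := fun x => by
    have h1 : P x = Vᗮ.starProjection x := by
      rw [hPdef, Submodule.starProjection_orthogonal]
    rw [h1]; exact Vᗮ.norm_starProjection_apply_le x
  -- support bound at the end point `u`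
  have hsb := supp_bound (e := fun t => e (l + t)) (fun t => he (l + t)) (v := fun t => v (l + t))
    (F := fun t => F (l + t)) hcs hs hs1 (u - l)
    (fun t ht => hF (l + t) (by omega) (by omega)) hN0.le (P := P) (lam := N / 9 ^ k)
    (fun m δ hδ => hP m δ hδ) hε hε1 hT
  have hlu' : l + (u - l) = u := by omega
  have hsum : ∑ t ∈ Finset.range (u - l),
      (F (l + t) + ∫ x, |e (l + (t + 1)) x - e (l + t) x| ∂(stdGaussian E))
        = Gam (gn e F) l u := by
    unfold Gam gn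
    rw [Finset.sum_Ico_eq_sum_range]
    rfl
  rw [hsum, hlu'] at hsb
  -- the mass at `u`
  have hch := l1_le_gam he hF0 (e := e) (F := F) hlt htu le_rfl
  have hmass : ∫ x, e u x ∂(stdGaussian E) ≤ D + η := by
    have h1 : ∫ x, e u x ∂(stdGaussian E) - ∫ x, e ts x ∂(stdGaussian E)
        ≤ ∫ x, |e u x - e ts x| ∂(stdGaussian E) := by
      rw [← integral_sub ((he u).integrable _) ((he ts).integrable _)]
      exact integral_mono (((he u).integrable _).sub ((he ts).integrable _))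
        (integrable_sub_abs he ts u) fun x => le_abs_self _
    linarith
  have hη0 : 0 ≤ η := (gam_nonneg (gn_nonneg hF0) l u).trans hη
  set A := ∫ y, ‖P (mom (e u) s (c • y))‖ ∂(stdGaussian E) with hA
  have h9 : (0 : ℝ) < 9 ^ k := by positivity
  have hA1 : A ≤ 9 ^ k / (N * ε) * (Real.exp (1 / 2) * η + Real.exp (1 / 2) * (ε ^ 3 / 6 * (N ^ 3 *
          (8 * T ^ 3 * (D + η) + 96 * Real.exp (-(T ^ 2 / 2)))))) := by
    rw [div_mul_eq_mul_div, le_div_iff₀ (by positivity)]
    have h1 : Real.exp (1 / 2) * Gam (gn e F) l u ≤ Real.exp (1 / 2) * η :=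
      mul_le_mul_of_nonneg_left hη (Real.exp_pos _).le
    have h2 : Real.exp (1 / 2) * (ε ^ 3 / 6 * (N ^ 3 * (8 * T ^ 3 * ∫ x, e u x ∂(stdGaussian E)
            + 96 * Real.exp (-(T ^ 2 / 2)))))
        ≤ Real.exp (1 / 2) * (ε ^ 3 / 6 * (N ^ 3 * (8 * T ^ 3 * (D + η)
            + 96 * Real.exp (-(T ^ 2 / 2))))) := by gcongr
    have h3 : A * (N * ε) = 9 ^ k * (ε * (N / 9 ^ k * A)) := by field_simp
    rw [h3]
    exact mul_le_mul_of_nonneg_left (by linarith) h9.le
  -- change of the field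
  have hmc := mom_change (he ts) (he u) hcs hT'
  have hsy : ∫ x, |e ts x - e u x| ∂(stdGaussian E) ≤ η := by
    have : ∫ x, |e ts x - e u x| ∂(stdGaussian E) = ∫ x, |e u x - e ts x| ∂(stdGaussian E) := by
      congr 1; funext x; rw [abs_sub_comm]
    rw [this]; exact hch.trans hη
  have hI1 := integrable_norm_mom (he ts) P c s
  have hI2 := integrable_norm_mom (he u) P c s
  have hI3 : Integrable (fun y => ‖mom (e ts) s (c • y) - mom (e u) s (c • y)‖)
      (stdGaussian E) := by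
    have h1 := integrable_norm_mom (he ts) (ContinuousLinearMap.id ℝ E) c s
    have h2 := integrable_norm_mom (he u) (ContinuousLinearMap.id ℝ E) c s
    refine (h1.add h2).mono' ?_ (Eventually.of_forall fun y => ?_)
    · exact (((Vale.Agent.P262.H941.measurable_mom (he ts) s).comp (by fun_prop)).sub
        ((Vale.Agent.P262.H941.measurable_mom (he u) s).comp (by fun_prop))).norm.aestronglyMeasurable
    · rw [norm_norm]
      exact norm_sub_le _ _
  have hmono : ∫ y, ‖P (mom (e ts) s (c • y))‖ ∂(stdGaussian E)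
      ≤ A + ∫ y, ‖mom (e ts) s (c • y) - mom (e u) s (c • y)‖ ∂(stdGaussian E) := by
    rw [hA, ← integral_add hI2 hI3]
    refine integral_mono hI1 (hI2.add hI3) fun y => ?_
    show ‖P (mom (e ts) s (c • y))‖ ≤ ‖P (mom (e u) s (c • y))‖
      + ‖mom (e ts) s (c • y) - mom (e u) s (c • y)‖
    have h1 : P (mom (e ts) s (c • y)) = P (mom (e u) s (c • y))
        + P (mom (e ts) s (c • y) - mom (e u) s (c • y)) := by rw [map_sub]; abel
    rw [h1]
    exact (norm_add_le _ _).trans (add_le_add_right (hPn _) _)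
  have h4 : 2 * T' * ∫ x, |e ts x - e u x| ∂(stdGaussian E) ≤ 2 * T' * η :=
    mul_le_mul_of_nonneg_left hsy (by positivity)
  linarith

end Vale.Agent.P262.H274
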