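import Vale.Agent.P262.H274.D5

/-!
# P262, scheme S1: doubling adapter

The gain-cost lemma is stated for fields `e_t` and fluxes in the directions `v_t` at `e_t`.  For a
star step the flux has to be taken at an intermediate field.  This file doubles the sequence:
`dbl v = (0, v₀, 0, v₁, ...)`.
-/

namespace Vale.Agent.P262.H274

open Set Metric RealInnerProductSpace Module

variable {E : Type*} [NormedAddCommGroup E]

/-- interleave with zeros: `dbl v (2t) = 0`, `dbl v (2t+1) = v t`. -/
def dbl (v : ℕ → E) (s : ℕ) : E := if s % 2 = 1 then v (s / 2) else 0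

/-- interleave two sequences: `mix e f (2t) = e t`, `mix e f (2t+1) = f t`. -/
def mix {α : Type*} (e f : ℕ → α) (s : ℕ) : α := if s % 2 = 1 then f (s / 2) else e (s / 2)

@[simp] lemma mix_even {α : Type*} (e f : ℕ → α) (t : ℕ) : mix e f (2 * t) = e t := by
  unfold mix; rw [if_neg (by omega)]; congr 1; omega

@[simp] lemma mix_odd {α : Type*} (e f : ℕ → α) (t : ℕ) : mix e f (2 * t + 1) = f t := by
  unfold mix; rw [if_pos (by omega)]; congr 1; omega

@[simp] lemma dbl_even (v : ℕ → E) (t : ℕ) : dbl v (2 * t) = 0 := by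
  unfold dbl; rw [if_neg (by omega)]

@[simp] lemma dbl_odd (v : ℕ → E) (t : ℕ) : dbl v (2 * t + 1) = v t := by
  unfold dbl; rw [if_pos (by omega)]; congr 1; omega

/-- sums over `[2a, 2b)`. -/
lemma sum_Ico_double {M : Type*} [AddCommMonoid M] (g : ℕ → M) {a b : ℕ} (hab : a ≤ b) :
    ∑ s ∈ Finset.Ico (2 * a) (2 * b), g s = ∑ t ∈ Finset.Ico a b, (g (2 * t) + g (2 * t + 1)) := by
  induction b, hab using Nat.le_induction with
  | base => simp
  | succ b hab ih =>
    rw [Finset.sum_Ico_succ_top hab, ← ih, show 2 * (b + 1) = 2 * b + 1 + 1 by ring,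
      Finset.sum_Ico_succ_top (by omega), Finset.sum_Ico_succ_top (by omega), add_assoc]

variable [InnerProductSpace ℝ E] [FiniteDimensional ℝ E]

lemma norm_proj_path_le (V : ℕ → Submodule ℝ E) {i j : ℕ} (hij : i ≤ j) :
    ‖(V j).starProjection - (V i).starProjection‖
      ≤ ∑ s ∈ Finset.Ico i j, ‖(V (s + 1)).starProjection - (V s).starProjection‖ := by
  induction j, hij using Nat.le_induction with
  | base => simp
  | succ j hij ih =>
    rw [Finset.sum_Ico_succ_top hij]
    calc ‖(V (j + 1)).starProjection - (V i).starProjection‖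
        = ‖((V j).starProjection - (V i).starProjection)
          + ((V (j + 1)).starProjection - (V j).starProjection)‖ := by congr 1; abel
      _ ≤ _ := (norm_add_le _ _).trans (by linarith)

/-- a slow interval of the doubled sequence gives a slow interval of the sequence. -/
lemma SlowEx.half {v : ℕ → E} {N : ℝ} {k p q : ℕ} (h : SlowEx (dbl v) N k p q) :
    SlowEx v N k (p / 2) (q / 2) := by
  obtain ⟨V, hV, hs⟩ := h
  have hT0 : ∀ s, 0 ≤ ‖(V s).starProjection (dbl v s)‖ +
      ‖(V (s + 1)).starProjection - (V s).starProjection‖ := fun s => by positivity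
  -- index used at time `t`
  set i : ℕ → ℕ := fun t => min (2 * t + 1) q with hi
  refine ⟨fun t => V (i t), fun t => hV _, ?_⟩
  rcases Nat.lt_or_ge (q / 2) (p / 2) with hpq | hpq
  · rw [Finset.Ico_eq_empty (by omega), Finset.sum_empty]
    refine le_trans ?_ hs
    exact Finset.sum_nonneg fun s _ => hT0 s
  have key : ∀ m, p / 2 ≤ m → m ≤ q / 2 →
      ∑ t ∈ Finset.Ico (p / 2) m, (‖(V (i t)).starProjection (v t)‖ +
        ‖(V (i (t + 1))).starProjection - (V (i t)).starProjection‖)
      ≤ ∑ s ∈ Finset.Ico p (i m), (‖(V s).starProjection (dbl v s)‖ +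
        ‖(V (s + 1)).starProjection - (V s).starProjection‖) := by
    intro m hm
    induction m, hm using Nat.le_induction with
    | base =>
      intro _
      rw [Finset.Ico_self, Finset.sum_empty]
      exact Finset.sum_nonneg fun s _ => hT0 s
    | succ m hm ih =>
      intro hmq
      have him : i m = 2 * m + 1 := by simp only [hi]; omega
      have hlt : 2 * m + 1 < i (m + 1) := by simp only [hi]; omega
      have hpm : p ≤ 2 * m + 1 := by omega
      rw [Finset.sum_Ico_succ_top hm, ← Finset.sum_Ico_consecutive _ hpm hlt.le]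
      have h1 := ih (by omega)
      rw [him] at h1 ⊢
      have h2 := norm_proj_path_le V hlt.le
      have h3 : ‖(V (2 * m + 1)).starProjection (v m)‖
          + ∑ s ∈ Finset.Ico (2 * m + 1) (i (m + 1)),
            ‖(V (s + 1)).starProjection - (V s).starProjection‖
          ≤ ∑ s ∈ Finset.Ico (2 * m + 1) (i (m + 1)), (‖(V s).starProjection (dbl v s)‖ +
            ‖(V (s + 1)).starProjection - (V s).starProjection‖) := by
        rw [Finset.sum_add_distrib]
        have h4 : ‖(V (2 * m + 1)).starProjection (v m)‖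
            ≤ ∑ s ∈ Finset.Ico (2 * m + 1) (i (m + 1)), ‖(V s).starProjection (dbl v s)‖ := by
          have h5 := Finset.single_le_sum (f := fun s => ‖(V s).starProjection (dbl v s)‖)
            (fun s _ => norm_nonneg _) (Finset.left_mem_Ico.2 hlt)
          rwa [dbl_odd] at h5
        linarith
      linarith
  refine (key (q / 2) hpq le_rfl).trans ?_
  have hiq : i (q / 2) = q := by simp only [hi]; omega
  rw [hiq]; exact hs

lemma Slow.half {v : ℕ → E} {N : ℝ} {k p q : ℕ} (h : Slow (dbl v) N k p q) :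
    Slow v N k (p / 2) (q / 2) := by
  obtain ⟨j, hj, h⟩ := h
  exact ⟨j, hj, h.half⟩

lemma not_slow_double {v : ℕ → E} {N : ℝ} {k a b : ℕ} (h : ¬ Slow v N k a b) :
    ¬ Slow (dbl v) N k (2 * a) (2 * b) := fun h' => h (by
  have := h'.half
  rwa [Nat.mul_div_cancel_left _ (by norm_num), Nat.mul_div_cancel_left _ (by norm_num)] at this)

lemma HasCost.half {v : ℕ → E} {N ρ : ℝ} (hρ : 0 ≤ ρ) {p q : ℕ} {c : ℝ}
    (h : HasCost (Slow (dbl v) N) ρ p q c) :
    ∃ c' ≤ c, HasCost (Slow v N) ρ (p / 2) (q / 2) c' := by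
  induction h with
  | nil a => exact ⟨0, le_rfl, HasCost.nil _⟩
  | cons a b b' k c hab hS _ ih =>
    obtain ⟨c', hc', h'⟩ := ih
    rcases Nat.lt_or_ge (a / 2) (b / 2) with hlt | hge
    · exact ⟨ρ ^ k + c', by linarith, HasCost.cons _ _ _ k c' hlt hS.half h'⟩
    · have hab2 : a / 2 = b / 2 := by omega
      rw [hab2]
      exact ⟨c', by have : 0 ≤ ρ ^ k := by positivity
                    linarith, h'⟩

/-- the doubled sequence costs at least as much. -/
theorem cost_le_double {v : ℕ → E} {N ρ : ℝ} (hN : 0 ≤ N) (hρ : 0 ≤ ρ) {a b : ℕ} (hab : a ≤ b) :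
    Cost (Slow v N) ρ a b ≤ Cost (Slow (dbl v) N) ρ (2 * a) (2 * b) := by
  refine le_csInf ?_ fun c hc => ?_
  · exact cost_nonempty (S := Slow (dbl v) N) (k := finrank ℝ E - 1)
      (fun t => slow_step (dbl v) hN t) (by omega)
  · obtain ⟨c', hc', h'⟩ := HasCost.half hρ hc
    rw [Nat.mul_div_cancel_left _ (by norm_num), Nat.mul_div_cancel_left _ (by norm_num)] at h'
    exact (cost_le hρ h').trans hc'

end Vale.Agent.P262.H274
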