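import Vale.Agent.P262.H274.D9
import Vale.Agent.P262.H274.D8

/-!
# P262, scheme S1: doubling adapter, fields

`e t` the fields, `eh t` the intermediate field at which the flux of step `t` is taken.
-/

namespace Vale.Agent.P262.H274

open Set Metric RealInnerProductSpace Module Filter Topology MeasureTheory ProbabilityTheory
open Vale.Agent.P262.H941 (Adm FluxLe mom)
open Vale.Agent.P262.H847 (UI)

variable {E : Type*} [NormedAddCommGroup E] [InnerProductSpace ℝ E] [FiniteDimensional ℝ E]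
  [MeasurableSpace E] [BorelSpace E]

/-- gain density with intermediate fields. -/
noncomputable def gh (e eh : ℕ → E → ℝ) (F : ℕ → ℝ) (t : ℕ) : ℝ :=
  F t + (∫ x, |eh t x - e t x| ∂(stdGaussian E) + ∫ x, |e (t + 1) x - eh t x| ∂(stdGaussian E))

lemma fluxLe_zero {e : E → ℝ} : FluxLe e (0 : E) 0 := by
  intro ε hε
  refine Filter.Eventually.frequently ?_
  filter_upwards [self_mem_nhdsWithin] with t ht
  have ht' : (0 : ℝ) < t := ht
  simp only [smul_zero, add_zero, sub_self, abs_zero, integral_zero, zero_add]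
  positivity

lemma fluxLe_dbl {eh e : ℕ → E → ℝ} {v : ℕ → E} {F : ℕ → ℝ} {a b : ℕ}
    (hF : ∀ t, a ≤ t → t < b → FluxLe (eh t) (v t) (F t)) :
    ∀ s, 2 * a ≤ s → s < 2 * b →
      FluxLe (mix e eh s) (dbl v s) (mix (fun _ => (0 : ℝ)) F s) := by
  intro s hs1 hs2
  rcases Nat.even_or_odd' s with ⟨t, rfl | rfl⟩
  · rw [mix_even, mix_even, dbl_even]; exact fluxLe_zero
  · rw [mix_odd, mix_odd, dbl_odd]; exact hF t (by omega) (by omega)

lemma mix_UI {e eh : ℕ → E → ℝ} (he : ∀ t, UI (e t)) (heh : ∀ t, UI (eh t)) (s : ℕ) :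
    UI (mix e eh s) := by
  unfold mix; split_ifs
  · exact heh _
  · exact he _

/-- the gain of the doubled sequence. -/
theorem gam_mix {e eh : ℕ → E → ℝ} {F : ℕ → ℝ} {a b : ℕ} (hab : a ≤ b) :
    Gam (gn (mix e eh) (mix (fun _ => (0 : ℝ)) F)) (2 * a) (2 * b) = Gam (gh e eh F) a b := by
  unfold Gam
  rw [sum_Ico_double _ hab]
  refine Finset.sum_congr rfl fun t _ => ?_
  unfold gn gh
  rw [show 2 * t + 1 + 1 = 2 * (t + 1) by ring]
  simp only [mix_even, mix_odd]
  ring

/-- **Adapter.** Any lower bound `κ' · Cost ≤ Gam` for the doubled sequence gives the same bound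
with intermediate fields. -/
theorem adapter {e eh : ℕ → E → ℝ} {F : ℕ → ℝ} {v : ℕ → E} {N ρ c : ℝ} {a b : ℕ} (hab : a ≤ b)
    (hN : 0 ≤ N) (hρ : 0 ≤ ρ) (hc : 0 ≤ c)
    (h : c * Cost (Slow (dbl v) N) ρ (2 * a) (2 * b)
      ≤ Gam (gn (mix e eh) (mix (fun _ => (0 : ℝ)) F)) (2 * a) (2 * b)) :
    c * Cost (Slow v N) ρ a b ≤ Gam (gh e eh F) a b := by
  rw [gam_mix hab] at h
  exact (mul_le_mul_of_nonneg_left (cost_le_double hN hρ hab) hc).trans h

end Vale.Agent.P262.H274
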