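import Vale.Agent.P262.H941.GainCost2

/-!
# P262, milestone 1: lossy gain lemma, one scale

If `K` is convex, `D = γ(Kᶜ) ≤ 7/8`, and `f` is a visible part of `1_{Kᶜ}` with small hidden part,
then at one of the first `n₀` dyadic scales (`2^{n₀} ≥ 10⁵ dim E`) the first moments of `f` are of
size `≥ LL D / (10⁴ n₀)`.
-/

set_option linter.unusedSectionVars false

namespace Vale.Agent.P262.H274

open MeasureTheory ProbabilityTheory Set Filter Topology Module
open scoped RealInnerProductSpace
open Vale.Agent.P262.H847 Vale.Agent.P262.H912 Vale.Agent.P262.H941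

variable {E : Type*} [NormedAddCommGroup E] [InnerProductSpace ℝ E] [FiniteDimensional ℝ E]
  [MeasurableSpace E] [BorelSpace E]

lemma geom_tail (n0 : ℕ) (C : ℝ) (hC : 0 ≤ C) (n : ℕ) :
    ∑ j ∈ Finset.range n, (if j + 1 ≤ n0 then (0 : ℝ) else C * (1 / 2) ^ (j + 1))
      ≤ C * (1 / 2) ^ n0 := by
  have key : ∀ n, ∑ j ∈ Finset.range n, (if j + 1 ≤ n0 then (0 : ℝ) else C * (1 / 2) ^ (j + 1))
      ≤ C * (1 / 2) ^ n0 - C * (1 / 2) ^ (max n n0) := by
    intro n
    induction n with
    | zero => simp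
    | succ n ih =>
      rw [Finset.sum_range_succ]
      split_ifs with h
      · have h1 : max (n + 1) n0 = n0 := max_eq_right h
        have h2 : max n n0 = n0 := max_eq_right (by omega)
        rw [h1]; rw [h2] at ih; linarith
      · have h1 : max (n + 1) n0 = n + 1 := max_eq_left (by omega)
        have h2 : max n n0 = n := max_eq_left (by omega)
        rw [h1]; rw [h2] at ih
        have : (1 / 2 : ℝ) ^ n = 2 * (1 / 2) ^ (n + 1) := by rw [pow_succ]; ring
        rw [this] at ih
        linarith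
  have := key n
  have h0 : 0 ≤ C * (1 / 2 : ℝ) ^ (max n n0) := by positivity
  linarith

/-- **One scale lemma.** -/
theorem one_scale {f h : E → ℝ} (hf : UI f) (hh : UI h) {K : Set E} (hK : Convex ℝ K)
    (hKm : MeasurableSet K) (hfh : ∀ x, f x + h x = Kᶜ.indicator (fun _ => (1:ℝ)) x)
    (hD0 : 0 < (stdGaussian E).real Kᶜ) (hD1 : (stdGaussian E).real Kᶜ ≤ 7 / 8)
    (hhid : ∫ x, h x ∂(stdGaussian E) ≤ 1 / 10 ^ 10 * (stdGaussian E).real Kᶜ)
    {n0 : ℕ} (hn0 : 1 ≤ n0) (hm : 10 ^ 5 * (finrank ℝ E : ℝ) ≤ 2 ^ n0) :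
    ∃ j, 1 ≤ j ∧ j ≤ n0 ∧ 1 / 10 ^ 4 / n0 * LL ((stdGaussian E).real Kᶜ)
      < lev (fun p => ‖mom f (sc j) p‖) (sc j) := by
  by_contra hcon
  push Not at hcon
  set D := (stdGaussian E).real Kᶜ with hD
  have hD1' : D ≤ 1 := by linarith
  have hLL0 : 0 < LL D := LL_pos hD0 hD1'
  set W : ℕ → Submodule ℝ E := fun j => if j ≤ n0 then ⊥ else ⊤ with hW
  have hsc : ∀ j, sc j = (1 / 2 : ℝ) ^ j := fun j => rfl
  have hn0' : (1 : ℝ) ≤ n0 := by exact_mod_cast hn0
  have hsum : ∀ n, ∑ j ∈ Finset.range n,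
      (lev (fun p => ‖(ContinuousLinearMap.id ℝ E - (W (j + 1)).starProjection)
          (mom f (sc (j + 1)) p)‖) (sc (j + 1))
        + 2 * lev (fun p => ‖(W (j + 1)).starProjection
          (mom (fun x => f x + h x) (sc (j + 1)) p)‖) (sc (j + 1)))
      ≤ 6 / 10 ^ 4 * LL D := by
    intro n
    have hterm : ∀ j, (lev (fun p => ‖(ContinuousLinearMap.id ℝ E - (W (j + 1)).starProjection)
          (mom f (sc (j + 1)) p)‖) (sc (j + 1))
        + 2 * lev (fun p => ‖(W (j + 1)).starProjection
          (mom (fun x => f x + h x) (sc (j + 1)) p)‖) (sc (j + 1)))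
        ≤ (if j < n0 then 1 / 10 ^ 4 / n0 * LL D else 0)
          + (if j + 1 ≤ n0 then (0 : ℝ) else (8 * finrank ℝ E * LL D) * (1 / 2) ^ (j + 1)) := by
      intro j
      by_cases hj : j + 1 ≤ n0
      · have hWj : W (j + 1) = ⊥ := by simp only [hW]; rw [if_pos hj]
        rw [hWj, if_pos (by omega : j < n0), if_pos hj, add_zero]
        have e1 : lev (fun p => ‖(⊥ : Submodule ℝ E).starProjection
            (mom (fun x => f x + h x) (sc (j + 1)) p)‖) (sc (j + 1)) = 0 := by
          unfold lev; simp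
        have e2 : lev (fun p => ‖(ContinuousLinearMap.id ℝ E - (⊥ : Submodule ℝ E).starProjection)
            (mom f (sc (j + 1)) p)‖) (sc (j + 1))
            = lev (fun p => ‖mom f (sc (j + 1)) p‖) (sc (j + 1)) := by
          unfold lev; simp
        rw [e1, e2, mul_zero, add_zero]
        exact hcon (j + 1) (by omega) hj
      · have hWj : W (j + 1) = ⊤ := by simp only [hW]; rw [if_neg hj]
        rw [hWj, if_neg (by omega : ¬ j < n0), if_neg hj, zero_add]
        have e1 : lev (fun p => ‖(ContinuousLinearMap.id ℝ E - (⊤ : Submodule ℝ E).starProjection)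
            (mom f (sc (j + 1)) p)‖) (sc (j + 1)) = 0 := by
          unfold lev; simp [Submodule.starProjection_top]
        rw [e1, zero_add]
        have e : (fun x => f x + h x) = Kᶜ.indicator (fun _ => (1:ℝ)) := funext hfh
        rw [e]
        have h2 := lev_few hK hKm (⊤ : Submodule ℝ E) (sc_pos (j + 1)) (sc_le_one (j + 1))
        rw [finrank_top] at h2
        have h7 : Ip (D / 2) ≤ 2 * LL D := Ip_le_LL' (by linarith) (by linarith) hD1'
        have h8 : 0 < sc (j + 1) := sc_pos _
        have h9 : (finrank ℝ E : ℝ) * (2 * sc (j + 1) * Ip (D / 2))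
            ≤ finrank ℝ E * (2 * sc (j + 1) * (2 * LL D)) := by gcongr
        rw [hsc] at h9 h2 ⊢
        linarith
    refine (Finset.sum_le_sum fun j _ => hterm j).trans ?_
    rw [Finset.sum_add_distrib]
    have h1 : ∑ j ∈ Finset.range n, (if j < n0 then 1 / 10 ^ 4 / (n0 : ℝ) * LL D else 0)
        ≤ 1 / 10 ^ 4 * LL D := by
      rw [← Finset.sum_filter, Finset.sum_const, nsmul_eq_mul]
      have hcard : (((Finset.range n).filter (fun j => j < n0)).card : ℝ) ≤ n0 := by
        have : ((Finset.range n).filter (fun j => j < n0)).card ≤ (Finset.range n0).card :=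
          Finset.card_le_card fun j hj => by
            rw [Finset.mem_filter] at hj; exact Finset.mem_range.2 hj.2
        rw [Finset.card_range] at this
        exact_mod_cast this
      calc _ ≤ (n0 : ℝ) * (1 / 10 ^ 4 / n0 * LL D) :=
            mul_le_mul_of_nonneg_right hcard (by positivity)
        _ = 1 / 10 ^ 4 * LL D := by field_simp
    have h2 := geom_tail n0 (8 * finrank ℝ E * LL D) (by positivity) n
    have h3 : 8 * (finrank ℝ E : ℝ) * LL D * (1 / 2) ^ n0 ≤ 1 / 10 ^ 4 * LL D := by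
      have h4 : (2 : ℝ) ^ n0 * (1 / 2) ^ n0 = 1 := by rw [← mul_pow]; norm_num
      have h5 : 0 < (1 / 2 : ℝ) ^ n0 := by positivity
      have h6 : 10 ^ 5 * (finrank ℝ E : ℝ) * (1 / 2) ^ n0 ≤ 1 := by
        have := mul_le_mul_of_nonneg_right hm h5.le
        rwa [h4] at this
      have h7 : 8 * (finrank ℝ E : ℝ) * LL D * (1 / 2) ^ n0
          = (8 / 10 ^ 5) * (10 ^ 5 * (finrank ℝ E : ℝ) * (1 / 2) ^ n0) * LL D := by ring
      rw [h7]
      have h8 : (8 / 10 ^ 5 : ℝ) * (10 ^ 5 * (finrank ℝ E : ℝ) * (1 / 2) ^ n0)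
          ≤ (8 / 10 ^ 5) * 1 := mul_le_mul_of_nonneg_left h6 (by norm_num)
      refine mul_le_mul_of_nonneg_right (h8.trans (by norm_num)) hLL0.le
    linarith
  have hfh1 : ∀ x, f x + h x ≤ 1 := by
    intro x; rw [hfh]
    exact indicator_le_self' (fun _ _ => zero_le_one) x |>.trans le_rfl
  have hvis := vis_multiscale hf hh hfh1
    (fun j => ContinuousLinearMap.id ℝ E - (W j).starProjection) (fun j => (W j).starProjection)
    (fun j x => by simp) (fun j x => by
      have h1 : (ContinuousLinearMap.id ℝ E - (W j).starProjection) x = (W j)ᗮ.starProjection x := by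
        rw [Submodule.starProjection_orthogonal]
      rw [h1]
      exact Submodule.norm_starProjection_apply_le _ _)
    (fun j x => Submodule.norm_starProjection_apply_le _ _) hsum
  -- masses
  set I := ∫ x, f x ∂(stdGaussian E) with hI
  set H := ∫ x, h x ∂(stdGaussian E) with hH
  have hIH : I + H = D := by
    rw [hI, hH, ← integral_add (hf.integrable _) (hh.integrable _)]
    have : (fun x => f x + h x) = Kᶜ.indicator (fun _ => (1:ℝ)) := funext hfh
    rw [this, integral_indicator_const _ hKm.compl]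
    simp [hD]
  have hH0 : 0 ≤ H := integral_nonneg fun x => hh.nonneg x
  have hIpH : Ip H ≤ 2 / 10 ^ 5 * LL D := by
    have h1 : Ip H ≤ 2 * LL (1 / 10 ^ 10 * D) := Ip_le_LL' hH0 hhid (by linarith)
    have h2 : LL (1 / 10 ^ 10 * D) ≤ LL (1 / 10 ^ 10) * LL D :=
      LL_mul_le (by norm_num) (by norm_num) hD0 hD1'
    have h3 : LL (1 / 10 ^ 10) ≤ 1 / 10 ^ 5 := by
      refine (LL_le_sqrt (by norm_num)).trans ?_
      rw [Real.sqrt_le_left (by norm_num)]; norm_num
    have h4 : LL (1 / 10 ^ 10) * LL D ≤ 1 / 10 ^ 5 * LL D := mul_le_mul_of_nonneg_right h3 hLL0.le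
    linarith
  have hIpf : ∫ x, Ip (f x) ∂(stdGaussian E) ≤ Ip H := by
    have h1 : ∀ x, Ip (f x) = Ip (h x) := by
      intro x
      by_cases hx : x ∈ Kᶜ
      · have h2 := hfh x
        rw [indicator_of_mem hx] at h2
        rw [← Ip_symm, ← h2]; congr 1; ring
      · have h2 := hfh x
        rw [indicator_of_notMem hx] at h2
        have h3 := hf.nonneg x
        have h4 := hh.nonneg x
        rw [show f x = 0 by linarith, show h x = 0 by linarith]
    simp only [h1]
    exact Ip_jensen hh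
  have hIpI : LL D ≤ 96 * Ip I := by
    have h1 : LL I ≤ 48 * Ip I := LL_le_Ip (by linarith) (by linarith)
    have h2 : 1 / 2 * LL D ≤ LL (1 / 2 * D) := mul_LL_le (by norm_num) (by norm_num) hD0 hD1'
    have h3 : LL (1 / 2 * D) ≤ LL I := LL_mono (by linarith) (by linarith) (by linarith)
    linarith
  linarith

end Vale.Agent.P262.H274
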