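import Vale.Agent.P262.H274.G1
import Vale.Agent.P262.H274.D9b

/-!
# P262, milestone 1: lossy gain lemma

`[a,b)` not `1`-slow implies `Gam ≥ N · LL D / (C log dim)`, healthy labels, visible fields.
Only the field and the body at the end time `b` enter (besides the fluxes).
-/

set_option linter.unusedSectionVars false

namespace Vale.Agent.P262.H274

open MeasureTheory ProbabilityTheory Set Filter Topology Module
open scoped RealInnerProductSpace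
open Vale.Agent.P262.H847 Vale.Agent.P262.H912 Vale.Agent.P262.H941

variable {E : Type*} [NormedAddCommGroup E] [InnerProductSpace ℝ E] [FiniteDimensional ℝ E]
  [MeasurableSpace E] [BorelSpace E]

/-- the cubic term. -/
lemma lossy_num {N D I : ℝ} (hN : 0 < N) (hD0 : 0 < D) (hD1 : D ≤ 1) (hI0 : 0 ≤ I) (hI : I ≤ D) :
    (N ^ 3 * (8 * (√2 * √(1 - Real.log D)) ^ 3 * I
      + 96 * Real.exp (-((√2 * √(1 - Real.log D)) ^ 2 / 2))))
      ≤ 120 * (N * √(1 - Real.log D)) ^ 2 * (N * LL D) := by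
  set ℓ := √(1 - Real.log D) with hℓ
  have hℓ1 : 1 ≤ ℓ := one_le_sqrt_ell hD0 hD1
  have hℓ2 : ℓ ^ 2 = 1 - Real.log D := Real.sq_sqrt (by linarith [one_le_ell hD0 hD1])
  have hLL : LL D = D * ℓ := rfl
  set T := √2 * ℓ with hT
  have hs2 : √(2:ℝ) ^ 2 = 2 := Real.sq_sqrt (by norm_num)
  have hs2u : √(2:ℝ) ≤ 3 / 2 := by
    rw [Real.sqrt_le_left (by norm_num)]; norm_num
  have hT2 : T ^ 2 / 2 = ℓ ^ 2 := by rw [hT, mul_pow, hs2]; ring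
  have hexpT : Real.exp (-(T ^ 2 / 2)) ≤ D := by
    rw [hT2, hℓ2]
    have : Real.exp (-(1 - Real.log D)) ≤ Real.exp (Real.log D) := Real.exp_le_exp.mpr (by linarith)
    rwa [Real.exp_log hD0] at this
  have hT0 : 0 ≤ T := by positivity
  have hT3 : T ^ 3 ≤ 3 * ℓ ^ 3 := by
    have e0 : T ^ 3 = (√2 ^ 2) * √2 * ℓ ^ 3 := by rw [hT]; ring
    rw [e0, hs2]
    have : 0 ≤ ℓ ^ 3 := by positivity
    exact mul_le_mul_of_nonneg_right (by linarith) this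
  have hℓ3 : 1 ≤ ℓ ^ 3 := one_le_pow₀ hℓ1
  have h2 : 8 * T ^ 3 * I + 96 * Real.exp (-(T ^ 2 / 2)) ≤ 120 * (ℓ ^ 3 * D) := by
    have a1 : 8 * T ^ 3 * I ≤ 8 * (3 * ℓ ^ 3) * D :=
      mul_le_mul (by linarith) hI hI0 (by positivity)
    have a2 : 96 * Real.exp (-(T ^ 2 / 2)) ≤ 96 * (ℓ ^ 3 * D) := by
      have : 1 * D ≤ ℓ ^ 3 * D := mul_le_mul_of_nonneg_right hℓ3 hD0.le
      linarith
    linarith
  calc N ^ 3 * (8 * T ^ 3 * I + 96 * Real.exp (-(T ^ 2 / 2)))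
      ≤ N ^ 3 * (120 * (ℓ ^ 3 * D)) := mul_le_mul_of_nonneg_left h2 (by positivity)
    _ = 120 * (N * ℓ) ^ 2 * (N * LL D) := by rw [hLL]; ring

/-- **Lossy gain lemma**, abstract form: `B s` bounds the total flux at scale `s`. -/
theorem gain_lossy_abs {v : ℕ → E} {N : ℝ} (hN0 : 0 < N) (hN1 : N ≤ 1) {a b : ℕ} (hab : a ≤ b)
    (hS : ¬ Slow v N 1 a b) {f h : E → ℝ} (hf : UI f) (hh : UI h) {K : Set E} (hK : Convex ℝ K)
    (hKm : MeasurableSet K) (hfh : ∀ x, f x + h x = Kᶜ.indicator (fun _ => (1:ℝ)) x)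
    (hD0 : 0 < (stdGaussian E).real Kᶜ) (hD1 : (stdGaussian E).real Kᶜ ≤ 7 / 8)
    (hhid : ∫ x, h x ∂(stdGaussian E) ≤ 1 / 10 ^ 10 * (stdGaussian E).real Kᶜ)
    {n0 : ℕ} (hn0 : 1 ≤ n0) (hm : 10 ^ 5 * (finrank ℝ E : ℝ) ≤ 2 ^ n0)
    (hNc : (N * √(1 - Real.log ((stdGaussian E).real Kᶜ))) ^ 2 * (6 * 10 ^ 6 * n0) ≤ 1)
    {B : ℝ → ℝ}
    (hflux : ∀ s, 0 < s → s ≤ 1 → ∀ lam : ℝ,
      (∀ m : E, ∀ δ : ℝ, 0 < δ → ∃ κ, Adm (fun t => v (a + t)) (b - a) N κ ∧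
        lam * ‖m‖ ≤ ⟪∑ r ∈ Finset.range (b - a), κ r • v (a + r), m⟫ + δ) →
      ∀ ε T, 0 < ε → ε ≤ 1 → 1 ≤ T →
      ε * (lam * ∫ y, ‖mom f s (√(1 - s ^ 2) • y)‖ ∂(stdGaussian E))
        ≤ Real.exp (1 / 2) * B s + Real.exp (1 / 2) * (ε ^ 3 / 6 * (N ^ 3 *
          (8 * T ^ 3 * ∫ x, f x ∂(stdGaussian E) + 96 * Real.exp (-(T ^ 2 / 2)))))) :
    ∃ j, 1 ≤ j ∧ j ≤ n0 ∧
      1 / (3 * 10 ^ 5 * n0) * (N * LL ((stdGaussian E).real Kᶜ)) ≤ B (sc j) := by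
  obtain ⟨j, hj1, hj2, hj⟩ := one_scale hf hh hK hKm hfh hD0 hD1 hhid hn0 hm
  refine ⟨j, hj1, hj2, ?_⟩
  set D := (stdGaussian E).real Kᶜ with hD
  have hD1' : D ≤ 1 := by linarith
  have hLL0 : 0 < LL D := LL_pos hD0 hD1'
  have hn0' : (1 : ℝ) ≤ n0 := by exact_mod_cast hn0
  obtain ⟨V, hV1, hV2⟩ := pivot_adm v hN0 hN1 le_rfl hab (fun hs => hS ⟨1, le_rfl, hs⟩)
  have hV0 : V = ⊥ := Submodule.finrank_eq_zero.1 (by omega)
  have hadm : ∀ m : E, ∀ δ : ℝ, 0 < δ → ∃ κ, Adm (fun t => v (a + t)) (b - a) N κ ∧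
        N / 9 * ‖m‖ ≤ ⟪∑ r ∈ Finset.range (b - a), κ r • v (a + r), m⟫ + δ := by
    intro m δ hδ
    obtain ⟨κ, h1, h2⟩ := hV2 m δ hδ
    refine ⟨κ, h1, ?_⟩
    rw [hV0] at h2
    simpa using h2
  have hℓ1 := one_le_sqrt_ell hD0 hD1'
  have hT1 : 1 ≤ √2 * √(1 - Real.log D) := by
    have h1 : (1:ℝ) ≤ √2 := by rw [Real.one_le_sqrt]; norm_num
    nlinarith
  have h1 := hflux (sc j) (sc_pos j) (sc_le_one j) (N / 9) hadm 1 (√2 * √(1 - Real.log D))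
    one_pos le_rfl hT1
  have hI0 : 0 ≤ ∫ x, f x ∂(stdGaussian E) := integral_nonneg fun x => hf.nonneg x
  have hI : ∫ x, f x ∂(stdGaussian E) ≤ D := by
    have : ∫ x, f x ∂(stdGaussian E) + ∫ x, h x ∂(stdGaussian E) = D := by
      rw [← integral_add (hf.integrable _) (hh.integrable _)]
      have : (fun x => f x + h x) = Kᶜ.indicator (fun _ => (1:ℝ)) := funext hfh
      rw [this, integral_indicator_const _ hKm.compl]
      simp [hD]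
    have hH0 : 0 ≤ ∫ x, h x ∂(stdGaussian E) := integral_nonneg fun x => hh.nonneg x
    linarith
  have h2 := lossy_num hN0 hD0 hD1' hI0 hI
  have h3 : 1 / 10 ^ 4 / n0 * LL D < ∫ y, ‖mom f (sc j) (√(1 - (sc j) ^ 2) • y)‖ ∂(stdGaussian E) :=
    hj
  set A := ∫ y, ‖mom f (sc j) (√(1 - (sc j) ^ 2) • y)‖ ∂(stdGaussian E) with hA
  set S := N ^ 3 * (8 * (√2 * √(1 - Real.log D)) ^ 3 * ∫ x, f x ∂(stdGaussian E)
      + 96 * Real.exp (-((√2 * √(1 - Real.log D)) ^ 2 / 2))) with hS'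
  set q := (N * √(1 - Real.log D)) ^ 2 with hq
  have hNL : 0 < N * LL D := by positivity
  have hexp := exp_half_le
  have hexp0 := Real.exp_pos (1 / 2 : ℝ)
  have h4 : N / 9 * (1 / 10 ^ 4 / n0 * LL D) ≤ N / 9 * A :=
    mul_le_mul_of_nonneg_left h3.le (by positivity)
  have h5 : S ≤ 120 * q * (N * LL D) := h2
  have hS0 : 0 ≤ S := by positivity
  have h6 : Real.exp (1 / 2) * (1 ^ 3 / 6 * S) ≤ 33 * q * (N * LL D) := by
    calc Real.exp (1 / 2) * (1 ^ 3 / 6 * S) ≤ 33 / 20 * (1 ^ 3 / 6 * S) :=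
          mul_le_mul_of_nonneg_right hexp (by positivity)
      _ ≤ 33 / 20 * (1 ^ 3 / 6 * (120 * q * (N * LL D))) := by gcongr
      _ = _ := by ring
  have h7 : q * n0 ≤ 1 / (6 * 10 ^ 6) := by
    rw [le_div_iff₀ (by positivity)]; linarith
  have h8 : 33 * q * (N * LL D) ≤ 1 / (18 * 10 ^ 4 * n0) * (N * LL D) := by
    apply mul_le_mul_of_nonneg_right _ hNL.le
    rw [le_div_iff₀ (by positivity)]
    nlinarith
  have h9 : N / 9 * (1 / 10 ^ 4 / n0 * LL D) = 2 * (1 / (18 * 10 ^ 4 * n0) * (N * LL D)) := by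
    field_simp; ring
  have h10 : 1 / (18 * 10 ^ 4 * n0) * (N * LL D) ≤ Real.exp (1 / 2) * B (sc j) := by
    linarith
  have hB0 : 0 < B (sc j) := by
    by_contra hneg
    rw [not_lt] at hneg
    have : Real.exp (1 / 2) * B (sc j) ≤ 0 := mul_nonpos_of_nonneg_of_nonpos hexp0.le hneg
    have h11 : 0 < 1 / (18 * 10 ^ 4 * (n0:ℝ)) * (N * LL D) := by positivity
    linarith
  have h12 : Real.exp (1 / 2) * B (sc j) ≤ 33 / 20 * B (sc j) :=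
    mul_le_mul_of_nonneg_right hexp hB0.le
  have h13 : 1 / (3 * 10 ^ 5 * n0) * (N * LL D) = 20 / 33 * ((33 / 20 * 18 * 10 ^ 4 / (3 * 10 ^ 5))
      * (1 / (18 * 10 ^ 4 * n0) * (N * LL D))) := by
    field_simp
  rw [h13]
  have h14 : 0 < 1 / (18 * 10 ^ 4 * (n0:ℝ)) * (N * LL D) := by positivity
  have h15 : (33 / 20 * 18 * 10 ^ 4 / (3 * 10 ^ 5) : ℝ) * (1 / (18 * 10 ^ 4 * n0) * (N * LL D))
      ≤ 1 / (18 * 10 ^ 4 * n0) * (N * LL D) := mul_le_of_le_one_left h14.le (by norm_num)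
  linarith

/-- **Lossy gain lemma**, fields with flux bounds `FluxLe`; `D` = mass at the end time `b`. -/
theorem gain_lossy {v : ℕ → E} {N : ℝ} (hN0 : 0 < N) (hN1 : N ≤ 1) {a b : ℕ} (hab : a ≤ b)
    (hS : ¬ Slow v N 1 a b) {f : ℕ → E → ℝ} (hf : ∀ t, UI (f t)) {F : ℕ → ℝ}
    (hF : ∀ t, a ≤ t → t < b → FluxLe (f t) (v t) (F t))
    {h : E → ℝ} (hh : UI h) {K : Set E} (hK : Convex ℝ K)
    (hKm : MeasurableSet K) (hfh : ∀ x, f b x + h x = Kᶜ.indicator (fun _ => (1:ℝ)) x)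
    (hD0 : 0 < (stdGaussian E).real Kᶜ) (hD1 : (stdGaussian E).real Kᶜ ≤ 7 / 8)
    (hhid : ∫ x, h x ∂(stdGaussian E) ≤ 1 / 10 ^ 10 * (stdGaussian E).real Kᶜ)
    {n0 : ℕ} (hn0 : 1 ≤ n0) (hm : 10 ^ 5 * (finrank ℝ E : ℝ) ≤ 2 ^ n0)
    (hNc : (N * √(1 - Real.log ((stdGaussian E).real Kᶜ))) ^ 2 * (6 * 10 ^ 6 * n0) ≤ 1) :
    1 / (3 * 10 ^ 5 * n0) * (N * LL ((stdGaussian E).real Kᶜ)) ≤ Gam (gn f F) a b := by
  obtain ⟨j, -, -, h1⟩ := gain_lossy_abs hN0 hN1 hab hS (hf b) hh hK hKm hfh hD0 hD1 hhid hn0 hm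
    hNc (B := fun _ => Gam (gn f F) a b) (by
      intro s hs hs1 lam hadm ε T hε hε1 hT
      have hcs : (√(1 - s ^ 2)) ^ 2 + s ^ 2 = 1 := by
        rw [Real.sq_sqrt (by nlinarith)]; ring
      have hlu : a + (b - a) = b := by omega
      have h2 := supp_bound (e := fun t => f (a + t)) (fun t => hf (a + t))
        (v := fun t => v (a + t)) (F := fun t => F (a + t)) hcs hs hs1 (b - a)
        (fun t ht => hF (a + t) (by omega) (by omega)) hN0.le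
        (P := ContinuousLinearMap.id ℝ E) (lam := lam) hadm hε hε1 hT
      have hsum : ∑ t ∈ Finset.range (b - a),
          (F (a + t) + ∫ x, |f (a + (t + 1)) x - f (a + t) x| ∂(stdGaussian E))
            = Gam (gn f F) a b := by
        unfold Gam gn
        rw [Finset.sum_Ico_eq_sum_range]
        rfl
      rw [hsum, hlu] at h2
      exact h2)
  exact h1

/-- **Lossy gain lemma with intermediate fields**: `fh t` is the field at which the flux of step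
`t` is taken. -/
theorem gain_lossy_hat {v : ℕ → E} {N : ℝ} (hN0 : 0 < N) (hN1 : N ≤ 1) {a b : ℕ} (hab : a ≤ b)
    (hS : ¬ Slow v N 1 a b) {f fh : ℕ → E → ℝ} (hf : ∀ t, UI (f t)) (hfh' : ∀ t, UI (fh t))
    {F : ℕ → ℝ} (hF : ∀ t, a ≤ t → t < b → FluxLe (fh t) (v t) (F t))
    {h : E → ℝ} (hh : UI h) {K : Set E} (hK : Convex ℝ K)
    (hKm : MeasurableSet K) (hfh : ∀ x, f b x + h x = Kᶜ.indicator (fun _ => (1:ℝ)) x)
    (hD0 : 0 < (stdGaussian E).real Kᶜ) (hD1 : (stdGaussian E).real Kᶜ ≤ 7 / 8)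
    (hhid : ∫ x, h x ∂(stdGaussian E) ≤ 1 / 10 ^ 10 * (stdGaussian E).real Kᶜ)
    {n0 : ℕ} (hn0 : 1 ≤ n0) (hm : 10 ^ 5 * (finrank ℝ E : ℝ) ≤ 2 ^ n0)
    (hNc : (N * √(1 - Real.log ((stdGaussian E).real Kᶜ))) ^ 2 * (6 * 10 ^ 6 * n0) ≤ 1) :
    1 / (3 * 10 ^ 5 * n0) * (N * LL ((stdGaussian E).real Kᶜ)) ≤ Gam (gh f fh F) a b := by
  rw [← gam_mix hab]
  refine gain_lossy hN0 hN1 (by omega) (not_slow_double hS) (mix_UI hf hfh') (fluxLe_dbl hF) hh hK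
    hKm (fun x => ?_) hD0 hD1 hhid hn0 hm hNc
  rw [mix_even]; exact hfh x

end Vale.Agent.P262.H274
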