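import Vale.Agent.P262.H274.D3

/-!
# P262, milestone 1: the gradient path

If `[a,b)` is not `1`-slow then every path of vectors `m t` has
`N ‖m b‖ ≤ 2 ∑ |⟪v t, m t⟫| + 4 ∑ ‖m (t+1) - m t‖` (follow the line spanned by `m t`).
-/

set_option linter.unusedSectionVars false

namespace Vale.Agent.P262.H274

open Set Filter Topology Module
open scoped RealInnerProductSpace

variable {E : Type*} [NormedAddCommGroup E] [InnerProductSpace ℝ E] [FiniteDimensional ℝ E]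

/-- projection to a line. -/
lemma norm_proj_line (m x : E) (hm : m ≠ 0) :
    ‖(ℝ ∙ m).starProjection x‖ = |⟪x, m⟫| / ‖m‖ := by
  have hm0 : 0 < ‖m‖ := norm_pos_iff.2 hm
  rw [Submodule.starProjection_singleton, norm_smul, Real.norm_eq_abs, abs_div,
    real_inner_comm]
  simp only [RCLike.ofReal_real_eq_id, id_eq]
  rw [abs_of_pos (by positivity : (0:ℝ) < ‖m‖ ^ 2)]
  field_simp

/-- two nearby lines. -/
lemma norm_line_sub (m m' : E) {r : ℝ} (hr : 0 < r) (hm : r ≤ ‖m‖) (hm' : r ≤ ‖m'‖) :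
    ‖(ℝ ∙ m').starProjection - (ℝ ∙ m).starProjection‖ ≤ 2 * (‖m' - m‖ / r) := by
  apply norm_sub_starProjection_le _ _ (by positivity)
  · intro y hy
    obtain ⟨c, rfl⟩ := Submodule.mem_span_singleton.1 hy
    refine ⟨c • m', Submodule.smul_mem _ _ (Submodule.mem_span_singleton_self m'), ?_⟩
    rw [← smul_sub, norm_smul, norm_smul, norm_sub_rev]
    have h1 : ‖m' - m‖ ≤ ‖m' - m‖ / r * ‖m‖ := by
      rw [div_mul_eq_mul_div, le_div_iff₀ hr]
      exact mul_le_mul_of_nonneg_left hm (norm_nonneg _)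
    calc ‖c‖ * ‖m' - m‖ ≤ ‖c‖ * (‖m' - m‖ / r * ‖m‖) :=
          mul_le_mul_of_nonneg_left h1 (norm_nonneg _)
      _ = _ := by ring
  · intro y hy
    obtain ⟨c, rfl⟩ := Submodule.mem_span_singleton.1 hy
    refine ⟨c • m, Submodule.smul_mem _ _ (Submodule.mem_span_singleton_self m), ?_⟩
    rw [← smul_sub, norm_smul, norm_smul]
    have h1 : ‖m' - m‖ ≤ ‖m' - m‖ / r * ‖m'‖ := by
      rw [div_mul_eq_mul_div, le_div_iff₀ hr]
      exact mul_le_mul_of_nonneg_left hm' (norm_nonneg _)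
    calc ‖c‖ * ‖m' - m‖ ≤ ‖c‖ * (‖m' - m‖ / r * ‖m'‖) :=
          mul_le_mul_of_nonneg_left h1 (norm_nonneg _)
      _ = _ := by ring

/-- **Gradient path.** -/
theorem grad_path {v : ℕ → E} {N : ℝ} (hN1 : N ≤ 1) {a b : ℕ} (hab : a ≤ b)
    (hS : ¬ Slow v N 1 a b) (m : ℕ → E) :
    N * ‖m b‖ ≤ 2 * ∑ t ∈ Finset.Ico a b, |⟪v t, m t⟫|
      + 4 * ∑ t ∈ Finset.Ico a b, ‖m (t + 1) - m t‖ := by
  by_contra hcon
  rw [not_le] at hcon
  set A := ∑ t ∈ Finset.Ico a b, |⟪v t, m t⟫| with hA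
  set B := ∑ t ∈ Finset.Ico a b, ‖m (t + 1) - m t‖ with hB
  have hA0 : 0 ≤ A := Finset.sum_nonneg fun _ _ => abs_nonneg _
  have hB0 : 0 ≤ B := Finset.sum_nonneg fun _ _ => norm_nonneg _
  set M := ‖m b‖ with hM
  have hM0' : 0 ≤ M := norm_nonneg _
  have hM0 : 0 < M := by
    rcases hM0'.eq_or_lt with h | h
    · rw [← h] at hcon; nlinarith
    · exact h
  have hNM : N * M ≤ M := mul_le_of_le_one_left hM0' hN1
  -- all vectors are long
  have hclose : ∀ t, a ≤ t → t ≤ b → ‖m b - m t‖ ≤ B := by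
    intro t hat htb
    have h1 : m b - m t = ∑ r ∈ Finset.Ico t b, (m (r + 1) - m r) :=
      (Finset.sum_Ico_sub m htb).symm
    rw [h1]
    refine (norm_sum_le _ _).trans ?_
    exact Finset.sum_le_sum_of_subset_of_nonneg (Finset.Ico_subset_Ico_left hat)
      fun _ _ _ => norm_nonneg _
  have hlong : ∀ t, a ≤ t → t ≤ b → 3 / 4 * M ≤ ‖m t‖ := by
    intro t hat htb
    have h1 := hclose t hat htb
    have h2 : M - ‖m t‖ ≤ ‖m b - m t‖ := norm_sub_norm_le _ _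
    linarith
  have hne : ∀ t, a ≤ t → t ≤ b → m t ≠ 0 := by
    intro t hat htb h
    have := hlong t hat htb
    rw [h, norm_zero] at this
    linarith
  obtain ⟨V, hV, hV1⟩ : ∃ V : ℕ → Submodule ℝ E,
      (∀ t, a ≤ t → t ≤ b → V t = ℝ ∙ (m t)) ∧ ∀ t, finrank ℝ (V t) = 1 := by
    refine ⟨fun t => ℝ ∙ (m (if a ≤ t ∧ t ≤ b then t else b)), fun t h1 h2 => ?_, fun t => ?_⟩
    · simp only [h1, h2, and_self, if_true]
    · apply finrank_span_singleton
      by_cases h : a ≤ t ∧ t ≤ b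
      · rw [if_pos h]; exact hne t h.1 h.2
      · rw [if_neg h]; exact hne b hab le_rfl
  apply hS
  refine ⟨1, le_rfl, V, hV1, ?_⟩
  have h1 : ∀ t ∈ Finset.Ico a b,
      (‖(V t).starProjection (v t)‖ + ‖(V (t + 1)).starProjection - (V t).starProjection‖)
      ≤ (2 * |⟪v t, m t⟫| + 4 * ‖m (t + 1) - m t‖) / M := by
    intro t ht
    rw [Finset.mem_Ico] at ht
    rw [hV t ht.1 ht.2.le, hV (t + 1) (by omega) (by omega)]
    have l1 := hlong t ht.1 ht.2.le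
    have l2 := hlong (t + 1) (by omega) (by omega)
    have h2 : ‖(ℝ ∙ (m t)).starProjection (v t)‖ ≤ 2 * |⟪v t, m t⟫| / M := by
      rw [norm_proj_line _ _ (hne t ht.1 ht.2.le), div_le_div_iff₀ (by linarith) hM0]
      have : 0 ≤ |⟪v t, m t⟫| := abs_nonneg _
      nlinarith
    have h3 := norm_line_sub (m t) (m (t + 1)) (r := 3 / 4 * M) (by positivity) l1 l2
    have h4 : 2 * (‖m (t + 1) - m t‖ / (3 / 4 * M)) ≤ 4 * ‖m (t + 1) - m t‖ / M := by
      have : 0 ≤ ‖m (t + 1) - m t‖ := norm_nonneg _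
      rw [show 2 * (‖m (t + 1) - m t‖ / (3 / 4 * M)) = (8 / 3 * ‖m (t + 1) - m t‖) / M by
        field_simp; ring]
      exact div_le_div_of_nonneg_right (by linarith) hM0.le
    rw [add_div]
    linarith
  refine (Finset.sum_le_sum h1).trans ?_
  rw [← Finset.sum_div, Finset.sum_add_distrib, ← Finset.mul_sum, ← Finset.mul_sum,
    div_le_iff₀ hM0]
  linarith

/-- **Gradient path with intermediate vectors** `mh t` (flux taken at `mh t`). -/
theorem grad_path_mid {v : ℕ → E} {N : ℝ} (hN1 : N ≤ 1) {a b : ℕ} (hab : a ≤ b)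
    (hv : ∀ t, a ≤ t → t < b → ‖v t‖ ≤ 1)
    (hS : ¬ Slow v N 1 a b) (m mh : ℕ → E) :
    N * ‖m b‖ ≤ 2 * ∑ t ∈ Finset.Ico a b, |⟪v t, mh t⟫|
      + 6 * ∑ t ∈ Finset.Ico a b, (‖mh t - m t‖ + ‖m (t + 1) - mh t‖) := by
  refine (grad_path hN1 hab hS m).trans ?_
  rw [Finset.mul_sum, Finset.mul_sum, Finset.mul_sum, Finset.mul_sum, ← Finset.sum_add_distrib,
    ← Finset.sum_add_distrib]
  refine Finset.sum_le_sum fun t ht => ?_
  rw [Finset.mem_Ico] at ht
  have h1 : |⟪v t, m t⟫| ≤ |⟪v t, mh t⟫| + ‖mh t - m t‖ := by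
    have e1 : ⟪v t, m t⟫ = ⟪v t, mh t⟫ - ⟪v t, mh t - m t⟫ := by
      rw [inner_sub_right]; ring
    rw [e1]
    refine (abs_sub _ _).trans ?_
    have h2 : |⟪v t, mh t - m t⟫| ≤ ‖mh t - m t‖ := by
      refine (abs_real_inner_le_norm _ _).trans ?_
      exact mul_le_of_le_one_left (norm_nonneg _) (hv t ht.1 ht.2)
    linarith
  have h3 : ‖m (t + 1) - m t‖ ≤ ‖m (t + 1) - mh t‖ + ‖mh t - m t‖ := norm_sub_le_norm_sub_add_norm_sub _ _ _
  have h4 := norm_nonneg (m (t + 1) - mh t)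
  linarith

end Vale.Agent.P262.H274
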