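import Vale.Agent.P262.H274.G3
import Vale.Agent.P262.H274.D9b
import Vale.Agent.P262.H174.Soft5

/-!
# P262, milestone 1: damped momentum

`dm f δ s p = ∫ f (p + s g) exp (-δ|g|²/2) g dγ(g)`. Its total change under a soft change of the
field is multiplicatively controlled (no tail terms), its component along `v` by the flux.
-/

set_option linter.unusedSectionVars false

namespace Vale.Agent.P262.H274

open MeasureTheory ProbabilityTheory Set Filter Topology Module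
open scoped RealInnerProductSpace
open Vale.Agent.P262.H847 Vale.Agent.P262.H912 Vale.Agent.P262.H941 Vale.Agent.P262.H174

variable {E : Type*} [NormedAddCommGroup E] [InnerProductSpace ℝ E] [FiniteDimensional ℝ E]
  [MeasurableSpace E] [BorelSpace E]

/-- the damping weight -/
noncomputable def dw (δ : ℝ) (g : E) : ℝ := Real.exp (-(δ * ‖g‖ ^ 2 / 2))

/-- the damped momentum -/
noncomputable def dm (f : E → ℝ) (δ s : ℝ) (p : E) : E :=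
  ∫ g, (f (p + s • g) * dw δ g) • g ∂(stdGaussian E)

lemma dw_pos (δ : ℝ) (g : E) : 0 < dw δ g := Real.exp_pos _

lemma dw_le_one {δ : ℝ} (hδ : 0 ≤ δ) (g : E) : dw δ g ≤ 1 := by
  unfold dw
  apply Real.exp_le_one_iff.mpr
  have : 0 ≤ δ * ‖g‖ ^ 2 / 2 := by positivity
  linarith

lemma measurable_dw (δ : ℝ) : Measurable (dw (E := E) δ) := by
  unfold dw
  fun_prop

/-- `x exp (-x²/2) ≤ 1`. -/
lemma exp_num1 (x : ℝ) : x * Real.exp (-(x ^ 2 / 2)) ≤ 1 := by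
  rw [Real.exp_neg, ← div_eq_mul_inv, div_le_one (Real.exp_pos _)]
  have h1 := Real.add_one_le_exp (x ^ 2 / 2)
  nlinarith [sq_nonneg (x - 1)]

/-- `x² exp (-x²/2) ≤ 1`. -/
lemma exp_num2 (x : ℝ) : x ^ 2 * Real.exp (-(x ^ 2 / 2)) ≤ 1 := by
  rw [Real.exp_neg, ← div_eq_mul_inv, div_le_one (Real.exp_pos _)]
  have h1 := Real.quadratic_le_exp_of_nonneg (x := x ^ 2 / 2) (by positivity)
  nlinarith [sq_nonneg (x ^ 2 - 2)]

lemma norm_mul_dw {δ : ℝ} (hδ : 0 ≤ δ) (g : E) : √δ * (‖g‖ * dw δ g) ≤ 1 := by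
  have h1 := exp_num1 (√δ * ‖g‖)
  rw [mul_pow, Real.sq_sqrt hδ] at h1
  unfold dw
  linarith

lemma hasDerivAt_dw (δ : ℝ) (g v : E) (τ : ℝ) :
    HasDerivAt (fun τ : ℝ => dw δ (g + τ • v)) (-(δ * ⟪g + τ • v, v⟫) * dw δ (g + τ • v)) τ := by
  have h0 : HasDerivAt (fun τ : ℝ => g + τ • v) v τ := by
    simpa using ((hasDerivAt_id τ).smul_const v).const_add g
  have h1 := h0.norm_sq
  have h2 := (((h1.const_mul δ).div_const 2).neg).exp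
  refine HasDerivAt.congr_deriv (f := fun τ : ℝ => dw δ (g + τ • v)) h2 ?_
  show Real.exp (-(δ * ‖g + τ • v‖ ^ 2 / 2)) * _ = _ * Real.exp (-(δ * ‖g + τ • v‖ ^ 2 / 2))
  ring

/-- derivative of the damped kernel along a line -/
lemma hasDerivAt_ker (δ : ℝ) (u g v : E) (τ : ℝ) :
    HasDerivAt (fun τ : ℝ => ⟪u, g + τ • v⟫ * dw δ (g + τ • v))
      ((⟪u, v⟫ - δ * ⟪u, g + τ • v⟫ * ⟪g + τ • v, v⟫) * dw δ (g + τ • v)) τ := by
  have h0 : HasDerivAt (fun τ : ℝ => g + τ • v) v τ := by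
    simpa using ((hasDerivAt_id τ).smul_const v).const_add g
  have h1 : HasDerivAt (fun τ : ℝ => ⟪u, g + τ • v⟫) ⟪u, v⟫ τ := by
    simpa using (hasDerivAt_const τ u).inner ℝ h0
  refine (h1.mul (hasDerivAt_dw δ g v τ)).congr_deriv ?_
  ring

lemma ker_deriv_le {δ : ℝ} (hδ : 0 ≤ δ) {u : E} (hu : ‖u‖ ≤ 1) (g v : E) :
    |(⟪u, v⟫ - δ * ⟪u, g⟫ * ⟪g, v⟫) * dw δ g| ≤ 2 * ‖v‖ := by
  have h1 : |⟪u, v⟫| ≤ ‖v‖ :=
    (abs_real_inner_le_norm _ _).trans (mul_le_of_le_one_left (norm_nonneg _) hu)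
  have h2 : |⟪u, g⟫| ≤ ‖g‖ :=
    (abs_real_inner_le_norm _ _).trans (mul_le_of_le_one_left (norm_nonneg _) hu)
  have h3 : |⟪g, v⟫| ≤ ‖g‖ * ‖v‖ := abs_real_inner_le_norm _ _
  have h4 : δ * ‖g‖ ^ 2 * dw δ g ≤ 1 := by
    have h1 := exp_num2 (√δ * ‖g‖)
    rw [mul_pow, Real.sq_sqrt hδ] at h1
    exact h1
  have hw := dw_pos δ g
  have hw1 := dw_le_one hδ g
  rw [abs_mul, abs_of_pos hw]
  have h5 : |⟪u, v⟫ - δ * ⟪u, g⟫ * ⟪g, v⟫| ≤ ‖v‖ + δ * ‖g‖ ^ 2 * ‖v‖ := by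
    refine (abs_sub _ _).trans (add_le_add h1 ?_)
    rw [abs_mul, abs_mul, abs_of_nonneg hδ]
    calc δ * |⟪u, g⟫| * |⟪g, v⟫| ≤ δ * ‖g‖ * (‖g‖ * ‖v‖) := by gcongr
      _ = _ := by ring
  calc |⟪u, v⟫ - δ * ⟪u, g⟫ * ⟪g, v⟫| * dw δ g ≤ (‖v‖ + δ * ‖g‖ ^ 2 * ‖v‖) * dw δ g :=
        mul_le_mul_of_nonneg_right h5 hw.le
    _ = ‖v‖ * dw δ g + (δ * ‖g‖ ^ 2 * dw δ g) * ‖v‖ := by ring
    _ ≤ ‖v‖ * 1 + 1 * ‖v‖ := by gcongr
    _ = _ := by ring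

lemma ker_lip {δ : ℝ} (hδ : 0 ≤ δ) {u : E} (hu : ‖u‖ ≤ 1) (g g' : E) :
    |⟪u, g⟫ * dw δ g - ⟪u, g'⟫ * dw δ g'| ≤ 2 * ‖g - g'‖ := by
  have h1 := Convex.norm_image_sub_le_of_norm_hasDerivWithin_le (𝕜 := ℝ)
    (f := fun τ : ℝ => ⟪u, g' + τ • (g - g')⟫ * dw δ (g' + τ • (g - g')))
    (f' := fun τ : ℝ => (⟪u, g - g'⟫ - δ * ⟪u, g' + τ • (g - g')⟫ * ⟪g' + τ • (g - g'), g - g'⟫)
      * dw δ (g' + τ • (g - g'))) (s := univ) (x := 0) (y := 1) (C := 2 * ‖g - g'‖)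
    (fun τ _ => (hasDerivAt_ker δ u g' (g - g') τ).hasDerivWithinAt)
    (fun τ _ => ker_deriv_le hδ hu _ _) convex_univ (mem_univ _) (mem_univ _)
  simpa using h1

/-- the damped kernel -/
lemma ker_damp {δ : ℝ} (hδ : 0 ≤ δ) (hδ1 : δ ≤ 1) {u : E → E} (hu : Measurable u)
    (hu1 : ∀ y, ‖u y‖ ≤ 1) : Ker (fun y g => √δ * (⟪u y, g⟫ * dw δ g)) 2 := by
  refine ⟨?_, fun y g => ?_, fun y g g' => ?_⟩
  · have h1 : Measurable (fun p : E × E => u p.1) := hu.comp measurable_fst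
    exact ((h1.inner measurable_snd).mul ((measurable_dw δ).comp measurable_snd)).const_mul _
  · have h2 : |⟪u y, g⟫| ≤ ‖g‖ :=
      (abs_real_inner_le_norm _ _).trans (mul_le_of_le_one_left (norm_nonneg _) (hu1 y))
    rw [abs_mul, abs_mul, abs_of_nonneg (Real.sqrt_nonneg δ), abs_of_pos (dw_pos δ g)]
    refine le_trans ?_ (norm_mul_dw hδ g)
    have := dw_pos δ g
    gcongr
  · rw [← mul_sub, abs_mul, abs_of_nonneg (Real.sqrt_nonneg δ)]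
    have h1 := ker_lip hδ (hu1 y) g g'
    have h2 : √δ ≤ 1 := Real.sqrt_le_one.mpr hδ1
    calc √δ * |⟪u y, g⟫ * dw δ g - ⟪u y, g'⟫ * dw δ g'| ≤ 1 * (2 * ‖g - g'‖) :=
          mul_le_mul h2 h1 (abs_nonneg _) zero_le_one
      _ = _ := one_mul _

end Vale.Agent.P262.H274
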