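import Vale.Agent.P262.H274.G4

/-!
# P262, milestone 1: the damped momentum under soft changes and along the flux
-/

set_option linter.unusedSectionVars false

namespace Vale.Agent.P262.H274

open MeasureTheory ProbabilityTheory Set Filter Topology Module
open scoped RealInnerProductSpace
open Vale.Agent.P262.H847 Vale.Agent.P262.H912 Vale.Agent.P262.H941 Vale.Agent.P262.H174

variable {E : Type*} [NormedAddCommGroup E] [InnerProductSpace ℝ E] [FiniteDimensional ℝ E]
  [MeasurableSpace E] [BorelSpace E]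

lemma integrable_dm {f : E → ℝ} (hf : UI f) {δ : ℝ} (hδ : 0 ≤ δ) (s : ℝ) (p : E) :
    Integrable (fun g : E => (f (p + s • g) * dw δ g) • g) (stdGaussian E) := by
  refine (integrable_norm (E := E)).mono'
    (((hf.meas.comp (by fun_prop : Measurable fun g : E => p + s • g)).mul
      (measurable_dw δ)).smul measurable_id).aestronglyMeasurable
    (Eventually.of_forall fun g => ?_)
  have h1 := hf.nonneg (p + s • g)
  have h2 := hf.le_one (p + s • g)
  have h3 := dw_pos δ g
  have h4 := dw_le_one hδ g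
  rw [norm_smul, Real.norm_eq_abs, abs_of_nonneg (mul_nonneg h1 h3.le)]
  exact mul_le_of_le_one_left (norm_nonneg _) (mul_le_one₀ h2 h3.le h4)

lemma measurable_dm {f : E → ℝ} (hf : UI f) (δ s : ℝ) : Measurable (dm f δ s) := by
  have : StronglyMeasurable (fun p : E × E => (f (p.1 + s • p.2) * dw δ p.2) • p.2) :=
    (((hf.meas.comp (by fun_prop : Measurable fun p : E × E => p.1 + s • p.2)).mul
      ((measurable_dw δ).comp measurable_snd)).smul measurable_snd).stronglyMeasurable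
  exact (StronglyMeasurable.integral_prod_right
    (f := fun x y => (f (x + s • y) * dw δ y) • y) this).measurable

lemma norm_dm_le {f : E → ℝ} (hf : UI f) {δ : ℝ} (hδ : 0 ≤ δ) (s : ℝ) (p : E) :
    ‖dm f δ s p‖ ≤ ∫ g : E, ‖g‖ ∂(stdGaussian E) := by
  refine (norm_integral_le_integral_norm _).trans ?_
  apply integral_mono (integrable_dm hf hδ s p).norm integrable_norm
  intro g
  have h1 := hf.nonneg (p + s • g)
  have h2 := hf.le_one (p + s • g)
  have h3 := dw_pos δ g
  have h4 := dw_le_one hδ g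
  simp only [norm_smul, Real.norm_eq_abs]
  rw [abs_of_nonneg (mul_nonneg h1 h3.le)]
  exact mul_le_of_le_one_left (norm_nonneg _) (mul_le_one₀ h2 h3.le h4)

lemma inner_dm {f : E → ℝ} (hf : UI f) {δ : ℝ} (hδ : 0 ≤ δ) (s : ℝ) (p u : E) :
    ⟪u, dm f δ s p⟫ = ∫ g, f (p + s • g) * (⟪u, g⟫ * dw δ g) ∂(stdGaussian E) := by
  have h1 := (innerSL ℝ u).integral_comp_comm (integrable_dm hf hδ s p)
  simp only [innerSL_apply_apply] at h1
  rw [dm, ← h1]
  congr 1; funext g
  rw [real_inner_smul_right]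
  ring

lemma integrable_norm_dm {f : E → ℝ} (hf : UI f) {δ : ℝ} (hδ : 0 ≤ δ) (c s : ℝ) :
    Integrable (fun y => dm f δ s (c • y)) (stdGaussian E) :=
  Integrable.of_bound ((measurable_dm hf δ s).comp (by fun_prop)).aestronglyMeasurable
    (∫ g : E, ‖g‖ ∂(stdGaussian E)) (Eventually.of_forall fun y => norm_dm_le hf hδ s _)

/-- integrability of the pairing on the product space -/
lemma integrable_pairing {f : E → ℝ} (hf : UI f) {δ : ℝ} (hδ : 0 ≤ δ) {u : E → E}
    (hu : Measurable u) (hu1 : ∀ y, ‖u y‖ ≤ 1) (c s : ℝ) :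
    Integrable (fun p : E × E => f (c • p.1 + s • p.2) * (⟪u p.1, p.2⟫ * dw δ p.2)) (gg E) := by
  refine ((integrable_norm (E := E)).comp_snd (stdGaussian E)).mono'
    ((hf.meas.comp (by fun_prop : Measurable fun p : E × E => c • p.1 + s • p.2)).mul
      (((hu.comp measurable_fst).inner measurable_snd).mul
        ((measurable_dw δ).comp measurable_snd))).aestronglyMeasurable
    (Eventually.of_forall fun p => ?_)
  have h1 := hf.nonneg (c • p.1 + s • p.2)
  have h2 := hf.le_one (c • p.1 + s • p.2)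
  have h3 := dw_pos δ p.2
  have h4 := dw_le_one hδ p.2
  have h5 : |⟪u p.1, p.2⟫| ≤ ‖p.2‖ :=
    (abs_real_inner_le_norm _ _).trans (mul_le_of_le_one_left (norm_nonneg _) (hu1 _))
  rw [Real.norm_eq_abs, abs_mul, abs_mul, abs_of_nonneg h1, abs_of_pos h3]
  calc f (c • p.1 + s • p.2) * (|⟪u p.1, p.2⟫| * dw δ p.2) ≤ 1 * (‖p.2‖ * 1) := by gcongr
    _ = _ := by ring

/-- **soft change of the damped momentum**. -/
theorem dm_change {f f' : E → ℝ} (hf : UI f) (hf' : UI f') {a b : ℝ} (h : Soft f f' a b)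
    {δ : ℝ} (hδ : 0 < δ) (hδ1 : δ ≤ 1) {c s : ℝ} (hcs : c ^ 2 + s ^ 2 = 1) (hs : 0 < s) :
    ∫ y, ‖dm f' δ s (c • y) - dm f δ s (c • y)‖ ∂(stdGaussian E) ≤ (a + 4 / s * b) / √δ := by
  set D : E → E := fun y => dm f' δ s (c • y) - dm f δ s (c • y) with hD
  have hDm : Measurable D := ((measurable_dm hf' δ s).comp (by fun_prop)).sub
    ((measurable_dm hf δ s).comp (by fun_prop))
  set u : E → E := fun y => ‖D y‖⁻¹ • D y with hu
  have hum : Measurable u := hDm.norm.inv.smul hDm
  have hu1 : ∀ y, ‖u y‖ ≤ 1 := by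
    intro y
    simp only [hu, norm_smul, norm_inv, norm_norm]
    exact inv_mul_le_one
  have hδ0 : 0 < √δ := Real.sqrt_pos.mpr hδ
  have i1 := integrable_pairing hf hδ.le hum hu1 c s
  have i2 := integrable_pairing hf' hδ.le hum hu1 c s
  have e1 : ∀ y, ‖D y‖ = ∫ g, (f' (c • y + s • g) - f (c • y + s • g)) * (⟪u y, g⟫ * dw δ g)
      ∂(stdGaussian E) := by
    intro y
    have h1 : ‖D y‖ = ⟪u y, D y⟫ := by
      simp only [hu, real_inner_smul_left, real_inner_self_eq_norm_sq]
      rcases eq_or_ne ‖D y‖ 0 with h0 | h0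
      · rw [h0]; simp
      · field_simp
    have hj : ∀ {k : E → ℝ}, UI k → Integrable
        (fun g => k (c • y + s • g) * (⟪u y, g⟫ * dw δ g)) (stdGaussian E) := by
      intro k hk
      have := (innerSL ℝ (u y)).integrable_comp (integrable_dm hk hδ.le s (c • y))
      refine this.congr (Eventually.of_forall fun g => ?_)
      simp only [innerSL_apply_apply, real_inner_smul_right]
      ring
    rw [h1]
    simp only [hD]
    rw [inner_sub_right, inner_dm hf' hδ.le, inner_dm hf hδ.le, ← integral_sub (hj hf') (hj hf)]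
    congr 1; funext g
    ring
  have e2 : ∫ y, ‖D y‖ ∂(stdGaussian E) = ∫ p : E × E,
      (f' (c • p.1 + s • p.2) - f (c • p.1 + s • p.2)) * (⟪u p.1, p.2⟫ * dw δ p.2) ∂(gg E) := by
    have i3 : Integrable (fun p : E × E => (f' (c • p.1 + s • p.2) - f (c • p.1 + s • p.2))
        * (⟪u p.1, p.2⟫ * dw δ p.2)) (gg E) := by
      refine (i2.sub i1).congr (Eventually.of_forall fun p => ?_)
      simp only [Pi.sub_apply]
      ring
    rw [integral_prod _ i3]
    congr 1; funext y
    exact e1 y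
  have h1 := h.ker hf hf' (ker_damp hδ.le hδ1 hum hu1) (by norm_num) hcs hs
  have e3 : ∫ p : E × E, (f' (c • p.1 + s • p.2) - f (c • p.1 + s • p.2))
      * (√δ * (⟪u p.1, p.2⟫ * dw δ p.2)) ∂(gg E) = √δ * ∫ y, ‖D y‖ ∂(stdGaussian E) := by
    rw [e2, ← integral_const_mul]
    congr 1; funext p
    ring
  rw [e3] at h1
  have h2 := (le_abs_self _).trans h1
  rw [le_div_iff₀ hδ0]
  have h3 : (2 + 2) / s * b = 4 / s * b := by norm_num
  rw [h3] at h2
  linarith

/-- **flux bound for the damped momentum**. -/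
theorem dm_flux {f : E → ℝ} (hf : UI f) {v : E} (hv : ‖v‖ ≤ 1) {F : ℝ} (hF : FluxLe f v F)
    {δ : ℝ} (hδ : 0 ≤ δ) {c s : ℝ} (hcs : c ^ 2 + s ^ 2 = 1) (hs : 0 < s) :
    ∫ y, |⟪v, dm f δ s (c • y)⟫| ∂(stdGaussian E) ≤ s * F := by
  have hMm : Measurable (fun y : E => dm f δ s (c • y)) := (measurable_dm hf δ s).comp (by fun_prop)
  set σ : E → ℝ := fun y => if 0 ≤ ⟪v, dm f δ s (c • y)⟫ then 1 else -1 with hσ
  have hσm : Measurable σ := by
    refine Measurable.ite ?_ measurable_const measurable_const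
    exact measurableSet_le measurable_const (hMm.const_inner)
  have hσ1 : ∀ y, |σ y| ≤ 1 := by
    intro y; simp only [hσ]; split_ifs <;> norm_num
  have h := flux_pair hf hF hcs hs (Ψ := fun y g => σ y * dw δ g)
    (Ψ' := fun y g => σ y * (-(δ * ⟪g, v⟫) * dw δ g))
    ((hσm.comp measurable_fst).mul ((measurable_dw δ).comp measurable_snd))
    ((hσm.comp measurable_fst).mul (((measurable_snd.inner_const).const_mul δ).neg.mul
      ((measurable_dw δ).comp measurable_snd)))
    (B := 1) (B' := √δ) (fun y g => by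
      rw [abs_mul, abs_of_pos (dw_pos δ g)]
      exact mul_le_one₀ (hσ1 y) (dw_pos δ g).le (dw_le_one hδ g))
    (fun y g => by
      have h1 : |⟪g, v⟫| ≤ ‖g‖ :=
        (abs_real_inner_le_norm _ _).trans (mul_le_of_le_one_right (norm_nonneg _) hv)
      have h2 := norm_mul_dw hδ g
      have h3 := dw_pos δ g
      have h4 : √δ * √δ = δ := Real.mul_self_sqrt hδ
      rw [abs_mul, abs_mul, abs_neg, abs_mul, abs_of_nonneg hδ, abs_of_pos h3]
      calc |σ y| * (δ * |⟪g, v⟫| * dw δ g) ≤ 1 * (δ * ‖g‖ * dw δ g) := by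
            have := hσ1 y
            gcongr
        _ = √δ * (√δ * (‖g‖ * dw δ g)) := by rw [← h4]; ring_nf; rw [Real.sqrt_sq (Real.sqrt_nonneg _)]; ring
        _ ≤ √δ * 1 := mul_le_mul_of_nonneg_left h2 (Real.sqrt_nonneg _)
        _ = √δ := mul_one _)
    (fun y g τ => (hasDerivAt_dw δ g v τ).const_mul (σ y))
  have hvc : ∀ y : E, ‖(σ y) • v‖ ≤ 1 := by
    intro y
    rw [norm_smul, Real.norm_eq_abs]
    exact mul_le_one₀ (hσ1 y) (norm_nonneg _) hv
  have hi := integrable_pairing hf hδ (hσm.smul_const v) hvc c s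
  have e0 : ∫ p : E × E, f (c • p.1 + s • p.2) * (⟪v, p.2⟫ * (σ p.1 * dw δ p.2)
      - σ p.1 * (-(δ * ⟪p.2, v⟫) * dw δ p.2)) ∂(gg E)
      = (1 + δ) * ∫ p : E × E, f (c • p.1 + s • p.2) * (⟪(σ p.1) • v, p.2⟫ * dw δ p.2) ∂(gg E) := by
    rw [← integral_const_mul]
    congr 1; funext p
    rw [real_inner_smul_left, real_inner_comm v p.2]
    ring
  rw [e0, integral_prod _ hi] at h
  have e1 : ∀ y : E, ∫ g : E, f (c • y + s • g) * (⟪(σ y) • v, g⟫ * dw δ g) ∂(stdGaussian E)
      = |⟪v, dm f δ s (c • y)⟫| := by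
    intro y
    rw [← inner_dm hf hδ s (c • y) ((σ y) • v), real_inner_smul_left]
    simp only [hσ]
    split_ifs with h4
    · rw [one_mul, abs_of_nonneg h4]
    · rw [abs_of_neg (not_le.mp h4)]; ring
  simp only [e1] at h
  have h2 := (le_abs_self _).trans h
  have h3 : 0 ≤ ∫ y, |⟪v, dm f δ s (c • y)⟫| ∂(stdGaussian E) :=
    integral_nonneg fun _ => abs_nonneg _
  have h4 : 0 ≤ δ * ∫ y, |⟪v, dm f δ s (c • y)⟫| ∂(stdGaussian E) := mul_nonneg hδ h3
  linarith

end Vale.Agent.P262.H274
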