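import Vale.Agent.P262.H274.G5

/-!
# P262, milestone 1: the integrated gradient path
-/

set_option linter.unusedSectionVars false

namespace Vale.Agent.P262.H274

open MeasureTheory ProbabilityTheory Set Filter Topology Module
open scoped RealInnerProductSpace
open Vale.Agent.P262.H847 Vale.Agent.P262.H912 Vale.Agent.P262.H941 Vale.Agent.P262.H174

variable {E : Type*} [NormedAddCommGroup E] [InnerProductSpace ℝ E] [FiniteDimensional ℝ E]
  [MeasurableSpace E] [BorelSpace E]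

/-- **Integrated gradient path.** Everything is linear in the fluxes and in the soft changes. -/
theorem grad_bound {v : ℕ → E} {N : ℝ} (hN1 : N ≤ 1) {a b : ℕ} (hab : a ≤ b)
    (hv : ∀ t, a ≤ t → t < b → ‖v t‖ ≤ 1) (hS : ¬ Slow v N 1 a b) {f fh : ℕ → E → ℝ}
    (hf : ∀ t, UI (f t)) (hfh : ∀ t, UI (fh t)) {F α β α' β' : ℕ → ℝ}
    (hF : ∀ t, a ≤ t → t < b → FluxLe (fh t) (v t) (F t))
    (h1 : ∀ t, a ≤ t → t < b → Soft (f t) (fh t) (α t) (β t))
    (h2 : ∀ t, a ≤ t → t < b → Soft (fh t) (f (t + 1)) (α' t) (β' t))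
    {δ : ℝ} (hδ : 0 < δ) (hδ1 : δ ≤ 1) {c s : ℝ} (hcs : c ^ 2 + s ^ 2 = 1) (hs : 0 < s) :
    N * ∫ y, ‖dm (f b) δ s (c • y)‖ ∂(stdGaussian E)
      ≤ 2 * ∑ t ∈ Finset.Ico a b, s * F t
        + 6 * ∑ t ∈ Finset.Ico a b, ((α t + 4 / s * β t) / √δ + (α' t + 4 / s * β' t) / √δ) := by
  set M : ℕ → E → E := fun t y => dm (f t) δ s (c • y) with hM
  set Mh : ℕ → E → E := fun t y => dm (fh t) δ s (c • y) with hMh
  have iM : ∀ t, Integrable (M t) (stdGaussian E) := fun t => integrable_norm_dm (hf t) hδ.le c s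
  have iMh : ∀ t, Integrable (Mh t) (stdGaussian E) := fun t =>
    integrable_norm_dm (hfh t) hδ.le c s
  have iv : ∀ t, Integrable (fun y => |⟪v t, Mh t y⟫|) (stdGaussian E) := fun t =>
    ((innerSL ℝ (v t)).integrable_comp (iMh t)).abs
  have i1 : ∀ t, Integrable (fun y => ‖Mh t y - M t y‖) (stdGaussian E) := fun t =>
    ((iMh t).sub (iM t)).norm
  have i2 : ∀ t, Integrable (fun y => ‖M (t + 1) y - Mh t y‖) (stdGaussian E) := fun t =>
    ((iM (t + 1)).sub (iMh t)).norm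
  have i3 : Integrable (fun y => ∑ t ∈ Finset.Ico a b, |⟪v t, Mh t y⟫|) (stdGaussian E) :=
    integrable_finsetSum _ fun t _ => iv t
  have i4 : Integrable (fun y => ∑ t ∈ Finset.Ico a b,
      (‖Mh t y - M t y‖ + ‖M (t + 1) y - Mh t y‖)) (stdGaussian E) :=
    integrable_finsetSum _ fun t _ => (i1 t).add (i2 t)
  have h3 : ∫ y, N * ‖M b y‖ ∂(stdGaussian E)
      ≤ ∫ y, (2 * ∑ t ∈ Finset.Ico a b, |⟪v t, Mh t y⟫|
        + 6 * ∑ t ∈ Finset.Ico a b, (‖Mh t y - M t y‖ + ‖M (t + 1) y - Mh t y‖))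
        ∂(stdGaussian E) :=
    integral_mono ((iM b).norm.const_mul N) ((i3.const_mul 2).add (i4.const_mul 6)) fun y =>
      grad_path_mid hN1 hab hv hS (fun t => M t y) (fun t => Mh t y)
  rw [integral_const_mul] at h3
  refine h3.trans ?_
  have e4 : ∫ y, ∑ t ∈ Finset.Ico a b, (‖Mh t y - M t y‖ + ‖M (t + 1) y - Mh t y‖)
      ∂(stdGaussian E) = ∑ t ∈ Finset.Ico a b,
        ∫ y, (‖Mh t y - M t y‖ + ‖M (t + 1) y - Mh t y‖) ∂(stdGaussian E) :=
    integral_finsetSum _ fun t _ => (i1 t).add (i2 t)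
  rw [integral_add (i3.const_mul 2) (i4.const_mul 6), integral_const_mul, integral_const_mul,
    integral_finsetSum _ (fun t _ => iv t), e4]
  refine add_le_add (mul_le_mul_of_nonneg_left (Finset.sum_le_sum fun t ht => ?_) (by norm_num))
    (mul_le_mul_of_nonneg_left (Finset.sum_le_sum fun t ht => ?_) (by norm_num))
  · rw [Finset.mem_Ico] at ht
    exact dm_flux (hfh t) (hv t ht.1 ht.2) (hF t ht.1 ht.2) hδ.le hcs hs
  · rw [Finset.mem_Ico] at ht
    rw [integral_add (i1 t) (i2 t)]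
    exact add_le_add (dm_change (hf t) (hfh t) (h1 t ht.1 ht.2) hδ hδ1 hcs hs)
      (dm_change (hfh t) (hf (t + 1)) (h2 t ht.1 ht.2) hδ hδ1 hcs hs)

end Vale.Agent.P262.H274
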