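import Vale.Agent.P262.H274.G6
import Vale.Agent.P262.H733.Cov

/-!
# P262, milestone 1: the damped momentum is a momentum of a dilated field
-/

set_option linter.unusedSectionVars false

namespace Vale.Agent.P262.H274

open MeasureTheory ProbabilityTheory Set Filter Topology Module
open scoped RealInnerProductSpace
open Vale.Agent.P262.H847 Vale.Agent.P262.H912 Vale.Agent.P262.H941 Vale.Agent.P262.H174

variable {E : Type*} [NormedAddCommGroup E] [InnerProductSpace ℝ E] [FiniteDimensional ℝ E]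
  [MeasurableSpace E] [BorelSpace E]

lemma norm_sum_basis {n : ℕ} (bs : OrthonormalBasis (Fin n) ℝ E) (x : Fin n → ℝ) :
    ‖∑ i, x i • bs i‖ ^ 2 = ∑ i, x i ^ 2 := by
  rw [← real_inner_self_eq_norm_sq, sum_inner]
  refine Finset.sum_congr rfl fun i _ => ?_
  rw [real_inner_smul_left, inner_sum, Finset.sum_eq_single i]
  · rw [real_inner_smul_right, bs.inner_eq_ite, if_pos rfl]; ring
  · intro j _ hj
    rw [real_inner_smul_right, bs.inner_eq_ite, if_neg (Ne.symm hj), mul_zero]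
  · intro h; exact absurd (Finset.mem_univ i) h

/-- **Change of variables**: damping is dilation. -/
theorem int_scale {F : E → ℝ} (hF : Measurable F) {δ : ℝ} (hδ : 0 ≤ δ) :
    ∫ x, F ((√(1 + δ))⁻¹ • x) ∂(stdGaussian E)
      = (√(1 + δ)) ^ (finrank ℝ E) * ∫ x, dw δ x * F x ∂(stdGaussian E) := by
  set bs := stdOrthonormalBasis ℝ E with hbs
  set L : (Fin (finrank ℝ E) → ℝ) → E := fun x => ∑ i, x i • bs i with hL
  have hLm : Measurable L := by fun_prop
  have e0 : stdGaussian E = (Measure.pi fun _ : Fin (finrank ℝ E) => gaussianReal 0 1).map L := rfl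
  have e1 : ∫ x, F ((√(1 + δ))⁻¹ • x) ∂(stdGaussian E)
      = ∫ x, F ((√(1 + δ))⁻¹ • L x) ∂(H733.G (finrank ℝ E)) := by
    have hm : Measurable fun x : E => F ((√(1 + δ))⁻¹ • x) :=
      hF.comp (measurable_id.const_smul _)
    rw [e0, integral_map hLm.aemeasurable hm.aestronglyMeasurable]
  have e2 : ∫ x, dw δ x * F x ∂(stdGaussian E)
      = ∫ x, dw δ (L x) * F (L x) ∂(H733.G (finrank ℝ E)) := by
    have hm : Measurable fun x : E => dw δ x * F x := (measurable_dw δ).mul hF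
    rw [e0, integral_map hLm.aemeasurable hm.aestronglyMeasurable]
  have h1 := H733.integral_T (k := finrank ℝ E) (fun _ => -δ) (fun _ => by linarith)
    (f := fun x => F (L x)) (hF.comp hLm)
  rw [e1, e2, ← integral_const_mul]
  have e3 : ∀ x : Fin (finrank ℝ E) → ℝ,
      F ((√(1 + δ))⁻¹ • L x) = F (L (H733.T (fun _ => -δ) x)) := by
    intro x
    congr 1
    simp only [hL, H733.T, Finset.smul_sum, smul_smul, sub_neg_eq_add]
  have e4 : ∀ x : Fin (finrank ℝ E) → ℝ,
      H733.R (fun _ => -δ) x = (√(1 + δ)) ^ (finrank ℝ E) * dw δ (L x) := by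
    intro x
    unfold H733.R H733.rho1 dw
    rw [Finset.prod_mul_distrib, Finset.prod_const, ← Real.exp_sum, Finset.card_univ,
      Fintype.card_fin, sub_neg_eq_add]
    congr 2
    rw [hL]
    simp only
    rw [norm_sum_basis, Finset.mul_sum, Finset.sum_div, ← Finset.sum_neg_distrib]
    exact Finset.sum_congr rfl fun i _ => by ring
  simp_rw [e3]
  rw [h1]
  congr 1; funext x
  rw [e4]; ring

/-- the damped momentum is a momentum at a slightly smaller scale. -/
theorem dm_eq {f : E → ℝ} (hf : UI f) {δ : ℝ} (hδ : 0 ≤ δ) (s : ℝ) (p : E) :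
    dm f δ s p = ((√(1 + δ))⁻¹) ^ (finrank ℝ E + 1) • mom f ((√(1 + δ))⁻¹ * s) p := by
  set κ := (√(1 + δ))⁻¹ with hκ
  have h1 : 0 < √(1 + δ) := Real.sqrt_pos.mpr (by linarith)
  apply ext_inner_left ℝ
  intro u
  rw [inner_dm hf hδ, real_inner_smul_right]
  have h2 := int_scale (F := fun g : E => f (p + s • g) * ⟪u, g⟫)
    ((hf.meas.comp (by fun_prop)).mul (by fun_prop)) hδ
  have h3 : ∫ g, f (p + s • g) * (⟪u, g⟫ * dw δ g) ∂(stdGaussian E)
      = ∫ g, dw δ g * (f (p + s • g) * ⟪u, g⟫) ∂(stdGaussian E) := by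
    congr 1; funext g; ring
  have h4 : ⟪u, mom f (κ * s) p⟫ = ∫ g, f (p + (κ * s) • g) * ⟪u, g⟫ ∂(stdGaussian E) := by
    have h5 := (innerSL ℝ u).integral_comp_comm (UI.integrable_smul
      (UI.comp hf (T := fun g => p + (κ * s) • g) (by fun_prop)))
    simp only [innerSL_apply_apply] at h5
    rw [mom, ← h5]
    congr 1; funext g
    rw [real_inner_smul_right]
  have h5 : ∫ x, f (p + s • (κ • x)) * ⟪u, κ • x⟫ ∂(stdGaussian E)
      = κ * ∫ g, f (p + (κ * s) • g) * ⟪u, g⟫ ∂(stdGaussian E) := by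
    rw [← integral_const_mul]
    congr 1; funext x
    rw [real_inner_smul_right, smul_smul, mul_comm s κ]
    ring
  rw [h3, h4]
  rw [h5] at h2
  have h6 : κ ^ (finrank ℝ E) * √(1 + δ) ^ (finrank ℝ E) = 1 := by
    rw [← mul_pow, hκ, inv_mul_cancel₀ h1.ne', one_pow]
  calc ∫ g, dw δ g * (f (p + s • g) * ⟪u, g⟫) ∂(stdGaussian E)
      = (κ ^ (finrank ℝ E) * √(1 + δ) ^ (finrank ℝ E))
        * ∫ g, dw δ g * (f (p + s • g) * ⟪u, g⟫) ∂(stdGaussian E) := by rw [h6, one_mul]
    _ = κ ^ (finrank ℝ E) * (κ * ∫ g, f (p + (κ * s) • g) * ⟪u, g⟫ ∂(stdGaussian E)) := by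
        rw [mul_assoc, ← h2]
    _ = _ := by ring

lemma mom_dilate {f : E → ℝ} {σ : ℝ} (hσ : σ ≠ 0) (c s : ℝ) (y : E) :
    mom f s (c • y) = mom (fun x => f (σ • x)) (s / σ) ((c / σ) • y) := by
  unfold mom
  congr 1; funext g
  congr 2
  rw [smul_add, smul_smul, smul_smul, mul_div_cancel₀ _ hσ, mul_div_cancel₀ _ hσ]

end Vale.Agent.P262.H274
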