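import Vale.Agent.P262.H274.G7
import Vale.Agent.P262.H967.Lossy

/-!
# P262, milestone 1: lossy gain at sick labels (no lower bound on the mass)
-/

set_option linter.unusedSectionVars false

namespace Vale.Agent.P262.H274

open MeasureTheory ProbabilityTheory Set Filter Topology Module
open scoped RealInnerProductSpace
open Vale.Agent.P262.H847 Vale.Agent.P262.H912 Vale.Agent.P262.H941 Vale.Agent.P262.H174

variable {E : Type*} [NormedAddCommGroup E] [InnerProductSpace ℝ E] [FiniteDimensional ℝ E]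
  [MeasurableSpace E] [BorelSpace E]

lemma sqrt_one_add_le_exp (δ : ℝ) : √(1 + δ) ≤ Real.exp (δ / 2) := by
  rw [Real.sqrt_le_left (Real.exp_pos _).le, ← Real.exp_nat_mul]
  have := Real.add_one_le_exp (((2:ℕ):ℝ) * (δ / 2))
  push_cast at this ⊢
  linarith

/-- the dilation factor -/
lemma dil_num {s δ : ℝ} (hs2 : s ^ 2 ≤ 1 / 10 ^ 6) (hδ : 0 < δ) :
    ∃ σ δ' : ℝ, 0 < σ ∧ σ ≤ 1 ∧ 0 ≤ δ' ∧ δ' ≤ s ^ 2 * δ ∧ (√(1 + δ'))⁻¹ = σ ∧
      σ ^ 2 = 1 - s ^ 2 * (δ / (1 + δ)) ∧ 1 / (1 + δ) ≤ σ ^ 2 := by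
  have h1δ : 0 < 1 + δ := by linarith
  have hs20 : 0 ≤ s ^ 2 := sq_nonneg s
  set w := 1 - s ^ 2 * (δ / (1 + δ)) with hw
  have hδf0 : 0 < δ / (1 + δ) := by positivity
  have hδf1 : δ / (1 + δ) ≤ 1 := by rw [div_le_one h1δ]; linarith
  have hw0 : 1 / 2 < w := by nlinarith
  have hw1 : w ≤ 1 := by nlinarith
  have hwp : 0 < w := by linarith
  have e1 : (1 + δ) * w = 1 + δ - s ^ 2 * δ := by rw [hw]; field_simp
  have hσ2 : √w ^ 2 = w := Real.sq_sqrt hwp.le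
  refine ⟨√w, 1 / w - 1, Real.sqrt_pos.mpr hwp, Real.sqrt_le_one.mpr hw1, ?_, ?_, ?_, hσ2, ?_⟩
  · rw [sub_nonneg, le_div_iff₀ hwp]; linarith
  · rw [sub_le_iff_le_add, div_le_iff₀ hwp]
    have h2 : (1 + s ^ 2 * δ) * ((1 + δ) * w) ≥ 1 + δ := by
      rw [e1]
      have : 0 ≤ s ^ 2 * δ * δ * (1 - s ^ 2) := by
        have : 0 ≤ 1 - s ^ 2 := by linarith
        positivity
      nlinarith
    have h3 : (1 + δ) * 1 ≤ (1 + δ) * ((s ^ 2 * δ + 1) * w) := by nlinarith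
    exact le_of_mul_le_mul_left h3 h1δ
  · have e2 : 1 + (1 / w - 1) = w⁻¹ := by ring
    rw [e2, Real.sqrt_inv, inv_inv]
  · rw [hσ2, div_le_iff₀ h1δ, mul_comm, e1]
    nlinarith

/-- numerical bound of the dilation Jacobian -/
lemma dil_jac {n : ℕ} {δ' : ℝ} (hδ' : 0 ≤ δ') (h : δ' * n / 2 ≤ 1 / 200) :
    √(1 + δ') ^ n ≤ 101 / 100 := by
  have hexp200 : Real.exp (1 / 200) ≤ 101 / 100 := by
    have h1 := Real.one_sub_le_exp_neg (1 / 200)
    have h2 : Real.exp (1 / 200) * Real.exp (-(1 / 200)) = 1 := by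
      rw [← Real.exp_add]; norm_num
    have h3 := Real.exp_pos (1 / 200 : ℝ)
    nlinarith
  have h1 : √(1 + δ') ^ n ≤ Real.exp (δ' / 2) ^ n :=
    pow_le_pow_left₀ (Real.sqrt_nonneg _) (sqrt_one_add_le_exp _) _
  rw [← Real.exp_nat_mul] at h1
  refine h1.trans (le_trans (Real.exp_le_exp.mpr ?_) hexp200)
  linarith

/-- dilation of a body and of a field close to it -/
theorem dil_body {f : E → ℝ} (hf : UI f) {K : Set E} (hK : Convex ℝ K)
    (hKm : MeasurableSet K) {σ δ' : ℝ} (hδ' : 0 ≤ δ') (hσδ : (√(1 + δ'))⁻¹ = σ)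
    (hm : δ' * (finrank ℝ E : ℕ) / 2 ≤ 1 / 200) (hKR : ∀ x ∈ K, δ' * ‖x‖ ^ 2 / 2 ≤ 1 / 200) :
    ∃ C : Set E, Convex ℝ C ∧ MeasurableSet C ∧
      (stdGaussian E).real C ≤ 101 / 100 * (stdGaussian E).real K ∧
      199 / 200 * (stdGaussian E).real K ≤ (stdGaussian E).real C ∧
      ∫ x, |f (σ • x) - C.indicator (fun _ => (1:ℝ)) x| ∂(stdGaussian E)
        ≤ 101 / 100 * ∫ x, |f x - K.indicator (fun _ => (1:ℝ)) x| ∂(stdGaussian E) := by
  set q := (stdGaussian E).real K with hq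
  set Z := √(1 + δ') ^ (finrank ℝ E) with hZ
  have hZ1 : 1 ≤ Z := one_le_pow₀ (by rw [Real.one_le_sqrt]; linarith)
  have hZ2 : Z ≤ 101 / 100 := dil_jac hδ' hm
  set C : Set E := (fun x : E => σ • x) ⁻¹' K with hC
  have hsm' : Measurable fun x : E => σ • x := measurable_id.const_smul σ
  have hCm : MeasurableSet C := hsm' hKm
  have hCc : Convex ℝ C := hK.linear_preimage (LinearMap.lsmul ℝ E σ)
  have hind : ∀ x, C.indicator (fun _ => (1:ℝ)) x = K.indicator (fun _ => (1:ℝ)) (σ • x) := by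
    intro x; rfl
  have hscale : ∀ {G : E → ℝ}, Measurable G → ∫ x, G (σ • x) ∂(stdGaussian E)
      = Z * ∫ x, dw δ' x * G x ∂(stdGaussian E) := by
    intro G hG
    have := int_scale hG hδ'
    rwa [hσδ] at this
  have hUK : UI (K.indicator (fun _ => (1:ℝ))) := UI.indicator hKm
  have hqC : (stdGaussian E).real C = Z * ∫ x, dw δ' x * K.indicator (fun _ => (1:ℝ)) x
      ∂(stdGaussian E) := by
    rw [← hscale (measurable_const.indicator hKm)]
    simp_rw [← hind]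
    rw [integral_indicator_const _ hCm, smul_eq_mul, mul_one]
  have hiK : Integrable (fun x => dw δ' x * K.indicator (fun _ => (1:ℝ)) x) (stdGaussian E) := by
    refine (hUK.integrable _).mono' ((measurable_dw δ').mul hUK.meas).aestronglyMeasurable
      (Eventually.of_forall fun x => ?_)
    rw [norm_mul, Real.norm_eq_abs, Real.norm_eq_abs, abs_of_pos (dw_pos _ _),
      abs_of_nonneg (hUK.nonneg x)]
    exact mul_le_of_le_one_left (hUK.nonneg x) (dw_le_one hδ' x)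
  have hintK : ∫ x, K.indicator (fun _ => (1:ℝ)) x ∂(stdGaussian E) = q := by
    rw [integral_indicator_const _ hKm, smul_eq_mul, mul_one]
  have hnn : 0 ≤ ∫ x, dw δ' x * K.indicator (fun _ => (1:ℝ)) x ∂(stdGaussian E) :=
    integral_nonneg fun x => mul_nonneg (dw_pos _ _).le (hUK.nonneg x)
  refine ⟨C, hCc, hCm, ?_, ?_, ?_⟩
  · rw [hqC]
    have h1 : ∫ x, dw δ' x * K.indicator (fun _ => (1:ℝ)) x ∂(stdGaussian E) ≤ q := by
      rw [← hintK]
      exact integral_mono hiK (hUK.integrable _) fun x =>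
        mul_le_of_le_one_left (hUK.nonneg x) (dw_le_one hδ' x)
    exact mul_le_mul hZ2 h1 hnn (by norm_num)
  · rw [hqC]
    have h1 : 199 / 200 * q ≤ ∫ x, dw δ' x * K.indicator (fun _ => (1:ℝ)) x ∂(stdGaussian E) := by
      rw [← hintK, ← integral_const_mul]
      refine integral_mono ((hUK.integrable _).const_mul _) hiK fun x => ?_
      by_cases hx : x ∈ K
      · simp only [indicator_of_mem hx, mul_one]
        have h4 := hKR x hx
        have h5 := Real.one_sub_le_exp_neg (δ' * ‖x‖ ^ 2 / 2)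
        unfold dw
        linarith
      · simp only [indicator_of_notMem hx, mul_zero, le_refl]
    nlinarith
  · simp_rw [hind]
    rw [hscale (G := fun x => |f x - K.indicator (fun _ => (1:ℝ)) x|)
      ((hf.meas.sub hUK.meas).abs)]
    have hab := ((hf.integrable (stdGaussian E)).sub (hUK.integrable _)).abs
    have h1 : ∫ x, dw δ' x * |f x - K.indicator (fun _ => (1:ℝ)) x| ∂(stdGaussian E)
        ≤ ∫ x, |f x - K.indicator (fun _ => (1:ℝ)) x| ∂(stdGaussian E) := by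
      refine integral_mono_of_nonneg (Eventually.of_forall fun x =>
        mul_nonneg (dw_pos _ _).le (abs_nonneg _)) hab (Eventually.of_forall fun x => ?_)
      exact mul_le_of_le_one_left (abs_nonneg _) (dw_le_one hδ' x)
    exact mul_le_mul hZ2 h1 (integral_nonneg fun x =>
        mul_nonneg (dw_pos _ _).le (abs_nonneg _)) (by norm_num)

/-- the scale of the dilated field -/
lemma dil_scale {s δ σ : ℝ} (hs : 0 < s) (hs2 : s ^ 2 ≤ 1 / 10 ^ 6) (hδ : 0 < δ) (hδ1 : δ ≤ 1)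
    (hσ0 : 0 < σ) (hσ1 : σ ≤ 1) (hσ2 : σ ^ 2 = 1 - s ^ 2 * (δ / (1 + δ)))
    (hσκ : 1 / (1 + δ) ≤ σ ^ 2) :
    0 < (√(1 + δ))⁻¹ * s / σ ∧ (√(1 + δ))⁻¹ * s / σ ≤ s ∧ 7 / 10 * s ≤ (√(1 + δ))⁻¹ * s / σ ∧
      √(1 - s ^ 2) / σ = √(1 - ((√(1 + δ))⁻¹ * s / σ) ^ 2) := by
  have h1δ : 0 < 1 + δ := by linarith
  have hsq : 0 < √(1 + δ) := Real.sqrt_pos.mpr h1δ
  set κ := (√(1 + δ))⁻¹ with hκ
  have hκ0 : 0 < κ := inv_pos.mpr hsq
  have hκ2 : κ ^ 2 = 1 / (1 + δ) := by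
    rw [hκ, inv_pow, Real.sq_sqrt h1δ.le, one_div]
  have hκσ : κ ≤ σ := le_of_sq_le_sq (by rw [hκ2]; exact hσκ) hσ0.le
  have hκ7 : 7 / 10 ≤ κ := by
    have h1 : √(1 + δ) ≤ 10 / 7 := by
      rw [Real.sqrt_le_left (by norm_num)]; norm_num; linarith
    rw [hκ, le_inv_comm₀ (by norm_num) hsq]
    linarith
  refine ⟨by positivity, ?_, ?_, ?_⟩
  · rw [div_le_iff₀ hσ0, mul_comm κ s]
    exact mul_le_mul_of_nonneg_left hκσ hs.le
  · rw [le_div_iff₀ hσ0]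
    calc 7 / 10 * s * σ ≤ 7 / 10 * s * 1 := mul_le_mul_of_nonneg_left hσ1 (by positivity)
      _ = 7 / 10 * s := mul_one _
      _ ≤ κ * s := mul_le_mul_of_nonneg_right hκ7 hs.le
  · have h1s : 0 ≤ 1 - s ^ 2 := by linarith
    have h2 : √(1 - s ^ 2) / σ = √((1 - s ^ 2) / σ ^ 2) := by
      rw [Real.sqrt_div h1s, Real.sqrt_sq hσ0.le]
    rw [h2]
    congr 1
    have hσp : 0 < σ ^ 2 := by positivity
    rw [div_pow, mul_pow, hκ2, div_eq_iff hσp.ne', sub_mul, div_mul_cancel₀ _ hσp.ne', one_mul,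
      hσ2]
    field_simp
    ring

/-- lower bound for the damped momentum -/
theorem sick_lower {f : E → ℝ} (hf : UI f) {K : Set E} (hK : Convex ℝ K)
    (hKm : MeasurableSet K) {R : ℝ} (hKR : ∀ x ∈ K, ‖x‖ ≤ R)
    (hq0 : 0 < (stdGaussian E).real K) (hq1 : (stdGaussian E).real K ≤ 6 / 7)
    (hfK : ∫ x, |f x - K.indicator (fun _ => (1:ℝ)) x| ∂(stdGaussian E)
      ≤ (stdGaussian E).real K / 200)
    {s : ℝ} (hs : 0 < s) (hs1 : s ≤ 1 / 1000) (hsm : 360 * (s * (finrank ℝ E : ℝ) ^ 2) ≤ 1)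
    (hsR : s * R ≤ 1 / 10) {δ : ℝ} (hδ : 0 < δ) (hδm : δ * (finrank ℝ E + 1) ≤ 1) :
    s * (stdGaussian E).real K / 100
      ≤ ∫ y, ‖dm f δ s (√(1 - s ^ 2) • y)‖ ∂(stdGaussian E) := by
  have hm0 : (0:ℝ) ≤ (finrank ℝ E : ℕ) := Nat.cast_nonneg _
  have hδ1 : δ ≤ 1 := by nlinarith
  have hδm' : δ * (finrank ℝ E : ℕ) ≤ 1 := by nlinarith
  have hs2 : s ^ 2 ≤ 1 / 10 ^ 6 := by nlinarith
  have hs20 : 0 < s ^ 2 := by positivity
  obtain ⟨σ, δ', hσ0, hσ1, hδ'0, hδ'1, hσδ, hσ2, hσκ⟩ := dil_num hs2 hδ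
  obtain ⟨hr0, hrs, hr7, hcσ⟩ := dil_scale hs hs2 hδ hδ1 hσ0 hσ1 hσ2 hσκ
  have hm1 : δ' * (finrank ℝ E : ℕ) / 2 ≤ 1 / 200 := by
    have h2 : δ' * (finrank ℝ E : ℕ) ≤ s ^ 2 * δ * (finrank ℝ E : ℕ) :=
      mul_le_mul_of_nonneg_right hδ'1 hm0
    have h3 : s ^ 2 * δ * (finrank ℝ E : ℕ) = s ^ 2 * (δ * (finrank ℝ E : ℕ)) := by ring
    nlinarith
  have hR1 : ∀ x ∈ K, δ' * ‖x‖ ^ 2 / 2 ≤ 1 / 200 := by
    intro x hx
    have h2 := hKR x hx
    have h3 := norm_nonneg x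
    have h5 : ‖x‖ ^ 2 ≤ R ^ 2 := pow_le_pow_left₀ h3 h2 2
    have h6 : δ' * ‖x‖ ^ 2 ≤ (s ^ 2 * δ) * R ^ 2 :=
      mul_le_mul hδ'1 h5 (by positivity) (by positivity)
    have h7 : (s * R) ^ 2 ≤ (1 / 10) ^ 2 :=
      pow_le_pow_left₀ (mul_nonneg hs.le (h3.trans h2)) hsR 2
    have h8 : (s ^ 2 * δ) * R ^ 2 = (s * R) ^ 2 * δ := by ring
    have h9 : (s * R) ^ 2 * δ ≤ (1 / 10) ^ 2 * 1 :=
      mul_le_mul h7 hδ1 hδ.le (by positivity)
    linarith
  obtain ⟨C, hCc, hCm, hup, hlow, hclose⟩ := dil_body hf hK hKm hδ'0 hσδ hm1 hR1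
  set q := (stdGaussian E).real K with hq
  set r := (√(1 + δ))⁻¹ * s / σ with hr
  have hg : UI (fun x => f (σ • x)) := UI.comp hf (measurable_id.const_smul σ)
  have hL := H967.mom_lower hg hCc hCm (lt_of_lt_of_le (by positivity) hlow)
    (by linarith) (by linarith) hr0
    (le_trans (by gcongr) hsm)
  have hκ0 : 0 < (√(1 + δ))⁻¹ := inv_pos.mpr (Real.sqrt_pos.mpr (by linarith))
  have hdm : ∀ y, ‖dm f δ s (√(1 - s ^ 2) • y)‖
      = (√(1 + δ))⁻¹ ^ (finrank ℝ E + 1)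
        * ‖mom (fun x => f (σ • x)) r (√(1 - r ^ 2) • y)‖ := by
    intro y
    rw [dm_eq hf hδ.le, norm_smul, norm_pow, Real.norm_eq_abs, abs_of_pos hκ0,
      mom_dilate hσ0.ne', hcσ]
  simp_rw [hdm]
  rw [integral_const_mul]
  have hκm : 3 / 5 ≤ (√(1 + δ))⁻¹ ^ (finrank ℝ E + 1) := by
    have h1 : √(1 + δ) ^ (finrank ℝ E + 1) ≤ Real.exp (1 / 2) := by
      have h2 : √(1 + δ) ^ (finrank ℝ E + 1) ≤ Real.exp (δ / 2) ^ (finrank ℝ E + 1) :=
        pow_le_pow_left₀ (Real.sqrt_nonneg _) (sqrt_one_add_le_exp _) _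
      rw [← Real.exp_nat_mul] at h2
      refine h2.trans (Real.exp_le_exp.mpr ?_)
      push_cast
      linarith
    have h3 := exp_half_le
    have h4 : 0 < √(1 + δ) ^ (finrank ℝ E + 1) := pow_pos (Real.sqrt_pos.mpr (by linarith)) _
    rw [inv_pow, le_inv_comm₀ (by norm_num) h4]
    linarith
  have h2 : 7 / 10 * s * (199 / 200 * q) ≤ r * (stdGaussian E).real C :=
    mul_le_mul hr7 hlow (by positivity) hr0.le
  have h3 : 7 / 10 * s * (199 / 200 * q) / 34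
      ≤ ∫ y, ‖mom (fun x => f (σ • x)) r (√(1 - r ^ 2) • y)‖ ∂(stdGaussian E) :=
    le_trans (div_le_div_of_nonneg_right h2 (by positivity)) hL
  have hsq0 : 0 < s * q := by positivity
  refine le_trans ?_ (mul_le_mul hκm h3 (by positivity) (by positivity))
  have e1 : 3 / 5 * (7 / 10 * s * (199 / 200 * q) / 34)
      = 4179 / 10000 / 34 * (s * q) := by ring
  rw [e1]
  have e2 : s * q / 100 = 1 / 100 * (s * q) := by ring
  rw [e2]
  apply mul_le_mul_of_nonneg_right _ hsq0.le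
  norm_num

end Vale.Agent.P262.H274
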