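import Vale.Agent.P262.H274.G8

/-!
# P262, milestone 1: lossy gain at sick labels, final form

No price, no lower bound on the mass, soft changes of the fields, intermediate fields.
-/

set_option linter.unusedSectionVars false

namespace Vale.Agent.P262.H274

open MeasureTheory ProbabilityTheory Set Filter Topology Module
open scoped RealInnerProductSpace
open Vale.Agent.P262.H847 Vale.Agent.P262.H912 Vale.Agent.P262.H941 Vale.Agent.P262.H174

variable {E : Type*} [NormedAddCommGroup E] [InnerProductSpace ℝ E] [FiniteDimensional ℝ E]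
  [MeasurableSpace E] [BorelSpace E]

/-- **Lossy gain at sick labels**: `[a,b)` not `1`-slow, end field `f b` close to `1_K`. -/
theorem gain_sick {v : ℕ → E} {N : ℝ} (hN0 : 0 ≤ N) (hN1 : N ≤ 1) {a b : ℕ} (hab : a ≤ b)
    (hv : ∀ t, a ≤ t → t < b → ‖v t‖ ≤ 1) (hS : ¬ Slow v N 1 a b) {f fh : ℕ → E → ℝ}
    (hf : ∀ t, UI (f t)) (hfh : ∀ t, UI (fh t)) {F α β α' β' : ℕ → ℝ}
    (hF : ∀ t, a ≤ t → t < b → FluxLe (fh t) (v t) (F t))
    (h1 : ∀ t, a ≤ t → t < b → Soft (f t) (fh t) (α t) (β t))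
    (h2 : ∀ t, a ≤ t → t < b → Soft (fh t) (f (t + 1)) (α' t) (β' t))
    {K : Set E} (hK : Convex ℝ K) (hKm : MeasurableSet K) {R : ℝ} (hKR : ∀ x ∈ K, ‖x‖ ≤ R)
    (hq0 : 0 < (stdGaussian E).real K) (hq1 : (stdGaussian E).real K ≤ 6 / 7)
    (hfK : ∫ x, |f b x - K.indicator (fun _ => (1:ℝ)) x| ∂(stdGaussian E)
      ≤ (stdGaussian E).real K / 200)
    {s : ℝ} (hs : 0 < s) (hs1 : s ≤ 1 / 1000) (hsm : 360 * (s * (finrank ℝ E : ℝ) ^ 2) ≤ 1)
    (hsR : s * R ≤ 1 / 10) :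
    N * s ^ 2 * (stdGaussian E).real K / (2400 * √(finrank ℝ E + 1))
      ≤ ∑ t ∈ Finset.Ico a b, (F t + (α t + β t) + (α' t + β' t)) := by
  have hm0 : (0:ℝ) ≤ (finrank ℝ E : ℕ) := Nat.cast_nonneg _
  have hm1 : (0:ℝ) < (finrank ℝ E : ℕ) + 1 := by linarith
  set δ : ℝ := 1 / ((finrank ℝ E : ℕ) + 1) with hδ
  have hδ0 : 0 < δ := by positivity
  have hδ1 : δ ≤ 1 := by rw [hδ, div_le_one hm1]; linarith
  have hδm : δ * ((finrank ℝ E : ℕ) + 1) ≤ 1 := by
    rw [hδ, one_div, inv_mul_cancel₀ hm1.ne']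
  set q := (stdGaussian E).real K with hq
  set D := √((finrank ℝ E : ℕ) + 1) with hD
  have hD1 : 1 ≤ D := by rw [hD, Real.one_le_sqrt]; linarith
  have hD0 : 0 < D := by linarith
  have hδD : √δ = 1 / D := by
    rw [hδ, one_div, Real.sqrt_inv, one_div]
  have hs2 : s ^ 2 ≤ 1 := by nlinarith
  have hcs : √(1 - s ^ 2) ^ 2 + s ^ 2 = 1 := by
    rw [Real.sq_sqrt (by linarith)]; ring
  have hL := sick_lower (hf b) hK hKm hKR hq0 hq1 hfK hs hs1 hsm hsR hδ0 hδm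
  have hU := grad_bound hN1 hab hv hS hf hfh hF h1 h2 hδ0 hδ1 hcs hs
  have h3 : N * (s * q / 100) ≤ 2 * ∑ t ∈ Finset.Ico a b, s * F t
        + 6 * ∑ t ∈ Finset.Ico a b, ((α t + 4 / s * β t) / √δ + (α' t + 4 / s * β' t) / √δ) :=
    (mul_le_mul_of_nonneg_left hL hN0).trans hU
  have h4 : 2 * ∑ t ∈ Finset.Ico a b, s * F t
        + 6 * ∑ t ∈ Finset.Ico a b, ((α t + 4 / s * β t) / √δ + (α' t + 4 / s * β' t) / √δ)
      ≤ 24 * D / s * ∑ t ∈ Finset.Ico a b, (F t + (α t + β t) + (α' t + β' t)) := by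
    rw [Finset.mul_sum, Finset.mul_sum, Finset.mul_sum, ← Finset.sum_add_distrib]
    refine Finset.sum_le_sum fun t ht => ?_
    rw [Finset.mem_Ico] at ht
    have hF0 : 0 ≤ F t := (hF t ht.1 ht.2).nonneg
    have ha0 : 0 ≤ α t := (h1 t ht.1 ht.2).nonneg
    have ha0' : 0 ≤ α' t := (h2 t ht.1 ht.2).nonneg
    rw [hδD]
    have e1 : 2 * (s * F t) + 6 * ((α t + 4 / s * β t) / (1 / D)
        + (α' t + 4 / s * β' t) / (1 / D))
        = 2 * (s * F t) + 6 * D * (α t + α' t) + 24 * D / s * (β t + β' t) := by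
      field_simp
      ring
    rw [e1]
    have h5 : 2 * (s * F t) ≤ 24 * D / s * F t := by
      rw [div_mul_eq_mul_div, le_div_iff₀ hs]
      have h6 : 2 * (s * F t) * s = (2 * s ^ 2) * F t := by ring
      rw [h6]
      apply mul_le_mul_of_nonneg_right _ hF0
      nlinarith
    have h7 : 6 * D * (α t + α' t) ≤ 24 * D / s * (α t + α' t) := by
      apply mul_le_mul_of_nonneg_right _ (by positivity)
      rw [le_div_iff₀ hs]
      nlinarith
    have e2 : 24 * D / s * (F t + (α t + β t) + (α' t + β' t))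
        = 24 * D / s * F t + 24 * D / s * (α t + α' t) + 24 * D / s * (β t + β' t) := by ring
    rw [e2]
    linarith
  have h5 := h3.trans h4
  set S0 := ∑ t ∈ Finset.Ico a b, (F t + (α t + β t) + (α' t + β' t)) with hS0
  rw [div_le_iff₀ (by positivity)]
  have h6 : N * (s * q / 100) * (100 * s) ≤ 24 * D / s * S0 * (100 * s) :=
    mul_le_mul_of_nonneg_right h5 (by positivity)
  have e3 : N * (s * q / 100) * (100 * s) = N * s ^ 2 * q := by ring
  have e4 : 24 * D / s * S0 * (100 * s) = S0 * (2400 * D) := by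
    field_simp
    ring
  rw [e3, e4] at h6
  exact h6

/-- the same for visible fields `f t` with a small hidden part at the end time:
`f b + h = 1_{Kᶜ}`. -/
theorem gain_sick_vis {v : ℕ → E} {N : ℝ} (hN0 : 0 ≤ N) (hN1 : N ≤ 1) {a b : ℕ} (hab : a ≤ b)
    (hv : ∀ t, a ≤ t → t < b → ‖v t‖ ≤ 1) (hS : ¬ Slow v N 1 a b) {f fh : ℕ → E → ℝ}
    (hf : ∀ t, UI (f t)) (hfh : ∀ t, UI (fh t)) {F α β α' β' : ℕ → ℝ}
    (hF : ∀ t, a ≤ t → t < b → FluxLe (fh t) (v t) (F t))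
    (h1 : ∀ t, a ≤ t → t < b → Soft (f t) (fh t) (α t) (β t))
    (h2 : ∀ t, a ≤ t → t < b → Soft (fh t) (f (t + 1)) (α' t) (β' t))
    {K : Set E} (hK : Convex ℝ K) (hKm : MeasurableSet K) {R : ℝ} (hKR : ∀ x ∈ K, ‖x‖ ≤ R)
    (hq0 : 0 < (stdGaussian E).real K) (hq1 : (stdGaussian E).real K ≤ 6 / 7)
    {h : E → ℝ} (hh : UI h) (hfh' : ∀ x, f b x + h x = Kᶜ.indicator (fun _ => (1:ℝ)) x)
    (hhid : ∫ x, h x ∂(stdGaussian E) ≤ (stdGaussian E).real K / 200)
    {s : ℝ} (hs : 0 < s) (hs1 : s ≤ 1 / 1000) (hsm : 360 * (s * (finrank ℝ E : ℝ) ^ 2) ≤ 1)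
    (hsR : s * R ≤ 1 / 10) :
    N * s ^ 2 * (stdGaussian E).real K / (2400 * √(finrank ℝ E + 1))
      ≤ ∑ t ∈ Finset.Ico a b, (F t + (α t + β t) + (α' t + β' t)) := by
  refine gain_sick hN0 hN1 hab hv hS (f := fun t x => 1 - f t x) (fh := fun t x => 1 - fh t x)
    (fun t => H967.UI.compl' (hf t)) (fun t => H967.UI.compl' (hfh t))
    (fun t ht1 ht2 => H967.FluxLe.compl' (hF t ht1 ht2))
    (fun t ht1 ht2 => H967.Soft.compl' (h1 t ht1 ht2))
    (fun t ht1 ht2 => H967.Soft.compl' (h2 t ht1 ht2)) hK hKm hKR hq0 hq1 ?_ hs hs1 hsm hsR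
  refine le_trans (le_of_eq ?_) hhid
  congr 1; funext x
  have h3 := hfh' x
  have h4 := hh.nonneg x
  by_cases hx : x ∈ K
  · rw [indicator_of_notMem (by simpa using hx)] at h3
    rw [indicator_of_mem hx]
    have : 1 - f b x - 1 = h x := by linarith
    rw [this, abs_of_nonneg h4]
  · rw [indicator_of_mem (by simpa using hx)] at h3
    rw [indicator_of_notMem hx]
    have : 1 - f b x - 0 = h x := by linarith
    rw [this, abs_of_nonneg h4]

end Vale.Agent.P262.H274
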