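import Vale.Agent.P262.H148.PtS2
import Vale.Agent.P262.H59.PsiE
import Vale.Agent.P262.M2.SumInt

/-!
# P262, milestone 2: the units of a level, integrated (T2)
-/

set_option linter.all false

open MeasureTheory ProbabilityTheory Set
open scoped ENNReal RealInnerProductSpace
open Vale.Agent.P262.H118 (Iv st en K2 El2 paths)
open Vale.Agent.P262.H148 (slope Psi)

namespace Vale.Agent.P262.M2.Sys

variable {E : Type*} [NormedAddCommGroup E] [InnerProductSpace ℝ E] [FiniteDimensional ℝ E]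
  [MeasurableSpace E] [BorelSpace E] {S : Sys E}

/-! ### the last state is not a start -/

lemma mT_not_start {b : ℕ} {m : ℕ} (h : S.mv.n b = m) : m ≠ S.mT := by
  rintro rfl
  have h1 : S.mv.IsStar S.mT := S.mv.isStar_iff.2 ⟨b, h.symm⟩
  have h2 := S.mv.tm_succ_star h1
  have h3 : S.mT + 1 = S.mv.n S.T := by
    have := S.mv.n_strictMono S.hT
    unfold mT
    omega
  have h4 := tm_lt_p (S := S) (le_refl S.mT)
  rw [h3, S.mv.tm_n] at h2
  omega

lemma sS_ne_mT {B : Set ℕ} {m : ℕ} (h : S.mv.sS B m = m) : m ≠ S.mT :=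
  mT_not_start (S := S) h

/-! ### real values -/

lemma hf_toReal (p : List ℕ) (m : ℕ) (x : E) :
    (S.hf p m x).toReal = |(S.F p m x).toReal - (S.De p m x).toReal| := by
  have hF : S.F p m x ≠ ⊤ := ne_top_of_le_ne_top ENNReal.one_ne_top (F_le_one _ _ _)
  have hD := De_ne_top_p (S := S) p m x
  unfold hf
  rcases le_total (S.F p m x) (S.De p m x) with h | h
  · rw [tsub_eq_zero_of_le h, zero_add, ENNReal.toReal_sub_of_le h hD, abs_sub_comm,
      abs_of_nonneg (sub_nonneg.2 (ENNReal.toReal_mono hD h))]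
  · rw [tsub_eq_zero_of_le h, add_zero, ENNReal.toReal_sub_of_le h hF,
      abs_of_nonneg (sub_nonneg.2 (ENNReal.toReal_mono hF h))]

lemma hf_ne_top (p : List ℕ) (m : ℕ) (x : E) : S.hf p m x ≠ ⊤ := by
  have hF : S.F p m x ≠ ⊤ := ne_top_of_le_ne_top ENNReal.one_ne_top (F_le_one _ _ _)
  have hD := De_ne_top_p (S := S) p m x
  unfold hf
  exact ENNReal.add_ne_top.2 ⟨ne_top_of_le_ne_top hF tsub_le_self,
    ne_top_of_le_ne_top hD tsub_le_self⟩

/-- the price of an inner counted move bounds the change of the potential -/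
lemma dPsi_le_price {G : List ℕ → ℕ → E → ℝ≥0∞} (hMv : S.MOVE G) (hth1 : S.th ≤ 1 / 2) {j : ℕ}
    (hj : j < S.nl) {m : ℕ} (hm : m < S.mT) {x : E} (hx : x ∈ S.omj j m ∩ S.inn j m)
    (hfin : S.sw (S.nd m x j) m x * G (S.nd m x j) m x ≠ ⊤) :
    |Psi S.th (S.AP j x m) (S.FP j x (m + 1)) - Psi S.th (S.AP j x m) (S.FP j x m)| ≤
      2 * (S.sw (S.nd m x j) m x * G (S.nd m x j) m x).toReal := by
  obtain ⟨h1, h2⟩ := hMv j hj m hm x hx
  have ht := tm_lt_p (S := S) hm.le
  have hnB : m + 1 ∉ S.BP j x := (inner_iff_p hm).1 hx.2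
  have hnd : S.nd m x j = S.nd (m + 1) x j := (same_of_not_B (by omega) hnB).1
  set p := S.nd m x j with hp
  have hF0 : S.F p m x ≠ ⊤ := ne_top_of_le_ne_top ENNReal.one_ne_top (F_le_one _ _ _)
  have hF1 : S.F p (m + 1) x ≠ ⊤ := ne_top_of_le_ne_top ENNReal.one_ne_top (F_le_one _ _ _)
  have hA : 0 < (S.A p m x).toReal := AR_pos (S := S) p m x
  have hb0 : 0 ≤ S.b0 := S.hA0.le.trans S.hAb
  have hZ : x ∉ S.Z p m := hx.1.2.1
  have hAb : (S.A p m x).toReal ≤ S.b0 :=
    ENNReal.toReal_le_of_le_ofReal hb0 (S.A_le_of_not_Z hZ)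
  have hA8 : (S.A p m x).toReal ≤ 1 / 8 := by
    have h2 := S.hMb
    have h3 := S.hM
    nlinarith
  have hsw : S.sw p m x = ENNReal.ofReal (slope S.th (S.A p m x).toReal
      (max (S.F p m x).toReal (S.F p (m + 1) x).toReal)) := by
    unfold sw
    rw [slp_eq, ENNReal.toReal_max hF0 hF1]
    rcases max_choice (S.F p m x) (S.F p (m + 1) x) with h | h
    · rw [h]; exact hF0
    · rw [h]; exact hF1
  have hsp := H148.slope_pos (th := S.th) hA (max (S.F p m x).toReal (S.F p (m + 1) x).toReal)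
  have hG : G p m x ≠ ⊤ := by
    intro h
    rw [h, hsw, ENNReal.mul_top (ENNReal.ofReal_pos.2 hsp).ne'] at hfin
    exact hfin rfl
  have hd : |(S.F p (m + 1) x).toReal - (S.F p m x).toReal| ≤ (G p m x).toReal := by
    have e1 := ENNReal.toReal_mono (ENNReal.add_ne_top.2 ⟨hF1, hG⟩) h1
    have e2 := ENNReal.toReal_mono (ENNReal.add_ne_top.2 ⟨hF0, hG⟩) h2
    rw [ENNReal.toReal_add hF1 hG] at e1
    rw [ENNReal.toReal_add hF0 hG] at e2
    rw [abs_le]
    constructor <;> linarith
  have e3 : S.FP j x (m + 1) = (S.F p (m + 1) x).toReal := by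
    unfold FP
    rw [← hnd]
  have e4 := H148.abs_Psi_le_max S.hth.le hth1 hA hA8 (x := (S.F p m x).toReal)
    (y := (S.F p (m + 1) x).toReal) ENNReal.toReal_nonneg ENNReal.toReal_nonneg
  rw [e3]
  refine e4.trans ?_
  rw [hsw, ENNReal.toReal_mul, ENNReal.toReal_ofReal hsp.le]
  have := mul_le_mul_of_nonneg_left hd hsp.le
  linarith

lemma close_p (hCl : S.CLOSE) {j : ℕ} (hj : j < S.nl) {m : ℕ} (hm : m ≤ S.mT) {x : E}
    (hZ : x ∉ S.Z (S.nd m x j) m) : |S.FP j x m - S.DP j x m| ≤ S.AP j x m / 4 := by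
  have h := hCl j hj m hm x hZ
  unfold FP DP AP
  rw [← hf_toReal]
  have h1 := ENNReal.toReal_mono (ENNReal.div_ne_top (S.A_ne_top _ _ _) (by norm_num)) h
  rwa [ENNReal.toReal_div, ENNReal.toReal_ofNat] at h1

/-- the block of a counted label: node, sets -/
lemma block_mem {j a k : ℕ} {x : E} (ha : a < S.mT) (hx : x ∈ S.omj j a)
    (h1 : S.bs (S.nd a x j) a x ≤ k) (h2 : k < S.be (S.nd a x j) a x) :
    k < S.mT ∧ S.nd k x j = S.nd a x j ∧ x ∈ S.omj j k ∩ S.inn j k := by
  have hta := tm_lt_p (S := S) ha.le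
  have hbe := be_le_mT_p (S := S) (x := x) (S.nd a x j) ha.le
  have hk : k < S.mT := by omega
  have hs : S.Same (S.BB (S.nd a x j) a x) a k := ⟨h1, h2.le⟩
  have hs' : S.Same (S.K.nw (S.nd a x j)) a k :=
    hs.mono (nw_sub_BB _ _ _) (S.K.zero_mem_nw _) hta
  have hnd : S.nd k x j = S.nd a x j := nd_same_p hta hs'
  have hom : x ∈ S.om (S.nd a x j) k := (om_same hs hta).2 hx.2
  refine ⟨hk, hnd, ⟨⟨?_, (OL_same_p hta hs').2 hx.1.2⟩, ?_⟩, ?_⟩
  · exact (NL_same hs' hta).2 hx.1.1
  · show x ∈ S.om (S.nd k x j) k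
    rw [hnd]
    exact hom
  · show k < S.be (S.nd k x j) k x
    rw [hnd, be_same hs hta]
    exact h2

/-- unit of a counted block, from (LBL2), in real numbers -/
lemma unit_le {G : List ℕ → ℕ → E → ℝ≥0∞} {KU : ℝ} (hKU : 0 ≤ KU) (hL : S.LBL2 G KU) {j : ℕ}
    (hj : j < S.nl) {x : E}
    (hfin : ∀ m < S.mT, x ∈ S.omj j m ∩ S.inn j m →
      S.sw (S.nd m x j) m x * G (S.nd m x j) m x ≠ ⊤) {a : ℕ} (ha : a < S.mT)
    (hx : x ∈ S.omj j a) (hbs : S.bs (S.nd a x j) a x = a) :
    S.un (S.nd a x j) a x ≠ ⊤ ∧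
    ((S.un (S.nd a x j) a x).toReal ≤ KU * ∑ m ∈ Finset.Ico a (S.be (S.nd a x j) a x),
        2 * (S.sw (S.nd m x j) m x * G (S.nd m x j) m x).toReal ∨
      (S.be (S.nd a x j) a x = S.l1 (S.nd a x j) a ∧
        (S.un (S.nd a x j) a x).toReal ≤ KU * (S.AP j x a ^ S.th *
          min ((max (S.AP j x a) (S.DP j x a)) ^ (1 - S.th))
          (S.q (S.nd a x j) (S.l1 (S.nd a x j) a) x).toReal) +
          KU * ∑ m ∈ Finset.Ico a (S.be (S.nd a x j) a x),
            2 * (S.sw (S.nd m x j) m x * G (S.nd m x j) m x).toReal)) := by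
  set p := S.nd a x j with hp
  have hblk : ∀ k ∈ Finset.Ico a (S.be p a x), k < S.mT ∧ S.nd k x j = p ∧
      x ∈ S.omj j k ∩ S.inn j k := by
    intro k hk
    rw [Finset.mem_Ico] at hk
    exact block_mem ha hx (by rw [← hp, hbs]; exact hk.1) hk.2
  have hbG : S.blkG G p a x = ∑ k ∈ Finset.Ico a (S.be p a x),
      (S.sw (S.nd k x j) k x * G (S.nd k x j) k x) := by
    unfold blkG
    rw [hbs]
    refine Finset.sum_congr rfl fun k hk => ?_
    rw [(hblk k hk).2.1]
  have hne : ∀ k ∈ Finset.Ico a (S.be p a x),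
      S.sw (S.nd k x j) k x * G (S.nd k x j) k x ≠ ⊤ := fun k hk =>
    hfin k (hblk k hk).1 (hblk k hk).2.2
  have hbne : S.blkG G p a x ≠ ⊤ := by
    rw [hbG]
    exact ENNReal.sum_ne_top.2 hne
  have hbR : (S.blkG G p a x).toReal = ∑ k ∈ Finset.Ico a (S.be p a x),
      (S.sw (S.nd k x j) k x * G (S.nd k x j) k x).toReal := by
    rw [hbG, ENNReal.toReal_sum hne]
  have hQ0 : 0 ≤ ∑ k ∈ Finset.Ico a (S.be p a x),
      (S.sw (S.nd k x j) k x * G (S.nd k x j) k x).toReal :=
    Finset.sum_nonneg fun _ _ => ENNReal.toReal_nonneg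
  have hQ2 : ∑ k ∈ Finset.Ico a (S.be p a x),
      2 * (S.sw (S.nd k x j) k x * G (S.nd k x j) k x).toReal =
      2 * (S.blkG G p a x).toReal := by
    rw [hbR, Finset.mul_sum]
  have hb0 : 0 ≤ (S.blkG G p a x).toReal := ENNReal.toReal_nonneg
  rw [hQ2]
  rcases hL j hj a ha x hx with h | ⟨h1, h2⟩
  · have hne1 : ENNReal.ofReal KU * S.blkG G p a x ≠ ⊤ :=
      ENNReal.mul_ne_top ENNReal.ofReal_ne_top hbne
    refine ⟨ne_top_of_le_ne_top hne1 h, Or.inl ?_⟩
    have h3 := ENNReal.toReal_mono hne1 h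
    rw [ENNReal.toReal_mul, ENNReal.toReal_ofReal hKU] at h3
    have := mul_nonneg hKU hb0
    linarith
  · have he : S.As S.th p a x * min (max (S.A p a x) (S.De p (S.bs p a x) x) ^ (1 - S.th))
        (S.q p (S.l1 p a) x) = S.ent p a x := by
      rw [hbs]
      rfl
    rw [← hp] at h1 h2
    rw [he] at h2
    have hne1 : ENNReal.ofReal KU * S.blkG G p a x ≠ ⊤ :=
      ENNReal.mul_ne_top ENNReal.ofReal_ne_top hbne
    have hne2 : ENNReal.ofReal KU * S.ent p a x ≠ ⊤ :=
      ENNReal.mul_ne_top ENNReal.ofReal_ne_top (ent_ne_top_p p a x)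
    have hne3 := ENNReal.add_ne_top.2 ⟨hne2, hne1⟩
    refine ⟨ne_top_of_le_ne_top hne3 h2, Or.inr ⟨h1, ?_⟩⟩
    have h3 := ENNReal.toReal_mono hne3 h2
    rw [ENNReal.toReal_add hne2 hne1, ENNReal.toReal_mul, ENNReal.toReal_mul,
      ENNReal.toReal_ofReal hKU, ent_toReal_p] at h3
    have := mul_nonneg hKU hb0
    unfold AP DP
    rw [← hp]
    linarith

open Classical in
/-- right side of (T2) at one point -/
noncomputable def rhsP (G : List ℕ → ℕ → E → ℝ≥0∞) (j : ℕ) (x : E) : ℝ≥0∞ :=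
  (∑ m ∈ Finset.range S.mT, iw (S.omj j m ∩ S.inn j m) x *
    (S.sw (S.nd m x j) m x * G (S.nd m x j) m x)) +
  ∑ m ∈ Finset.range (S.mT + 1), iw (S.omj j m ∩ S.edg j m) x *
    (S.slp (S.nd m x j) m x (S.De (S.nd m x j) m x) * S.hf (S.nd m x j) m x)

lemma iw_mem {s : Set E} {x : E} (h : x ∈ s) : iw s x = 1 := Set.indicator_of_mem h _
lemma iw_not {s : Set E} {x : E} (h : x ∉ s) : iw s x = 0 := Set.indicator_of_notMem h _

lemma slp_De (p : List ℕ) (m : ℕ) (x : E) : S.slp p m x (S.De p m x) =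
    ENNReal.ofReal (slope S.th (S.A p m x).toReal (S.De p m x).toReal) :=
  slp_eq (De_ne_top_p p m x)

open Classical in
/-- **(T2) at one point, `ENNReal` form** -/
theorem units_point {G : List ℕ → ℕ → E → ℝ≥0∞} {KU et : ℝ} {j : ℕ} (hj : j < S.nl)
    (hth1 : S.th ≤ 1 / 2) (het0 : 0 ≤ et) (hM4 : 4 ≤ S.M)
    (het : 1 ≤ et * ((S.M / 4) ^ (1 - S.th) - 2)) (hKU : 0 ≤ KU) (hMv : S.MOVE G)
    (hCl : S.CLOSE) (hL : S.LBL2 G KU) (x : E) :
    ∑ m ∈ Finset.range S.mT, iw (S.NL j m ∩ S.OL j m ∩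
        {x | x ∈ S.om (S.nd m x j) m ∧ S.bs (S.nd m x j) m x = m}) x *
        S.un (S.nd m x j) m x ≤
      ENNReal.ofReal KU * ((∑ m ∈ Finset.range S.mT,
        iw (S.NL j m ∩ S.OL j m ∩ {x | S.l0 (S.nd m x j) m = m}) x * S.ent (S.nd m x j) m x) +
        ENNReal.ofReal (2 * (2 + et)) * rhsP (S := S) G j x) := by
  classical
  -- some inner counted move has infinite price
  by_cases hfin : ∀ m < S.mT, x ∈ S.omj j m ∩ S.inn j m →
      S.sw (S.nd m x j) m x * G (S.nd m x j) m x ≠ ⊤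
  swap
  · push Not at hfin
    obtain ⟨m, hm, hx, hG⟩ := hfin
    rcases hKU.eq_or_lt with h0 | h0
    · subst h0
      have hz : ∀ a ∈ Finset.range S.mT, iw (S.NL j a ∩ S.OL j a ∩
          {x | x ∈ S.om (S.nd a x j) a ∧ S.bs (S.nd a x j) a x = a}) x *
          S.un (S.nd a x j) a x = 0 := by
        intro a ha
        by_cases h1 : x ∈ S.NL j a ∩ S.OL j a ∩
          {x | x ∈ S.om (S.nd a x j) a ∧ S.bs (S.nd a x j) a x = a}
        · have h2 : x ∈ S.omj j a := ⟨h1.1, h1.2.1⟩
          have h3 := hL j hj a (Finset.mem_range.1 ha) x h2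
          rw [ENNReal.ofReal_zero, zero_mul, zero_mul, add_zero] at h3
          have h4 : S.un (S.nd a x j) a x ≤ 0 := by
            rcases h3 with h3 | h3
            · exact h3
            · exact h3.2
          rw [le_antisymm h4 zero_le, mul_zero]
        · rw [iw_not h1, zero_mul]
      rw [Finset.sum_eq_zero hz]
      exact zero_le
    · have h1 : rhsP (S := S) G j x = ⊤ := by
        unfold rhsP
        rw [ENNReal.add_eq_top]
        left
        rw [ENNReal.sum_eq_top]
        refine ⟨m, Finset.mem_range.2 hm, ?_⟩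
        rw [iw_mem hx, one_mul]
        exact hG
      rw [h1, ENNReal.mul_top (ENNReal.ofReal_pos.2 (by linarith)).ne', add_top,
        ENNReal.mul_top (ENNReal.ofReal_pos.2 h0).ne']
      exact le_top
  set Q : ℕ → ℝ := fun m => 2 * (S.sw (S.nd m x j) m x * G (S.nd m x j) m x).toReal with hQ
  have hact : ∀ m, S.actP j x m → S.omP j x m → x ∈ S.omj j m := fun m h1 h2 =>
    act_om_iff_p.1 ⟨h1, h2⟩
  have key := units_pt' (S := S) (j := j) (x := x) hj.le hth1 het0 hM4 het (Q := Q)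
    (fun m hm ha => close_p hCl hj hm ha.2.2)
    (fun m hm ha ho hb => dPsi_le_price hMv hth1 hj hm ⟨hact m ha ho, hb⟩
      (hfin m hm ⟨hact m ha ho, hb⟩)) hKU (u := fun m => (S.un (S.nd m x j) m x).toReal)
    (fun a ha h1 h2 h3 => by
      have ha' : a < S.mT := lt_of_le_of_ne ha (sS_ne_mT (S := S) h3)
      exact (unit_le hKU hL hj hfin ha' (hact a h1 h2) h3).2)
  -- left side
  have hleft : ∑ m ∈ Finset.range S.mT, iw (S.NL j m ∩ S.OL j m ∩
        {x | x ∈ S.om (S.nd m x j) m ∧ S.bs (S.nd m x j) m x = m}) x *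
        S.un (S.nd m x j) m x ≤ ENNReal.ofReal (∑ m ∈ Finset.range (S.mT + 1),
      H148.ac (S.actP j x) (H148.fst (S.BP j x) (S.omP j x)
        fun m => (S.un (S.nd m x j) m x).toReal) m) := by
    have hnn : ∀ m, 0 ≤ H148.ac (S.actP j x) (H148.fst (S.BP j x) (S.omP j x)
        fun m => (S.un (S.nd m x j) m x).toReal) m := by
      intro m
      unfold H148.ac H148.fst
      split_ifs <;> first | exact ENNReal.toReal_nonneg | exact le_rfl
    rw [ENNReal.ofReal_sum_of_nonneg fun m _ => hnn m]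
    rw [Finset.sum_range_succ]
    refine le_trans (Finset.sum_le_sum fun m hm => ?_) le_self_add
    by_cases h1 : x ∈ S.NL j m ∩ S.OL j m ∩
        {x | x ∈ S.om (S.nd m x j) m ∧ S.bs (S.nd m x j) m x = m}
    · have h2 : x ∈ S.omj j m := ⟨h1.1, h1.2.1⟩
      have h3 := act_om_iff_p.2 h2
      have h4 := (unit_le hKU hL hj hfin (Finset.mem_range.1 hm) h2 h1.2.2).1
      rw [iw_mem h1, one_mul]
      unfold H148.ac H148.fst
      rw [if_pos h3.1, if_pos ⟨h3.2, h1.2.2⟩, ENNReal.ofReal_toReal h4]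
    · rw [iw_not h1, zero_mul]
      exact zero_le
  refine hleft.trans ((ENNReal.ofReal_le_ofReal key).trans ?_)
  -- the entrances
  have hent : ENNReal.ofReal (∑ m ∈ Finset.range (S.mT + 1), H148.ac (S.actP j x)
      (H148.flf (S.lvP j x) fun m => (S.ent (S.nd m x j) m x).toReal) m) ≤
      ∑ m ∈ Finset.range S.mT,
        iw (S.NL j m ∩ S.OL j m ∩ {x | S.l0 (S.nd m x j) m = m}) x *
          S.ent (S.nd m x j) m x := by
    have hnn : ∀ m, 0 ≤ H148.ac (S.actP j x)
      (H148.flf (S.lvP j x) fun m => (S.ent (S.nd m x j) m x).toReal) m := by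
      intro m
      unfold H148.ac H148.flf
      split_ifs <;> first | exact ENNReal.toReal_nonneg | exact le_rfl
    have hlast : H148.ac (S.actP j x)
        (H148.flf (S.lvP j x) fun m => (S.ent (S.nd m x j) m x).toReal) S.mT = 0 := by
      unfold H148.ac H148.flf
      split_ifs with h1 h2
      · exact absurd rfl (sS_ne_mT (S := S) h2)
      · rfl
      · rfl
    rw [Finset.sum_range_succ, hlast, add_zero, ENNReal.ofReal_sum_of_nonneg fun m _ => hnn m]
    refine Finset.sum_le_sum fun m hm => ?_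
    unfold H148.ac H148.flf
    split_ifs with h1 h2
    · have h3 : x ∈ S.NL j m ∩ S.OL j m ∩ {x | S.l0 (S.nd m x j) m = m} := ⟨⟨h1.1, h1.2.1⟩, h2⟩
      rw [iw_mem h3, one_mul, ENNReal.ofReal_toReal (ent_ne_top_p _ _ _)]
    · rw [ENNReal.ofReal_zero]; exact zero_le
    · rw [ENNReal.ofReal_zero]; exact zero_le
  -- the ends
  have hcv : ∀ m, 0 ≤ H148.cvA S.th (S.AP j x) (S.DP j x) (fun m => |S.FP j x m - S.DP j x m|) m ∧
      ENNReal.ofReal (H148.cvA S.th (S.AP j x) (S.DP j x)
        (fun m => |S.FP j x m - S.DP j x m|) m) =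
        2 * (S.slp (S.nd m x j) m x (S.De (S.nd m x j) m x) * S.hf (S.nd m x j) m x) := by
    intro m
    have hA : 0 < S.AP j x m := AR_pos (S := S) (S.nd m x j) m x
    have hsp := (H148.slope_pos (th := S.th) hA (S.DP j x m)).le
    unfold H148.cvA
    refine ⟨by positivity, ?_⟩
    rw [ENNReal.ofReal_mul (by norm_num), ENNReal.ofReal_mul hsp, slp_De,
      ENNReal.ofReal_ofNat]
    congr 2
    unfold FP DP
    beta_reduce
    rw [← hf_toReal, ENNReal.ofReal_toReal (hf_ne_top _ _ _)]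
  have hends : ENNReal.ofReal (∑ m ∈ Finset.range (S.mT + 1), H148.ac (S.actP j x)
      (H148.ends (S.BP j x) (S.mT + 1) (S.omP j x) (H148.cvA S.th (S.AP j x) (S.DP j x)
        fun m => |S.FP j x m - S.DP j x m|)) m) ≤
      4 * ∑ m ∈ Finset.range (S.mT + 1), iw (S.omj j m ∩ S.edg j m) x *
        (S.slp (S.nd m x j) m x (S.De (S.nd m x j) m x) * S.hf (S.nd m x j) m x) := by
    have hnn : ∀ m, 0 ≤ H148.ac (S.actP j x)
      (H148.ends (S.BP j x) (S.mT + 1) (S.omP j x) (H148.cvA S.th (S.AP j x) (S.DP j x)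
        fun m => |S.FP j x m - S.DP j x m|)) m := by
      intro m
      have := (hcv m).1
      unfold H148.ac H148.ends H148.fst H148.lst
      split_ifs <;> linarith
    rw [ENNReal.ofReal_sum_of_nonneg fun m _ => hnn m, Finset.mul_sum]
    refine Finset.sum_le_sum fun m hm => ?_
    have hm' : m ≤ S.mT := Nat.lt_succ_iff.1 (Finset.mem_range.1 hm)
    have h0 := (hcv m).1
    by_cases h1 : S.actP j x m
    · by_cases h2 : S.omP j x m
      · by_cases h3 : m ∈ S.BP j x ∨ (m + 1 ∈ S.BP j x ∨ m + 1 = S.mT + 1)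
        · have h4 : x ∈ S.omj j m ∩ S.edg j m := by
            refine ⟨hact m h1 h2, ?_⟩
            rcases h3 with h3 | h3
            · exact Or.inl h3
            · exact Or.inr ((last_iff_p hm').2 h3)
          rw [iw_mem h4, one_mul]
          have h5 : H148.ac (S.actP j x)
              (H148.ends (S.BP j x) (S.mT + 1) (S.omP j x) (H148.cvA S.th (S.AP j x) (S.DP j x)
                fun m => |S.FP j x m - S.DP j x m|)) m ≤
              2 * H148.cvA S.th (S.AP j x) (S.DP j x) (fun m => |S.FP j x m - S.DP j x m|) m := by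
            unfold H148.ac H148.ends H148.fst H148.lst
            split_ifs <;> linarith
          refine (ENNReal.ofReal_le_ofReal h5).trans (le_of_eq ?_)
          rw [ENNReal.ofReal_mul (by norm_num), (hcv m).2, ENNReal.ofReal_ofNat, ← mul_assoc]
          norm_num
        · push Not at h3
          have h4 : H148.ac (S.actP j x)
              (H148.ends (S.BP j x) (S.mT + 1) (S.omP j x) (H148.cvA S.th (S.AP j x) (S.DP j x)
                fun m => |S.FP j x m - S.DP j x m|)) m = 0 := by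
            unfold H148.ac H148.ends H148.fst H148.lst
            rw [if_pos h1, if_neg (fun h => h3.1 h.2), if_neg, add_zero]
            rintro ⟨-, h5 | h5⟩
            · exact h3.2.1 h5
            · exact h3.2.2 h5
          rw [h4, ENNReal.ofReal_zero]
          exact zero_le
      · have h4 : H148.ac (S.actP j x)
              (H148.ends (S.BP j x) (S.mT + 1) (S.omP j x) (H148.cvA S.th (S.AP j x) (S.DP j x)
                fun m => |S.FP j x m - S.DP j x m|)) m = 0 := by
            unfold H148.ac H148.ends H148.fst H148.lst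
            rw [if_pos h1, if_neg (fun h => h2 h.1), if_neg (fun h => h2 h.1), add_zero]
        rw [h4, ENNReal.ofReal_zero]
        exact zero_le
    · have h4 : H148.ac (S.actP j x)
              (H148.ends (S.BP j x) (S.mT + 1) (S.omP j x) (H148.cvA S.th (S.AP j x) (S.DP j x)
                fun m => |S.FP j x m - S.DP j x m|)) m = 0 := by
            unfold H148.ac
            rw [if_neg h1]
      rw [h4, ENNReal.ofReal_zero]
      exact zero_le
  -- the inner moves
  have hQ0 : ∀ m, 0 ≤ Q m := fun m => by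
    simp only [hQ]
    positivity
  have hinn : ENNReal.ofReal (∑ m ∈ Finset.range (S.mT + 1), H148.ac (S.actP j x)
      (H148.inn (S.BP j x) (S.mT + 1) (S.omP j x) Q) m) ≤
      2 * ∑ m ∈ Finset.range S.mT, iw (S.omj j m ∩ S.inn j m) x *
        (S.sw (S.nd m x j) m x * G (S.nd m x j) m x) := by
    have hnn : ∀ m, 0 ≤ H148.ac (S.actP j x)
      (H148.inn (S.BP j x) (S.mT + 1) (S.omP j x) Q) m := by
      intro m
      have := hQ0 m
      unfold H148.ac H148.inn
      split_ifs <;> first | exact this | exact le_rfl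
    have hlast : H148.ac (S.actP j x)
      (H148.inn (S.BP j x) (S.mT + 1) (S.omP j x) Q) S.mT = 0 := by
      unfold H148.ac H148.inn
      split_ifs with h1 h2
      · exact absurd h2.2.2 (lt_irrefl _)
      · rfl
      · rfl
    rw [Finset.sum_range_succ, hlast, add_zero, ENNReal.ofReal_sum_of_nonneg fun m _ => hnn m,
      Finset.mul_sum]
    refine Finset.sum_le_sum fun m hm => ?_
    have hm' : m < S.mT := Finset.mem_range.1 hm
    unfold H148.ac H148.inn
    split_ifs with h1 h2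
    · have h3 : x ∈ S.omj j m ∩ S.inn j m :=
        ⟨hact m h1 h2.1, (inner_iff_p hm').2 h2.2.1⟩
      rw [iw_mem h3, one_mul]
      simp only [hQ]
      rw [ENNReal.ofReal_mul (by norm_num), ENNReal.ofReal_toReal (hfin m hm' h3),
        ENNReal.ofReal_ofNat]
    · rw [ENNReal.ofReal_zero]; exact zero_le
    · rw [ENNReal.ofReal_zero]; exact zero_le
  -- together
  set a := ∑ m ∈ Finset.range (S.mT + 1), H148.ac (S.actP j x)
      (H148.flf (S.lvP j x) fun m => (S.ent (S.nd m x j) m x).toReal) m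
  set b := ∑ m ∈ Finset.range (S.mT + 1), H148.ac (S.actP j x)
      (H148.ends (S.BP j x) (S.mT + 1) (S.omP j x) (H148.cvA S.th (S.AP j x) (S.DP j x)
        fun m => |S.FP j x m - S.DP j x m|)) m
  set c := ∑ m ∈ Finset.range (S.mT + 1), H148.ac (S.actP j x)
      (H148.inn (S.BP j x) (S.mT + 1) (S.omP j x) Q) m
  have e1 : KU * a + KU * (b + (2 + et) * c) = KU * (a + (b + (2 + et) * c)) := by ring
  rw [e1, ENNReal.ofReal_mul hKU]
  refine mul_le_mul_right ?_ _
  refine ENNReal.ofReal_add_le.trans (add_le_add hent ?_)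
  refine ENNReal.ofReal_add_le.trans ?_
  rw [ENNReal.ofReal_mul (by linarith : (0 : ℝ) ≤ 2 + et)]
  have e2 : ENNReal.ofReal (2 * (2 + et)) = 2 * ENNReal.ofReal (2 + et) := by
    rw [ENNReal.ofReal_mul (by norm_num), ENNReal.ofReal_ofNat]
  have e3 : (4 : ℝ≥0∞) ≤ ENNReal.ofReal (2 * (2 + et)) := by
    rw [show (4 : ℝ≥0∞) = ENNReal.ofReal 4 by norm_num]
    exact ENNReal.ofReal_le_ofReal (by linarith)
  unfold rhsP
  rw [mul_add, add_comm]
  refine add_le_add ?_ ?_
  · refine (mul_le_mul_right hinn _).trans (le_of_eq ?_)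
    rw [e2]
    ring
  · exact hends.trans (mul_le_mul_left e3 _)

/-! ### measurability -/

lemma slp_meas_t (p : List ℕ) (m : ℕ) {s : E → ℝ≥0∞} (hs : Measurable s) :
    Measurable fun x => S.slp p m x (s x) := by
  unfold slp
  exact ((S.A_meas p m).div ((S.A_meas p m).max (hs.min measurable_const))).pow_const _

lemma sw_meas_t (p : List ℕ) (m : ℕ) : Measurable (S.sw p m) := by
  unfold sw
  exact slp_meas_t p m ((F_meas p m).max (F_meas p (m + 1)))

lemma hf_meas_t (p : List ℕ) (m : ℕ) : Measurable (S.hf p m) := by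
  unfold hf
  exact ((F_meas p m).sub (S.De_meas p m)).add ((S.De_meas p m).sub (F_meas p m))

lemma measurableSet_kl_t (p : List ℕ) (m : ℕ) (P : ℕ → Prop) :
    MeasurableSet {x | P (S.kl p m x)} :=
  (measurable_kl p m) (MeasurableSet.of_discrete (s := {c | P c}))

lemma measurableSet_omj_t (j m : ℕ) : MeasurableSet (S.omj j m) :=
  ((measurableSet_NL j m).inter (measurableSet_OL j m)).inter
    (measurableSet_nd (S := S) m j (s := fun r => S.om r m) fun r => measurableSet_om r m)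

lemma measurableSet_inn_t (j m : ℕ) : MeasurableSet (S.inn j m) :=
  measurableSet_nd (S := S) m j (s := fun r => {x | m < S.be r m x}) fun r =>
    measurableSet_kl_t r m fun c => m < S.mv.eS (S.K.B r c) m

lemma measurableSet_edg_t (j m : ℕ) : MeasurableSet (S.edg j m) :=
  measurableSet_nd (S := S) m j (s := fun r => {x | S.bs r m x = m ∨ S.be r m x = m}) fun r =>
    measurableSet_kl_t r m fun c => S.mv.sS (S.K.B r c) m = m ∨ S.mv.eS (S.K.B r c) m = m

lemma ent_meas_t (p : List ℕ) (m : ℕ) : Measurable (S.ent p m) := by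
  unfold ent
  exact (S.As_meas _ p m).mul ((((S.A_meas p m).max (S.De_meas p m)).pow_const _).min
    (S.q_meas p _))

lemma measurable_inner_t {G : List ℕ → ℕ → E → ℝ≥0∞} (hG : ∀ p m, Measurable (G p m))
    (j m : ℕ) : Measurable fun x => iw (S.omj j m ∩ S.inn j m) x *
      (S.sw (S.nd m x j) m x * G (S.nd m x j) m x) :=
  (iw_meas ((measurableSet_omj_t j m).inter (measurableSet_inn_t j m))).mul
    (measurable_nd m j (F := fun r x => S.sw r m x * G r m x) fun r =>
      (sw_meas_t r m).mul (hG r m))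

lemma measurable_edg_t (j m : ℕ) : Measurable fun x => iw (S.omj j m ∩ S.edg j m) x *
      (S.slp (S.nd m x j) m x (S.De (S.nd m x j) m x) * S.hf (S.nd m x j) m x) :=
  (iw_meas ((measurableSet_omj_t j m).inter (measurableSet_edg_t j m))).mul
    (measurable_nd m j (F := fun r x => S.slp r m x (S.De r m x) * S.hf r m x) fun r =>
      (slp_meas_t r m (S.De_meas r m)).mul (hf_meas_t r m))

lemma measurable_ent_t (j m : ℕ) : Measurable fun x =>
    iw (S.NL j m ∩ S.OL j m ∩ {x | S.l0 (S.nd m x j) m = m}) x * S.ent (S.nd m x j) m x := by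
  classical
  refine (iw_meas (((measurableSet_NL j m).inter (measurableSet_OL j m)).inter ?_)).mul
    (measurable_nd m j (F := fun r x => S.ent r m x) fun r => ent_meas_t r m)
  have e : {x | S.l0 (S.nd m x j) m = m} =
      {x | x ∈ (fun r => if S.l0 r m = m then (univ : Set E) else ∅) (S.nd m x j)} := by
    ext x
    simp only [mem_setOf_eq]
    split_ifs with h <;> simp [h]
  rw [e]
  exact measurableSet_nd (S := S) m j
    (s := fun r => if S.l0 r m = m then (univ : Set E) else ∅) fun r => by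
      show MeasurableSet (if S.l0 r m = m then (univ : Set E) else ∅)
      split_ifs
      · exact MeasurableSet.univ
      · exact MeasurableSet.empty

/-! ### (T2) -/

open Classical in
lemma sum_Pt_le (G : List ℕ → ℕ → E → ℝ≥0∞) (j : ℕ) :
    ∑ m ∈ Finset.range S.mT, S.Pt G j m ≤ S.Rt G j +
      ∑ m ∈ Finset.range S.mT, if S.mv.IsStar m then 0 else S.Pt G j m := by
  unfold Rt
  rw [← Finset.sum_add_distrib]
  refine Finset.sum_le_sum fun m _ => ?_
  split_ifs with h
  · rw [add_zero]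
    unfold Pt
    refine lintegral_mono fun x => mul_le_mul_left ?_ _
    exact Set.indicator_le_indicator_of_subset inter_subset_left (fun _ => zero_le) x
  · rw [zero_add]

open Classical in
/-- **(T2)**: the units of a level are paid by the entrances, the star activity and the prices -/
theorem T2 {G : List ℕ → ℕ → E → ℝ≥0∞} (hG : ∀ p m, Measurable (G p m)) {KU et : ℝ} {j : ℕ}
    (hj : j < S.nl) (hth1 : S.th ≤ 1 / 2) (het0 : 0 ≤ et) (hM4 : 4 ≤ S.M)
    (het : 1 ≤ et * ((S.M / 4) ^ (1 - S.th) - 2)) (hKU : 0 ≤ KU) (hMv : S.MOVE G)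
    (hCl : S.CLOSE) (hL : S.LBL2 G KU) :
    S.Ut j ≤ ENNReal.ofReal KU *
      (S.Bt j + ENNReal.ofReal (2 * (2 + et)) * (S.Rt G j + S.It G j)) := by
  classical
  have h1 : S.Ut j ≤ ∫⁻ x, ENNReal.ofReal KU * ((∑ m ∈ Finset.range S.mT,
        iw (S.NL j m ∩ S.OL j m ∩ {x | S.l0 (S.nd m x j) m = m}) x * S.ent (S.nd m x j) m x) +
        ENNReal.ofReal (2 * (2 + et)) * rhsP (S := S) G j x) ∂stdGaussian E := by
    unfold Ut
    refine (sum_lintegral_le _ _ _).trans ?_
    exact lintegral_mono fun x => units_point hj hth1 het0 hM4 het hKU hMv hCl hL x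
  refine h1.trans ?_
  rw [lintegral_const_mul' _ _ ENNReal.ofReal_ne_top]
  refine mul_le_mul_right ?_ _
  have hE : Measurable fun x => ∑ m ∈ Finset.range S.mT,
      iw (S.NL j m ∩ S.OL j m ∩ {x | S.l0 (S.nd m x j) m = m}) x * S.ent (S.nd m x j) m x :=
    Finset.measurable_sum _ fun m _ => measurable_ent_t j m
  rw [lintegral_add_left hE]
  refine add_le_add ?_ ?_
  · rw [lintegral_finset_sum _ fun m _ => measurable_ent_t j m]
    exact le_rfl
  · rw [lintegral_const_mul' _ _ ENNReal.ofReal_ne_top]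
    refine mul_le_mul_right ?_ _
    unfold rhsP
    rw [lintegral_add_left (Finset.measurable_sum _ fun m _ => measurable_inner_t hG j m),
      lintegral_finset_sum _ fun m _ => measurable_inner_t hG j m,
      lintegral_finset_sum _ fun m _ => measurable_edg_t j m]
    have h2 := sum_Pt_le (S := S) G j
    unfold It
    rw [← add_assoc]
    refine add_le_add ?_ le_rfl
    exact h2

end Vale.Agent.P262.M2.Sys
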