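import Vale.Agent.P262.M1.WMoves

/-!
# P262, milestone 1: integrated price of one elementary move
-/

set_option linter.all false

open MeasureTheory ProbabilityTheory Set
open scoped ENNReal RealInnerProductSpace
open Vale.Agent.P262.H118 (L Iv st en ONB K1 rotE ON)
open Vale.Agent.P262.H395 (fib mix Inv)
open Vale.Agent.P262.H493 (star)

namespace Vale.Agent.P262.M1.Sys

variable {E : Type*} [NormedAddCommGroup E] [InnerProductSpace ℝ E] [FiniteDimensional ℝ E]
  [MeasurableSpace E] [BorelSpace E]

open Classical in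
/-- **price of one elementary move**, integrated over the counted labels of level `l`. -/
theorem price (S : Sys E) {kap c3 cs c cq : ℝ} (hkap : 0 ≤ kap) (hc3 : 0 ≤ c3) (hc : 0 ≤ c)
    (hcq : 0 ≤ cq) (hG2 : H502.G2p S kap) (hG3 : S.G3 c3) {l m : ℕ} (hl : l ≤ S.lf)
    (hm : m < S.mT) (hre : S.IsRe m → l < S.lf ∧ S.tm m + 1 ∉ S.K.nb l) (hH : S.Healthy m)
    (hH' : S.Healthy (m + 1)) :
    ∫⁻ x, iw (S.OM l m) x * (S.Gp cs c l m x + ENNReal.ofReal cq * S.Qp l m x) ∂stdGaussian E ≤
      if S.IsStar m then ENNReal.ofReal cs * (S.gain m + S.loss m)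
      else if S.IsRe m then
        (if S.sv m < S.lf then ENNReal.ofReal (S.d * c * kap) *
          (S.Un (S.sv m) m m + S.Un (S.sv m) (m + 1) (m + 1)) else 0)
      else ENNReal.ofReal (S.d * max c cq * (c3 + kap) * S.el.ph m) *
        (S.Un (S.el.jj m) m m + S.Un (S.el.jj m) m (m + 1)) := by
  have hd2 := S.hd2
  have hld : l < S.d := by unfold lf at hl; omega
  have hd1 : (1:ℝ) ≤ S.d := by exact_mod_cast (by omega : 1 ≤ S.d)
  have hzero : ¬ (S.IsRot m ∧ S.el.jj m < l) →
      ∫⁻ x, iw (S.OM l m) x * (S.Gp cs c l m x + ENNReal.ofReal cq * S.Qp l m x) ∂stdGaussian E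
        = S.gaE cs c l m := by
    intro h
    unfold gaE
    refine lintegral_congr fun x => ?_
    have : S.Qp l m x = 0 := by unfold Qp; rw [if_neg h]
    rw [this, mul_zero]
  rcases S.cases_move m with h | h | h
  · rw [if_pos h, hzero (fun h' => IsRot.not_star S h'.1 h)]
    exact (S.gaE_star cs c hl h).le
  · have hst : ¬ S.IsStar m := IsRot.not_star S h
    have hre' : ¬ S.IsRe m := IsRot.not_re S h
    have hph : 0 ≤ S.el.ph m := (S.rot_angle h).1
    rw [if_neg hst, if_neg hre']
    rcases Nat.lt_or_ge (S.el.jj m) l with hj | hj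
    · have e1 : ∀ x, iw (S.OM l m) x * (S.Gp cs c l m x + ENNReal.ofReal cq * S.Qp l m x)
          = ENNReal.ofReal cq * (iw (S.OM l m) x * (S.Gp cs c l m x + S.Qp l m x)) := by
        intro x
        have e3 : S.Gp cs c l m x = 0 := by
          unfold Gp
          rw [if_neg hst, if_neg hre', if_neg (fun h' => absurd h'.2 (by omega))]
        rw [e3, zero_add, zero_add]
        ring
      simp_rw [e1]
      rw [lintegral_const_mul']
      swap
      · exact ENNReal.ofReal_ne_top
      have h3 := S.gaE_rot_out (cs := cs) hc hc3 hkap hG3 hG2 hm h hH hH' hld hj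
      unfold gaE at h3
      refine (mul_le_mul' le_rfl h3).trans ?_
      rw [← mul_assoc, ← ENNReal.ofReal_mul hcq]
      refine mul_le_mul' (ENNReal.ofReal_le_ofReal ?_) le_rfl
      have h4 : cq ≤ S.d * max c cq := by
        have h5 : cq ≤ max c cq := le_max_right _ _
        have h6 : 0 ≤ max c cq := hcq.trans h5
        nlinarith
      have h7 : c3 * S.el.ph m ≤ (c3 + kap) * S.el.ph m := by nlinarith
      calc cq * (c3 * S.el.ph m) ≤ (S.d * max c cq) * ((c3 + kap) * S.el.ph m) :=
            mul_le_mul h4 h7 (by positivity) (hcq.trans h4)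
        _ = _ := by ring
    · rw [hzero (fun h' => absurd h'.2 (by omega))]
      refine (S.gaE_rot_in hc hc3 hkap hG3 hG2 hm h hH hH' hj).trans ?_
      refine mul_le_mul' (ENNReal.ofReal_le_ofReal ?_) le_rfl
      have h5 : c ≤ max c cq := le_max_left _ _
      have h6 : 0 ≤ (c3 + kap) * S.el.ph m := by positivity
      calc c * S.d * (c3 + kap) * S.el.ph m = c * (S.d * ((c3 + kap) * S.el.ph m)) := by ring
        _ ≤ max c cq * (S.d * ((c3 + kap) * S.el.ph m)) :=
            mul_le_mul_of_nonneg_right h5 (by positivity)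
        _ = _ := by ring
  · have hst : ¬ S.IsStar m := IsRe.not_star S h
    rw [if_neg hst, if_pos h, hzero (fun h' => IsRot.not_re S h'.1 h)]
    obtain ⟨h1, h2⟩ := S.gaE_re (cs := cs) hc hkap hG2 hm h hH hH' hld (hre h).2
    by_cases hsv : S.sv m < S.lf
    · rw [if_pos hsv]
      refine h2.trans ?_
      refine mul_le_mul' (ENNReal.ofReal_le_ofReal (le_of_eq ?_)) le_rfl
      ring
    · rw [if_neg hsv, h1 (le_antisymm (S.sv_le m) (by omega))]

end Vale.Agent.P262.M1.Sys
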